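import Mathlib

/-
P038: one corner of the polynomial inequality for K4-free graphs (exact nonnegativity certificate).
-/

namespace Vale.Agent.P038.K4

private theorem part00_0 {r p m n i e f c7 c8 c9 c10 c11 c12 : ℝ} (hr : 0 ≤ r) (hp : 0 ≤ p) (hm : 0 ≤ m) (hn : 0 ≤ n) (hi : 0 ≤ i) (he : 0 ≤ e) (hf : 0 ≤ f) (hc7 : 0 ≤ c7) (hc8 : 0 ≤ c8) (hc9 : 0 ≤ c9) (hc10 : 0 ≤ c10) (hc11 : 0 ≤ c11) (hc12 : 0 ≤ c12) :
    0 ≤ 1622127302611200 * n * f * (-4 - 17 * r + 10 * p - m + 4 * n + 9 * i - 6 * e + 4 * f) ^ 2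
      + 322788712833417600 * i * c8 * c11
      + 179233185962476800 * p * e * c8 * c12
      + 436891177245600 * r * c11 * (-r + p - n + 10 * i - 5 * e + 2 * f) ^ 2
      + 32502819676773600 * p * c7 * c10
      + 360576537552000 * n * e * (15 * r - 10 * p - 7 * m - 6 * n + 9 * i - 7 * e) ^ 2
      + 500041999749600 * e * c8 * (2 + 12 * r - 2 * p - 9 * m - 4 * n + 8 * i + 2 * e - 2 * f) ^ 2
      + 895199503968000 * e * (1 + 14 * r - 9 * p - 3 * m + 9 * n - 10 * i - 4 * e + f) ^ 2
      + 262877537163780000 * m * e * c11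
      + 2179712108851200 * e * f * (-6 - 11 * r + 7 * p - 3 * m + 2 * n - 2 * i - 3 * e + 10 * f) ^ 2
      + 521418604510188000 * p * i * c7 * c11
      + 2592233705476800 * c8 * c12 * (-2 * r + 2 * p + 2 * m - n - i + 5 * e + 10 * f) ^ 2
      + 82788482623492800 * n * n * c9 * c10
      + 889831018692000 * c7 * (r - p + 10 * m + n - 2 * i - 3 * e - 4 * f) ^ 2
      + 8037461758788000 * m * c8 * (5 * r - 5 * p - 2 * m + n - 10 * i) ^ 2
      + 207932433559250400 * m * e * c8
      + 2259978062680800 * f * c10 * (-3 * r + 2 * m + n - 10 * i + 6 * e + 4 * f) ^ 2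
      + 36668217395779200 * m * i * c11 * c12
      + 31882211776800 * c11 * (4 * r - 4 * p - 6 * m + 9 * n + 4 * i - 10 * e - 2 * f) ^ 2
      + 1207083088965600 * n * c11 * (4 * r - 4 * p + 10 * m - 7 * n + 3 * e + 2 * f) ^ 2 := by positivity

private theorem part00_1 {r p m n i e f c7 c8 c9 c10 c11 c12 : ℝ} (hr : 0 ≤ r) (hp : 0 ≤ p) (hm : 0 ≤ m) (hn : 0 ≤ n) (hi : 0 ≤ i) (he : 0 ≤ e) (hf : 0 ≤ f) (hc7 : 0 ≤ c7) (hc8 : 0 ≤ c8) (hc9 : 0 ≤ c9) (hc10 : 0 ≤ c10) (hc11 : 0 ≤ c11) (hc12 : 0 ≤ c12) :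
    0 ≤ 1327298913864000 * c9 * c11 * (-10 * i + e) ^ 2
      + 344336751712800 * f * c12 * (-2 - 4 * r - p - m + 10 * n + i - 4 * e + 6 * f) ^ 2
      + 494825618587608000 * p * c8 * c10 * c12
      + 434189174126400 * c11 * (-6 * n - 3 * i - 3 * e + 10 * f) ^ 2
      + 242395466544000 * m * c10 * (-1 - r + 3 * p + 2 * m - 10 * n + i) ^ 2
      + 331076177063200800 * m * c8 * c8
      + 160266433071175200 * r * c7 * c9 * c10
      + 831056609275200 * n * c8 * (-10 * r + 10 * p + 9 * m + 6 * n - 5 * i + 5 * e + 2 * f) ^ 2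
      + 965574074757600 * i * c10 * (-2 * p + 2 * n + 2 * i + 10 * e - 10 * f) ^ 2
      + 3092917806871200 * p * i * (1 - r - 9 * p + 8 * n + 8 * i + 8 * e + 8 * f) ^ 2
      + 1000075721752800 * p * c11 * (-3 * m + 4 * n - 9 * i + 10 * e - 4 * f) ^ 2
      + 1078629544238400 * e * f * (8 * r - 5 * p + 7 * m + n - 10 * i + 2 * e + 5 * f) ^ 2
      + 1733785823800800 * m * c8 * (10 * r - 10 * p - 6 * m) ^ 2
      + 321894087113491200 * m * c8 * c11 * c12
      + 30594069537292800 * m * e * (4 - 4 * r - 6 * p + 2 * n + 2 * i + 2 * e + 3 * f) ^ 2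
      + 168761199694348800 * e * c10 * c11
      + 812580050620800 * c11 * (-2 * r + 2 * p + 2 * m - 2 * n - 10 * i + 6 * e + 3 * f) ^ 2
      + 1673396101238400 * r * i * (1 + 3 * r - 2 * p + 8 * n - 10 * i + e + f) ^ 2
      + 2498734464256800 * r * c8 * (-r + p + m - 10 * n - 3 * i - 3 * e + 3 * f) ^ 2
      + 1672880470984800 * e * f * (3 + 2 * r - p + m - 5 * n + 2 * i - 10 * e + 9 * f) ^ 2 := by positivity

private theorem part00_2 {r p m n i e f c7 c8 c10 c11 : ℝ} (hr : 0 ≤ r) (hp : 0 ≤ p) (hm : 0 ≤ m) (hn : 0 ≤ n) (hi : 0 ≤ i) (he : 0 ≤ e) (hf : 0 ≤ f) (hc7 : 0 ≤ c7) (hc8 : 0 ≤ c8) (hc10 : 0 ≤ c10) (hc11 : 0 ≤ c11) :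
    0 ≤ 367421395572000 * f * c8 * (-9 + 11 * r - 5 * p - 3 * m - 5 * n - 10 * i - 5 * e + 10 * f) ^ 2
      + 654894220780800 * i * c11 * (1 + r - 6 * p - 3 * m - 4 * n + 3 * i - 10 * f) ^ 2
      + 862309712325600 * p * e * (-1 - 14 * r + 10 * p + 8 * m - n - i + 6 * e - 2 * f) ^ 2
      + 128296057982400 * r * c7 * (5 * r - 5 * p + 9 * m + 8 * n - 10 * i + 8 * e + f) ^ 2
      + 454990032495583200 * p * i * e * c11
      + 294185972757600 * p * e * (-5 * r + 3 * p - 10 * n + 9 * i + e - f) ^ 2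
      + 560893704386400 * i * e * (1 - 7 * r + 6 * p + 6 * n - 8 * i - 10 * e + 9 * f) ^ 2
      + 2857555490882400 * m * c11 * (7 * r - 7 * p - 3 * m + n - 10 * i + 2 * e + 3 * f) ^ 2
      + 867961018123768800 * m * m * c7 * c8
      + 416043201420000 * n * c11 * (10 * r - 10 * p - m - 3 * n + 2 * i + 4 * e + 2 * f) ^ 2
      + 9314560332000 * n * c8 * (-4 * r + 4 * p - 10 * m - 3 * n + 4 * i - 4 * e + f) ^ 2
      + 1043760927980232000 * p * e * c7 * c10
      + 189908172749433600 * i * i * i * c11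
      + 1124521789406400 * n * e * (-1 - 16 * r + 10 * p - m + 5 * n - 3 * i - e) ^ 2
      + 128626377785136000 * i * c8
      + 203709575916000 * m * f * (4 - 9 * r + 6 * p - 4 * m - 9 * i - 2 * e - 10 * f) ^ 2
      + 6546649586400 * n * c10 * (10 - 18 * r + 8 * p - 5 * m + 8 * n + f) ^ 2
      + 5270444905017600 * m * c10 * (-10 + 6 * r + 4 * p + 9 * m + n - 3 * i + 3 * e + 3 * f) ^ 2
      + 7859667816000 * c11 * (10 * r - 10 * p - 8 * m - 10 * n - 8 * e + 7 * f) ^ 2
      + 880396805351970000 * p * p * c10 * c11 := by positivity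

private theorem part00_3 {r p m n i e f c7 c8 c9 c10 c11 : ℝ} (hr : 0 ≤ r) (hp : 0 ≤ p) (hm : 0 ≤ m) (hn : 0 ≤ n) (hi : 0 ≤ i) (he : 0 ≤ e) (hf : 0 ≤ f) (hc7 : 0 ≤ c7) (hc8 : 0 ≤ c8) (hc9 : 0 ≤ c9) (hc10 : 0 ≤ c10) (hc11 : 0 ≤ c11) :
    0 ≤ 2483370966938400 * m * c7 * (-3 * r + 3 * p - 10 * m - 7 * n + 7 * i - 2 * e + 3 * f) ^ 2
      + 8704807491441600 * m * m * (-7 + 8 * r + 2 * p + 2 * m + 3 * n + 3 * e) ^ 2
      + 69447836110514400 * i * f * c11 * c11
      + 3381986463501800 * c8 * (6 * r - 6 * p - 5 * m + 10 * n + 5 * e + 6 * f) ^ 2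
      + 554647149302400 * n * (5 * r - 5 * p - 2 * m + 10 * n - 4 * i + e - 7 * f) ^ 2
      + 349977459585600 * i * e * (-1 - 3 * r + 2 * p + m - 10 * n + 10 * i + e) ^ 2
      + 149250470852498400 * p * i * f * c8
      + 43653038276232000 * m * f * c10
      + 1629803602627200 * e * c8 * (2 * r + p - 6 * m - 2 * n - 9 * i + 10 * e + 3 * f) ^ 2
      + 205694258712584400 * m * c7 * c11
      + 990257581051200 * e * c7 * (-6 * r + 4 * p + 8 * m - 10 * n + 4 * i + 4 * e + 4 * f) ^ 2
      + 459543889240682400 * m * m * c7 * c10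
      + 185467518482400 * p * p * (10 * r - 10 * p - 7 * m + 7 * n + 4 * i + 9 * f) ^ 2
      + 368910676151740800 * m * i * e * c10
      + 107198806730400 * e * (1 + 15 * r - 10 * p - 4 * m - 9 * n + 6 * i - 3 * e) ^ 2
      + 122356198641600 * e * c9 * (1 + 16 * r - 10 * p - 4 * m + 9 * n - 8 * i - 4 * e) ^ 2
      + 446561471109600 * p * i * (2 + 9 * r - 6 * p - 10 * m - 10 * n + 8 * i - 9 * e + 4 * f) ^ 2
      + 100622106095464800 * r * r * i * c11
      + 95331742732195200 * p * p * e * c8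
      + 1210769519873760 * c9 * (10 * r - 10 * p - 7 * m + 8 * n + 2 * i + 3 * e + 8 * f) ^ 2 := by positivity

private theorem part00_4 {r p m n i e f c7 c8 c9 c10 c11 : ℝ} (hr : 0 ≤ r) (hp : 0 ≤ p) (hm : 0 ≤ m) (hn : 0 ≤ n) (hi : 0 ≤ i) (he : 0 ≤ e) (hf : 0 ≤ f) (hc7 : 0 ≤ c7) (hc8 : 0 ≤ c8) (hc9 : 0 ≤ c9) (hc10 : 0 ≤ c10) (hc11 : 0 ≤ c11) :
    0 ≤ 226023900344272800 * r * i * c9 * c11
      + 982597417401600 * r * c8 * (5 * r - 5 * p - 4 * m + 10 * n + 2 * i - 3 * e + 2 * f) ^ 2
      + 11792330827200 * (-10 * r + 10 * p + 4 * m - 4 * n - 10 * i + 10 * e - 3 * f + 2 * r * p - 15 * r * n - r * i + 3 * r * e - 2 * p * p + 7 * p * m + 8 * p * n - p * i + 2 * p * e - p * f + 6 * m * m + 2 * m * n + 3 * m * e + 2 * m * f + 9 * n * n - 3 * n * i + n * e + n * f - i * i + 3 * i * e + 3 * e * e + e * f - f * f) ^ 2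
      + 483542774668800 * c7 * (r - p + 10 * m + 4 * n - 8 * i + 3 * e + 3 * f) ^ 2
      + 1925628746354775 * c11 * (-8 * r + 8 * p + 6 * m - 10 * n + 9 * i + 2 * e + 5 * f) ^ 2
      + 596046079905091200 * p * p * e * c10
      + 7489788768000 * m * f * (-4 + 6 * r + p + 8 * m - 10 * n - 2 * i + e + 4 * f) ^ 2
      + 1111891310560800 * e * f * (-4 - 2 * r + 10 * p + 2 * m + 2 * n + 2 * i - 9 * f) ^ 2
      + 904331849097600 * f * f * (2 + 3 * r - 2 * p + 2 * m - 10 * n + 2 * i + 3 * e - 6 * f) ^ 2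
      + 586173732328800 * e * e * (4 * r - 3 * p + 2 * m - 5 * n + 2 * i + 10 * e - 8 * f) ^ 2
      + 323514352970978400 * r * e * f * c11
      + 452705099332701600 * m * n * c7 * c10
      + 120797677123200 * (r - p + n + 4 * e - 5 * f - 4 * r * r + 2 * r * p - 5 * r * m - 5 * r * n + 5 * r * i + 8 * r * e - 8 * r * f + 2 * p * p - 2 * p * m + 5 * p * n - 3 * p * i - 6 * p * e + 6 * p * f + 7 * m * m + m * n + m * i + 2 * m * e - m * f - 5 * n * n - n * i - n * e + 10 * n * f - 4 * i * i - 6 * i * e - 2 * i * f - 4 * e * e + 10 * e * f - 6 * f * f) ^ 2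
      + 45125872545600 * (10 * r - 10 * p - 5 * m + 8 * n + 5 * i - 5 * e + 2 * f - 9 * r * r + 17 * r * p + 7 * r * m + 12 * r * n - 2 * r * i + 4 * r * e + r * f - 8 * p * p - 8 * p * m - 5 * p * n + 3 * p * i - 4 * p * e - 3 * m * m + m * n - 9 * m * i - m * e + m * f + 3 * n * n + n * i - 2 * n * e + 4 * i * i - i * e - e * e + f * f) ^ 2
      + 133309171222920000 * e * e * e * c11
      + 82370347562210400 * n * n * n * c8
      + 69885395270460000 * i * i * f * c8
      + 900926027971200 * f * f * (-3 + 3 * r - 2 * p - 3 * m + 10 * n - 2 * i - 6 * e + 4 * f) ^ 2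
      + 1086167846887200 * n * f * (6 * r - 3 * p + 5 * m - 10 * n + 4 * i + 2 * e + 4 * f) ^ 2
      + 224093369253600 * f * c7 * (1 - r + p - 9 * m - 6 * n + 10 * i - 9 * f) ^ 2 := by positivity

private theorem part00_5 {r p m n i e f c8 c9 c10 c11 c12 : ℝ} (hp : 0 ≤ p) (hm : 0 ≤ m) (hn : 0 ≤ n) (hi : 0 ≤ i) (he : 0 ≤ e) (hf : 0 ≤ f) (hc8 : 0 ≤ c8) (hc9 : 0 ≤ c9) (hc10 : 0 ≤ c10) (hc11 : 0 ≤ c11) (hc12 : 0 ≤ c12) :
    0 ≤ 1330777662984000 * i * f * (-2 + 3 * r + p - m - 3 * n + 2 * i - 10 * e + 5 * f) ^ 2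
      + 228039722399966400 * n * e * e * c8
      + 140434326624160800 * p * m * c8 * c8
      + 91416602138400 * f * (1 + 2 * r - 2 * p + 4 * m - 7 * n + 10 * i - 2 * e) ^ 2
      + 3683840555656800 * e * f * (-3 - 4 * r + 7 * m - n + 10 * i - f) ^ 2
      + 7334286691485600 * e * e * (-4 + 3 * r + 7 * p - m - 2 * n - 2 * i + 2 * e + 10 * f) ^ 2
      + 440564476353170400 * f * c8 * c10
      + 44062125760699200 * m * f * c8 * c9
      + 929350342166400 * p * i * (-1 - 15 * r + 10 * p + 10 * m - 9 * n + 4 * i + 9 * e) ^ 2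
      + 343804146840000 * p * i * (2 - 9 * r + 6 * p + 6 * m - 5 * n - 7 * i + 5 * e + 10 * f) ^ 2
      + 1788814186236000 * i * f * (-2 + 3 * r - 2 * p + 2 * m + n + 4 * i - 10 * e + 5 * f) ^ 2
      + 251414287306459200 * p * m * i * c8
      + 931557590041478400 * p * m * c8 * c9
      + 71320329511200 * n * c9 * (-10 * r + 10 * p + 7 * m - 10 * n - 3 * i + 2 * e + 3 * f) ^ 2
      + 117060985671537600 * n * i * c11
      + 1781989446283200 * n * e * (-1 - 11 * r + 7 * p - 5 * m - 3 * n + 10 * i - 4 * e) ^ 2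
      + 85513943199484800 * i * f * f * c12
      + 294961985287200 * f * c10 * (10 - r + 4 * p + 2 * m + 3 * n + 3 * i + 2 * e + 3 * f) ^ 2
      + 145521482990670000 * p * c10 * c11 * c12
      + 121223719108800 * f * c10 * (-5 - 12 * r + 6 * p + 3 * m + 8 * n - 6 * i - 10 * f) ^ 2 := by positivity

private theorem part00_6 {r p m n i e f c7 c8 c9 c10 c11 c12 : ℝ} (hr : 0 ≤ r) (hp : 0 ≤ p) (hm : 0 ≤ m) (hn : 0 ≤ n) (hi : 0 ≤ i) (he : 0 ≤ e) (hf : 0 ≤ f) (hc7 : 0 ≤ c7) (hc8 : 0 ≤ c8) (hc9 : 0 ≤ c9) (hc10 : 0 ≤ c10) (hc11 : 0 ≤ c11) (hc12 : 0 ≤ c12) :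
    0 ≤ 203007534061701600 * p * p * e * c11
      + 13232693669277600 * p * c7 * (2 * r - 2 * p + 10 * m + 3 * n - 2 * i - 8 * e - f) ^ 2
      + 880899120763200 * m * f * (4 - r - 3 * p - 10 * m - 3 * n - i - 5 * e + 7 * f) ^ 2
      + 2798256230431200 * m * n * (1 + 15 * r - 8 * p - 10 * m - 3 * n - 2 * i - 3 * e + 6 * f) ^ 2
      + 1044637345382400 * p * c8 * (r - p - m + 10 * n + 2 * i + 3 * e + f) ^ 2
      + 29053546354324800 * m * c11 * c12 * c12
      + 711712697113202400 * i * f * c8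
      + 173653602645600 * (-r + p + m - 3 * n + 2 * i - 3 * e - 2 * f - 2 * r * r + r * p - r * m - 3 * r * n + 10 * r * i + 2 * r * f + p * p + p * m + 2 * p * n - 6 * p * i - 2 * p * f + 2 * m * m - 4 * m * n - 10 * m * i - m * e + 4 * m * f + n * n + 2 * n * i - 6 * n * e - 6 * n * f - i * e - 2 * i * f + 2 * f * f) ^ 2
      + 6677764583767200 * e * c10 * (7 - 5 * r - 5 * p - 2 * m + 4 * n - 3 * i + e - 3 * f) ^ 2
      + 6170965428196800 * m * c10 * (-10 + 5 * r + 5 * p + 10 * m + n - 3 * i - 3 * e) ^ 2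
      + 2329107408936000 * f * (2 - r + 3 * p + 2 * m - 4 * n - 5 * i - 10 * e - 10 * f) ^ 2
      + 813527485848000 * p * f * (-2 - 16 * r + 10 * p + 3 * m - 3 * n + 5 * i + 2 * f) ^ 2
      + 232171346284970400 * f * c7 * c11
      + 135447716527200 * e * e * (1 - 13 * r + 6 * p + 10 * m - 2 * n - 3 * i + 10 * e - 2 * f) ^ 2
      + 105596195629478400 * e * e * c8 * c11
      + 224283023949600 * f * c9 * (12 * r - 7 * p + m + 6 * n - 10 * i + e) ^ 2
      + 375093189979200 * r * f * (6 - 5 * r - 4 * p - 7 * m + 10 * n - 9 * i - 10 * e + 4 * f) ^ 2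
      + 533665420602652800 * r * e * c8 * c10
      + 145227458544537600 * n * e * c8 * c12
      + 2752898580986400 * i * e * (-10 * r + 5 * p - 3 * m + 4 * n - 2 * i + 10 * e - 7 * f) ^ 2 := by positivity

private theorem part00_7 {r p m n i e f c8 c9 c10 c11 c12 : ℝ} (hr : 0 ≤ r) (hp : 0 ≤ p) (hm : 0 ≤ m) (hn : 0 ≤ n) (hi : 0 ≤ i) (he : 0 ≤ e) (hf : 0 ≤ f) (hc8 : 0 ≤ c8) (hc9 : 0 ≤ c9) (hc10 : 0 ≤ c10) (hc11 : 0 ≤ c11) (hc12 : 0 ≤ c12) :
    0 ≤ 2370981908433600 * p * c10 * (r - p + 2 * m + 3 * n - 6 * i - e + 10 * f) ^ 2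
      + 93758261335200 * c8 * c8 * (-9 * r + 9 * p + 2 * m + 10 * n + 3 * i - 2 * e - 7 * f) ^ 2
      + 99815161723200 * n * (7 * r - 7 * p - 5 * m + 10 * n + i - 6 * e + 3 * f) ^ 2
      + 233261628276600000 * m * c8 * c8 * c12
      + 363062061885600 * e * c8 * (-10 - 14 * r + 4 * p - 9 * m + 6 * i + e + 2 * f) ^ 2
      + 426690793267200 * f * c8 * (10 + 2 * r - 4 * m + 6 * n + 2 * i - e - f) ^ 2
      + 1676369803046400 * m * e * (-4 + 6 * r - 2 * p - 4 * m + 3 * n + 6 * i + 10 * e - 4 * f) ^ 2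
      + 366972615979200 * r * c10 * (-2 * r + 2 * p + 2 * m + 10 * n - 8 * i - 3 * e + 2 * f) ^ 2
      + 1465194328567200 * f * c11 * (-2 - 2 * r - 4 * p - 10 * m + 3 * n - 2 * i - 3 * e + 2 * f) ^ 2
      + 1208446192800 * i * c9 * (1 - 3 * r + 2 * p + 4 * m + 3 * n - 10 * i + 7 * e + f) ^ 2
      + 5909235556039200 * c8 * c8 * (10 * m - 6 * n + 2 * i - e + 2 * f) ^ 2
      + 1425983796468000 * n * e * (-3 * r + 2 * p - 10 * m + 5 * n - 2 * i - f) ^ 2
      + 368744787180000 * f * (2 + 13 * r - 7 * p - 5 * m - 10 * n + 4 * i + f) ^ 2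
      + 577806083316000 * e * e * (-1 + 8 * r - 4 * p + 8 * m + 4 * n - 10 * i + 7 * e + f) ^ 2
      + 1341151250947200 * i * c10 * (10 - 17 * r + 9 * p - 7 * m - 4 * n + 5 * i) ^ 2
      + 85430114985600 * c8 * (10 * r - 10 * p - 7 * m) ^ 2
      + 163434881887200 * r * e * (-1 - 12 * r + 8 * p + 10 * m - 2 * n - 2 * i + 7 * e + f) ^ 2
      + 805995260532000 * r * f * (3 - 7 * r + 4 * p + n - 10 * i - 2 * e - 9 * f) ^ 2
      + 823306962139200 * e * e * (-1 - 10 * r + 4 * p + 9 * m + 10 * n - 2 * i + e + 5 * f) ^ 2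
      + 563941801130400 * f * f * (-1 - 7 * r + p - 2 * m + 2 * n + 10 * i - 2 * e - f) ^ 2 := by positivity

private theorem part00_8 {r p m n i e f c7 c8 c9 c10 c11 c12 : ℝ} (hr : 0 ≤ r) (hp : 0 ≤ p) (hm : 0 ≤ m) (hn : 0 ≤ n) (hi : 0 ≤ i) (he : 0 ≤ e) (hf : 0 ≤ f) (hc7 : 0 ≤ c7) (hc8 : 0 ≤ c8) (hc9 : 0 ≤ c9) (hc10 : 0 ≤ c10) (hc11 : 0 ≤ c11) (hc12 : 0 ≤ c12) :
    0 ≤ 218201290322400 * i * c7 * (-6 * r + 4 * p + 10 * m - 3 * n - 4 * i + 7 * e + f) ^ 2
      + 130755806042400 * i * e * (6 * r - 4 * p - 10 * m + 7 * n - 10 * e) ^ 2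
      + 2405433574605600 * e * (3 * p - m - 10 * n + 3 * i - 2 * e - 2 * f) ^ 2
      + 979083671227200 * e * f * (6 - 16 * r + 10 * p - 5 * m + 7 * n - i - 3 * e + 3 * f) ^ 2
      + 4268789495863200 * m * c7 * (-7 * r + 7 * p + 10 * m - 2 * n - 3 * i - 8 * e + f) ^ 2
      + 107508122013600 * f * c11 * (-4 - 11 * r + 9 * p - 9 * n + 10 * i + 2 * e + 4 * f) ^ 2
      + 978074310074400 * f * f * (-7 * r + 8 * p - 10 * m - 6 * n - i + 3 * e + 5 * f) ^ 2
      + 95745549160800 * (7 * r - 7 * p - 10 * m + 4 * n + 7 * i - 2 * e + 7 * f - 4 * r * r + 11 * r * p + 6 * r * m + 10 * r * n + 2 * r * e - 7 * p * p - 4 * p * m - 6 * p * n + 2 * p * i - 2 * p * e + 2 * p * f + 2 * m * m - 2 * m * n - 5 * m * i - 2 * m * e + 2 * m * f - 5 * n * n + n * i - n * e + n * f + 3 * i * i - i * e + i * f - 2 * e * e + f * f) ^ 2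
      + 329082541603200 * e * c8 * (5 * r + 3 * p - 2 * m - 2 * n + 10 * e - 6 * f) ^ 2
      + 30974685765408000 * i * c8 * c12 * c12
      + 1958711787648000 * p * f * (-1 + 3 * r - 3 * p + 3 * m + 10 * n - 4 * i + 2 * e + f) ^ 2
      + 298852106968800 * f * c10 * (-5 - 2 * r + p - 3 * m - 10 * n + i + 6 * e + 2 * f) ^ 2
      + 200970165765600 * n * n * (2 + 6 * r - 3 * p - 8 * m - 10 * n + 5 * i - 8 * e + f) ^ 2
      + 285910741116000 * c7 * c9 * (-10 * m - n + 5 * i - 9 * f) ^ 2
      + 2964916499529600 * p * c8 * (10 * i + 6 * e - f) ^ 2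
      + 1115481232958400 * n * c11 * (-2 * r + 2 * p + m - 2 * n + 8 * i - 10 * e + 4 * f) ^ 2
      + 105916384099310400 * m * e * c10
      + 721382651589600 * r * p * (4 * r - 4 * p - m + 10 * n - 5 * i - e) ^ 2
      + 64262699354700000 * r * r * f * c8
      + 1528552932984000 * e * c11 * (-1 + 16 * r - 10 * p + 4 * m + 5 * n - e - 4 * f) ^ 2 := by positivity

private theorem part00_9 {r p m n i e f c7 c8 c10 c11 c12 : ℝ} (hr : 0 ≤ r) (hp : 0 ≤ p) (hm : 0 ≤ m) (hn : 0 ≤ n) (hi : 0 ≤ i) (he : 0 ≤ e) (hf : 0 ≤ f) (hc7 : 0 ≤ c7) (hc8 : 0 ≤ c8) (hc10 : 0 ≤ c10) (hc11 : 0 ≤ c11) (hc12 : 0 ≤ c12) :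
    0 ≤ 1173871617811200 * i * c8 * (-3 - 12 * r + 7 * p + 7 * m - 6 * n - 2 * e + 10 * f) ^ 2
      + 1000695190572000 * r * c7 * (-10 * r + 10 * p - 4 * m - 8 * n - 2 * i + 8 * e - 3 * f) ^ 2
      + 2166764456102400 * e * c7 * (-7 + 7 * r - 3 * p + 9 * m + 10 * n + 9 * i + 3 * e + f) ^ 2
      + 1272452661849600 * p * c10 * (-10 * e + 9 * f) ^ 2
      + 64225900266343200 * p * p * i * c11
      + 743878213293600 * m * c11 * (-r + p + m - n - 6 * i + 10 * e + 8 * f) ^ 2
      + 2719251637502400 * i * c8 * (-5 + 11 * r - p - 7 * m + 5 * i - e + 4 * f) ^ 2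
      + 1999694095921368 * n * c7 * (-10 * r + 10 * p - 8 * n - 3 * i + 5 * e + f) ^ 2
      + 109871142092157600 * n * i * e * c10
      + 235302800040000 * (-5 * r + 5 * p - 6 * m + 2 * n - 5 * i + 2 * e - 2 * f - r * r + 5 * r * p + 8 * r * m - 5 * r * n - 5 * r * i - 4 * r * e - 4 * p * p + 2 * p * m + 4 * p * n + 2 * p * i + 3 * p * e + 9 * m * m + m * n - 2 * m * i - m * e + 4 * n * n + 2 * n * i + n * e - 3 * i * i + i * e - i * f) ^ 2
      + 554513762325600 * m * f * (-4 - 15 * r + 10 * p + m + n - i + 3 * e + 4 * f) ^ 2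
      + 213419297733919200 * m * e * e * c10
      + 206803567000800 * c8 * (-n + 2 * i + 9 * e - 10 * f) ^ 2
      + 348792428727388800 * n * i * c8
      + 124321063204800 * c10 * c11 * (-3 * r + 3 * p + 7 * m - 10 * n - 8 * i + 2 * e + 3 * f) ^ 2
      + 140678618952009600 * n * n * c8
      + 330785556948000 * f * c12 * (-2 + 14 * r - 10 * p + 5 * m + 3 * n + 2 * i - 2 * e + 8 * f) ^ 2
      + 221355718595827200 * p * p * i * c8
      + 1037927760408000 * e * c8 * (-1 + 4 * p - 10 * m - 5 * n + 7 * i - e + 2 * f) ^ 2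
      + 153633820586400 * p * p * (-7 * r + 7 * p + 7 * m - 2 * n - 9 * i + 7 * e + 10 * f) ^ 2 := by positivity

private theorem part00_10 {r p m n i e f c7 c8 c10 c11 c12 : ℝ} (hr : 0 ≤ r) (hp : 0 ≤ p) (hm : 0 ≤ m) (hn : 0 ≤ n) (hi : 0 ≤ i) (he : 0 ≤ e) (hf : 0 ≤ f) (hc7 : 0 ≤ c7) (hc8 : 0 ≤ c8) (hc10 : 0 ≤ c10) (hc11 : 0 ≤ c11) (hc12 : 0 ≤ c12) :
    0 ≤ 1766835197820000 * f * c8 * (2 + 4 * r - 6 * p + m + 10 * n - i - 6 * e + f) ^ 2
      + 79077513587688000 * r * p * e * c8
      + 25269043477708800 * i * i * e * c11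
      + 81549004521600 * r * (10 * r - 10 * p - 7 * m + 10 * n + 4 * i - 5 * e + 4 * f) ^ 2
      + 1888559563413600 * m * c12 * (10 * r - 10 * p - 7 * m + 9 * n + 3 * i + f) ^ 2
      + 209842338182400 * r * f * (-2 + 4 * r + p + m + 7 * n - 4 * i - 10 * e - 2 * f) ^ 2
      + 2457170223076800 * r * c10 * (-2 * n + i - 10 * e) ^ 2
      + 471303550317600 * c8 * c8 * (3 * r - 3 * p + 10 * m - 6 * n - 7 * i + 5 * e - 2 * f) ^ 2
      + 1257346717599218400 * p * p * f * c10
      + 4781578805942400 * f * f * (1 - 8 * r - 2 * p + 9 * m + 3 * n - 2 * i - e) ^ 2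
      + 7322364221911200 * n * f * (-5 + 5 * r + 5 * p - 3 * m - e + 3 * f) ^ 2
      + 634273088003200800 * i * e * c8
      + 1764623886933600 * i * c10 * (-10 + 12 * r - 8 * p + 7 * m + 4 * n + 3 * i - 2 * e + 2 * f) ^ 2
      + 587559573770400 * p * n * (-r + p - m - 10 * n + 8 * i + 5 * f) ^ 2
      + 574143323497412400 * r * m * c7 * c11
      + 1325302300476000 * n * c10 * (-8 * r + 8 * m - 4 * e + 10 * f) ^ 2
      + 2312850019788000 * m * m * (-7 + 4 * r + 6 * p + 6 * m - n - 5 * i + 4 * e + 4 * f) ^ 2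
      + 37194559891473600 * r * e * c8 * c8
      + 219736026417600 * f * c11 * (3 + 5 * r + 5 * p + 2 * m + 8 * n - 5 * i + 2 * e) ^ 2
      + 8327098533600 * (-2 * r + 2 * p + 2 * m - 3 * n - 3 * i + 3 * e - f + 9 * r * r - 15 * r * p - 7 * r * m - 13 * r * n + 6 * r * i + r * e - r * f + 6 * p * p + 7 * p * m + 9 * p * n - 6 * p * i - 2 * m * m + 5 * m * i + m * e - m * f + 10 * n * n - 6 * n * i + n * e + i * i + e * e - f * f) ^ 2 := by positivity

private theorem part00_11 {r p m n i e f c7 c8 c9 c10 c11 : ℝ} (hr : 0 ≤ r) (hp : 0 ≤ p) (hm : 0 ≤ m) (hn : 0 ≤ n) (hi : 0 ≤ i) (he : 0 ≤ e) (hf : 0 ≤ f) (hc7 : 0 ≤ c7) (hc8 : 0 ≤ c8) (hc9 : 0 ≤ c9) (hc10 : 0 ≤ c10) (hc11 : 0 ≤ c11) :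
    0 ≤ 82053527925600 * e * e * (1 - 18 * r + 10 * p - 6 * m + 2 * n + 2 * i - 7 * e - 3 * f) ^ 2
      + 143611041420000 * p * p * (2 * r - 2 * p + m + 10 * n - 8 * i + 2 * e - f) ^ 2
      + 212744788502400 * (6 * r - 6 * p + m + 10 * n - 2 * i + 4 * e + 3 * f + 12 * r * r - 16 * r * p - 8 * r * m + 4 * r * n + 12 * r * i + 7 * r * e + 2 * r * f + 4 * p * p + 4 * p * m - p * n - 10 * p * i - 3 * p * e - p * f - 10 * m * m + 9 * m * n + 6 * m * i - 3 * m * e + m * f + 8 * n * n + n * i + 2 * n * e + 2 * n * f - 9 * i * i + i * e - i * f + 3 * e * e - 2 * f * f) ^ 2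
      + 709874086100256000 * m * n * n * c8
      + 922563241545607200 * i * c8 * c8
      + 496135636920000 * f * c11 * (-6 + 2 * r - 7 * p + 10 * m + 4 * n - 7 * i - 4 * e - 8 * f) ^ 2
      + 24344328254400 * p * e * (r - p - 10 * m + 7 * n + 2 * i - 10 * e) ^ 2
      + 389440200996000 * i * c11 * (10 - 6 * r + 7 * p + 10 * m - 2 * n - 7 * i + 5 * e + 4 * f) ^ 2
      + 88697911396802400 * n * n * e * c10
      + 151818165021600 * i * (2 - 14 * r + 7 * p + 10 * m - 5 * n - 6 * i + 10 * e) ^ 2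
      + 1657535205664800 * p * c7 * (-7 * r + 7 * p + 10 * m - 8 * n - 4 * i + 7 * e + 2 * f) ^ 2
      + 166398619174603200 * e * c8
      + 1537017190632000 * c8 * c10 * (-r + p + m - 4 * n + 3 * i - e + 10 * f) ^ 2
      + 266627888049600 * m * c8 * (i + 10 * e - 10 * f) ^ 2
      + 99308267845063200 * i * c11
      + 3342685806829600 * c8 * (3 * r - 3 * p - m + 2 * n - 10 * i) ^ 2
      + 157861512433548000 * r * f * c8 * c9
      + 2197697975272800 * r * c8 * (-r + p + m - 10 * n - 4 * i + 8 * e) ^ 2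
      + 108012431278936800 * m * c7 * c8
      + 822372919572204000 * p * i * c8 * c9 := by positivity

private theorem part00_12 {r p m n i e f c7 c8 c11 c12 : ℝ} (hr : 0 ≤ r) (hp : 0 ≤ p) (hm : 0 ≤ m) (hn : 0 ≤ n) (hi : 0 ≤ i) (he : 0 ≤ e) (hf : 0 ≤ f) (hc7 : 0 ≤ c7) (hc8 : 0 ≤ c8) (hc11 : 0 ≤ c11) (hc12 : 0 ≤ c12) :
    0 ≤ 668309932936800 * n * c12 * (10 * r - 10 * p - 7 * m + 3 * n + 7 * i + 6 * f) ^ 2
      + 529401804069600 * f * c12 * (1 - 3 * r + 2 * p - 4 * m - 9 * n + 10 * i - 2 * e - 3 * f) ^ 2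
      + 4933945607421600 * m * c7 * (10 * r - 10 * p + m + 7 * n + f) ^ 2
      + 697370481007200 * m * c7 * (m - 10 * n + 6 * i) ^ 2
      + 162457751868904800 * p * f * c7 * c8
      + 259891164640800 * n * c7 * (-10 * r + 10 * p - 10 * m - 4 * i + 2 * e - 4 * f) ^ 2
      + 669620750752800 * i * e * (9 * r - 3 * p + 5 * m - n - 10 * i + 10 * e + 5 * f) ^ 2
      + 41934015446400 * n * n * (4 - r - 2 * p - 3 * m - 5 * n - i - 10 * e + 5 * f) ^ 2
      + 1858487764039200 * p * c7 * (-7 * r + 7 * p - 10 * m - 5 * n + 2 * i + e + 3 * f) ^ 2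
      + 1900022984798400 * n * c8 * (r - p + m - 4 * n - 10 * i + 2 * e + 5 * f) ^ 2
      + 173089004178182400 * e * f * c7
      + 587903047855200 * m * (6 * r - 6 * p - 3 * m + 10 * n - 2 * i + 2 * e + f) ^ 2
      + 3263365930809600 * n * e * (1 - 2 * r + 9 * m - n - i - 10 * e + 7 * f) ^ 2
      + 298898734780800 * e * c8 * (-7 - 7 * r + 10 * p + 5 * m - 8 * n + e - 6 * f) ^ 2
      + 4376091826814400 * m * i * (2 - 11 * r + 5 * p + 3 * m - 10 * n + 7 * i - 2 * e - f) ^ 2
      + 122835050553600 * r * f * (-1 - 17 * r + 10 * p - m + n + 2 * i + e) ^ 2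
      + 846612171266400 * n * i * (2 * m + 9 * n - 10 * i + 2 * e - f) ^ 2
      + 1253820502519200 * r * n * (2 * r - 2 * p + 10 * n - 7 * i + 2 * e) ^ 2
      + 236944099022400 * c11 * (10 * i + 2 * e) ^ 2
      + 396585258300000 * n * f * (-3 + 5 * r - p + 7 * m + 3 * i - 9 * e + 10 * f) ^ 2 := by positivity

private theorem part00_13 {r p m n i e f c7 c8 c9 c10 c11 c12 : ℝ} (hr : 0 ≤ r) (hp : 0 ≤ p) (hm : 0 ≤ m) (hn : 0 ≤ n) (hi : 0 ≤ i) (he : 0 ≤ e) (hf : 0 ≤ f) (hc7 : 0 ≤ c7) (hc8 : 0 ≤ c8) (hc9 : 0 ≤ c9) (hc10 : 0 ≤ c10) (hc11 : 0 ≤ c11) (hc12 : 0 ≤ c12) :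
    0 ≤ 2597430558492000 * f * c8 * (2 + 3 * r - 5 * p + 3 * m + 4 * n - 3 * i + 10 * e - 6 * f) ^ 2
      + 785019032028000 * e * (6 * r - 4 * p - m + 10 * n - 10 * i + 6 * e - f) ^ 2
      + 1268701166224800 * f * f * (-4 - 9 * r + 10 * p + 5 * m - 3 * n + 2 * i - e + 6 * f) ^ 2
      + 1975054573800000 * p * f * (6 + r - 10 * p - 3 * m - 4 * n + 10 * i - 5 * f) ^ 2
      + 625091399856000 * i * i * (2 * r - p - 4 * m - 10 * n + 9 * i) ^ 2
      + 1709098082260800 * c7 * (-3 * r + 3 * p + 10 * m - 6 * n - i + 8 * f) ^ 2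
      + 57572145338400 * e * c10 * (4 - 5 * r + 5 * p - m + 10 * n + 5 * i - 10 * e - 4 * f) ^ 2
      + 349847844746400 * i * i * (11 * r - 7 * p - 9 * m + 2 * n + 5 * i - 10 * e) ^ 2
      + 4536755784237600 * n * c8 * (3 * r - 3 * p - 4 * m + 3 * n - i + e - 10 * f) ^ 2
      + 2094277593038400 * c9 * c10 * (6 * r - 6 * p - 3 * m + 2 * n - 10 * i) ^ 2
      + 1232355677414400 * p * f * (-15 * r + 9 * p - 10 * m + n + 3 * i - 2 * f) ^ 2
      + 25247628633427200 * n * f * c10 * c12
      + 603672469092000 * e * e * (-1 - p + 10 * m - 3 * n + 4 * i + 3 * f) ^ 2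
      + 916205517270489600 * r * n * i * c8
      + 190391073317676000 * m * i * f * c10
      + 72015125403513600 * p * m * f * c10
      + 4296311954827200 * m * n * (1 - p + 2 * m + 9 * n - 10 * i - e + 3 * f) ^ 2
      + 32798648415456000 * p * m * c11 * c12
      + 628299393321600 * f * c10 * (2 * r + 4 * p - 6 * m + 4 * n - i + 10 * e - 8 * f) ^ 2
      + 94710285996480000 * n * e * c8 := by positivity

private theorem part00_14 {r p m n i e f c7 c8 c9 c10 c11 c12 : ℝ} (hr : 0 ≤ r) (hp : 0 ≤ p) (hm : 0 ≤ m) (hn : 0 ≤ n) (hi : 0 ≤ i) (he : 0 ≤ e) (hf : 0 ≤ f) (hc7 : 0 ≤ c7) (hc8 : 0 ≤ c8) (hc9 : 0 ≤ c9) (hc10 : 0 ≤ c10) (hc11 : 0 ≤ c11) (hc12 : 0 ≤ c12) :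
    0 ≤ 1570304104538400 * e * e * (1 + 2 * r + 2 * p - 5 * m + n - 10 * i + 3 * e - 5 * f) ^ 2
      + 33213995343144000 * p * m * m * c11
      + 243448207279200 * (-4 * r + 4 * p + 10 * m - 6 * n + i - 2 * e - 2 * f + 4 * r * r - 9 * r * p - 7 * r * m - r * n - 2 * r * i - r * e + 5 * p * p + 2 * p * m - p * n + p * i - p * f - 7 * m * m + 2 * m * i - m * e - 3 * m * f - n * n - 2 * n * i - f * f) ^ 2
      + 1308826565229506400 * r * i * c8 * c9
      + 1491453540561600 * c7 * c8 * (-2 * r + 2 * p - 5 * m - 2 * n - 10 * i + 7 * e - f) ^ 2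
      + 53794349532000 * n * c9 * (-2 * r + 2 * p + 4 * m + 6 * n - 10 * i + 6 * e + 3 * f) ^ 2
      + 906571241452800 * n * n * (1 - m - 10 * n + 4 * i + 5 * e + 2 * f) ^ 2
      + 1209777765926400 * p * c8 * (7 * r - 7 * p - 6 * m + n - 10 * i + 4 * f) ^ 2
      + 17901618452625600 * m * f * c10 * c10
      + 43419438386755200 * e * f * f * c11
      + 634228355376000 * e * c10 * (10 - r + 3 * p - 3 * m + 5 * i + e - f) ^ 2
      + 1444828662446400 * e * c10 * (9 - 2 * r + 10 * p - 5 * m - n - 3 * i + 2 * e + 9 * f) ^ 2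
      + 833281227424800 * p * e * (-1 - 15 * r + 10 * p - 2 * m + 5 * n + i - e) ^ 2
      + 494147239695153000 * r * m * c7 * c8
      + 13439078452800 * n * (4 * r - 4 * p + 10 * n - 7 * i + 4 * e) ^ 2
      + 4805382798045720 * r * c8 * (5 * r - 5 * p - 2 * m + n - 10 * i) ^ 2
      + 4332743783676000 * n * c10 * (-4 + 13 * r - 10 * p + 3 * m - n - 6 * i) ^ 2
      + 149484467759457600 * i * c9 * c9 * c10
      + 3006039989205000 * c7 * c8 * (-r + p + 10 * m - 3 * n + 9 * i - 2 * e) ^ 2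
      + 243832965314400 * n * c12 * (-4 * r + 4 * p - 10 * n + 7 * i - 5 * e) ^ 2 := by positivity

private theorem part00_15 {r p m n i e f c7 c8 c9 c10 c11 : ℝ} (hr : 0 ≤ r) (hp : 0 ≤ p) (hm : 0 ≤ m) (hn : 0 ≤ n) (hi : 0 ≤ i) (he : 0 ≤ e) (hf : 0 ≤ f) (hc7 : 0 ≤ c7) (hc8 : 0 ≤ c8) (hc9 : 0 ≤ c9) (hc10 : 0 ≤ c10) (hc11 : 0 ≤ c11) :
    0 ≤ 108010794660199200 * c8 * c8 * c10
      + 918786156472800 * i * f * (-2 + 6 * r + p - 8 * m + 10 * n - 8 * i - 4 * e) ^ 2
      + 137015668389600 * i * c10 * (9 - 17 * r + 10 * p - 6 * m - 8 * n + 10 * i) ^ 2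
      + 45585924228583200 * m * m * c7 * c11
      + 49364642008281600 * n * i * c9 * c11
      + 406631496599697600 * r * f * c8 * c10
      + 257994521805636000 * i * i * i * c8
      + 1861061204217600 * n * f * (8 * r - 5 * p - m + 10 * n - 5 * i + e - 2 * f) ^ 2
      + 918906960751164000 * r * f * c7 * c10
      + 1541382182524800 * f * (-19 * r + 10 * p - m - 3 * n + 3 * i - f) ^ 2
      + 507589942305600 * r * f * (-1 - 2 * r + 3 * p + 6 * m + 10 * n - 10 * i + e - 3 * f) ^ 2
      + 513991477977859800 * p * p * c8 * c10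
      + 1000079598672000 * f * c9 * (-2 + 2 * r + p + 8 * m - 10 * n + 9 * i + 2 * e + f) ^ 2
      + 10496655079680 * r * n * n
      + 10715407626000 * r * r * i
      + 10131132113520 * r * m * m
      + 10413430702400 * r * n * e
      + 10373358534000 * r * n * f
      + 10455661708800 * r * e
      + 10410571987200 * r * f := by positivity

private theorem part00_16 {r p m n i e f : ℝ} (hr : 0 ≤ r) (hp : 0 ≤ p) (hm : 0 ≤ m) (hn : 0 ≤ n) (hi : 0 ≤ i) (he : 0 ≤ e) (hf : 0 ≤ f) :
    0 ≤ 10665715068800 * r * m * e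
      + 10747674471600 * r * m * f
      + 10463389157760 * n * n
      + 10292959168800 * r * i
      + 10497374293560 * m * m
      + 10463759041120 * n * e
      + 10448563984320 * n * f
      + 10481024030400 * e
      + 10494455522320 * m * e
      + 10505126644320 * m * f
      + 10516835862720 * m * n * n
      + 9447812237600 * r * m * i
      + 10785582630240 * m * m * m
      + 10568088416160 * m * n * e
      + 10594205774460 * m * n * f
      + 10500698651520 * m * n
      + 10419954411900 * p * m * m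
      + 10384606783980 * m * m * e
      + 10321956706380 * m * m * f
      + 10484607169080 * r * m * n * n := by positivity

private theorem part00_17 {r p m n i e f : ℝ} (hr : 0 ≤ r) (hp : 0 ≤ p) (hm : 0 ≤ m) (hn : 0 ≤ n) (hi : 0 ≤ i) (he : 0 ≤ e) (hf : 0 ≤ f) :
    0 ≤ 10979743744800 * r * r * m * i
      + 10116198417600 * r * m * m * m
      + 10366398979200 * r * m * n * e
      + 10503533003040 * r * m * n * f
      + 10546033217280 * r * m * n
      + 9491270699880 * r * p * m * m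
      + 10940771113200 * r * m * m * e
      + 10788869869200 * r * m * m * f
      + 10856356208280 * r * r * m * m
      + 10478299708800 * i
      + 10665526317600 * p * i
      + 10498667440800 * p * e
      + 10530554680800 * p * f
      + 10340557353280 * n * i
      + 10775461964960 * i * i
      + 10466578140480 * i * e
      + 10474762747680 * i * f
      + 10473525915160 * e * e
      + 10449081424320 * e * f
      + 10452648396960 * f * f := by positivity

private theorem part00_18 {r p m n i e f : ℝ} (hr : 0 ≤ r) (hp : 0 ≤ p) (hm : 0 ≤ m) (hn : 0 ≤ n) (hi : 0 ≤ i) (he : 0 ≤ e) (hf : 0 ≤ f) :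
    0 ≤ 10530819423300 * p * n * n
      + 10493609558300 * p * n * i
      + 9909176645000 * p * n * e
      + 9830514385500 * p * n * f
      + 10140141207625 * p * i * i
      + 9846078063300 * p * i * e
      + 9815789929050 * p * i * f
      + 9889782878300 * p * e * e
      + 9322006390500 * p * e * f
      + 9910336169025 * p * f * f
      + 10550265436480 * m * i
      + 10413632618400 * r * r * e
      + 11368507201260 * m * m * i
      + 10522838898000 * p * p * m * m
      + 10546160597280 * n * n * f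
      + 10587663528750 * n * i * f
      + 10549618805880 * n * e * f
      + 10442975596515 * n * f * f
      + 10523070502560 * r * r * n * f
      + 10516745600640 * r * p * n * f := by positivity

private theorem part00_19 {r p m n i e f : ℝ} (hr : 0 ≤ r) (hp : 0 ≤ p) (hm : 0 ≤ m) (hn : 0 ≤ n) (hi : 0 ≤ i) (he : 0 ≤ e) (hf : 0 ≤ f) :
    0 ≤ 10427277456288 * r * n * n * f
      + 10476184018608 * r * n * i * f
      + 10465160595120 * r * n * e * f
      + 10537946235432 * r * n * f * f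
      + 9934208982000 * p * p * n * f
      + 9912654549360 * p * m * n * f
      + 11606825880000 * p * n * n * f
      + 11616261213600 * p * n * i * f
      + 12706971206400 * p * n * e * f
      + 11668761784800 * p * n * f * f
      + 10466843587200 * m * m * n * f
      + 10494853804512 * m * n * n * f
      + 10460831218992 * m * n * i * f
      + 10477143618480 * m * n * e * f
      + 10481117984568 * m * n * f * f
      + 10459613656800 * n * n * n * f
      + 10458251496000 * n * n * i * f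
      + 10466738805600 * n * n * e * f
      + 10493353332000 * n * n * f * f
      + 10460661472800 * n * i * i * f := by positivity

private theorem part00_20 {r p m n i e f : ℝ} (hr : 0 ≤ r) (hp : 0 ≤ p) (hm : 0 ≤ m) (hn : 0 ≤ n) (hi : 0 ≤ i) (he : 0 ≤ e) (hf : 0 ≤ f) :
    0 ≤ 10474073517600 * n * i * e * f
      + 10473549609600 * n * i * f * f
      + 266130946327831200 * n * e * e * f
      + 10486961654400 * n * e * f * f
      + 10471663540800 * n * f * f * f
      + 10377510343200 * r * p * i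
      + 10919276244800 * r * n * i
      + 9917435420200 * r * i * i
      + 10697078106000 * r * i * e
      + 10559430420000 * r * i * f
      + 10344880114800 * p * p * i
      + 10990689392600 * p * m * e
      + 10513276092000 * r * p * e
      + 12420618408000 * r * p * m * e
      + 11245887201600 * r * p * n * e
      + 10492752553800 * p * p * e
      + 9874626883200 * p * p * m * e
      + 9916148055600 * p * p * n * e
      + 10440848905200 * r * p * p * i
      + 10504744151400 * r * p * p * e := by positivity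

private theorem part00_21 {r p n i e f : ℝ} (hr : 0 ≤ r) (hp : 0 ≤ p) (hn : 0 ≤ n) (hi : 0 ≤ i) (he : 0 ≤ e) (hf : 0 ≤ f) :
    0 ≤ 11023195537800 * r * p * p * f
      + 10523456949600 * r * r * p * i
      + 10987055654400 * r * r * p * e
      + 10479505831200 * r * r * p * f
      + 10455954854400 * r * p * n * n
      + 10426028276880 * r * p * n * i
      + 10743775669800 * r * p * i * i
      + 9780069211200 * r * p * i * e
      + 10421580852000 * r * p * i * f
      + 9430130548800 * r * p * e * e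
      + 10248017421600 * r * p * e * f
      + 10452630711600 * r * r * r * i
      + 10491726009600 * r * r * r * e
      + 10462861886400 * r * r * r * f
      + 10468442255040 * r * r * n * n
      + 10229002827120 * r * r * n * i
      + 10623925144800 * r * r * n * e
      + 10791722680200 * r * r * i * i
      + 10384387992000 * r * r * i * e
      + 10515493296000 * r * r * i * f := by positivity

private theorem part00_22 {r p m n i e f : ℝ} (hr : 0 ≤ r) (hp : 0 ≤ p) (hm : 0 ≤ m) (hn : 0 ≤ n) (hi : 0 ≤ i) (he : 0 ≤ e) (hf : 0 ≤ f) :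
    0 ≤ 10510377134400 * r * r * e * e
      + 10457413243200 * r * r * e * f
      + 10466529242400 * r * r * f * f
      + 10454838010848 * r * n * n * n
      + 10460088467136 * r * n * n * i
      + 10504232655840 * r * n * n * e
      + 10486245796488 * r * n * i * i
      + 10478728315440 * r * n * i * e
      + 10484917165800 * r * n * e * e
      + 10465062300000 * r * i * i * i
      + 10460975817600 * r * i * i * f
      + 10503517147200 * r * i * e * e
      + 10467577058400 * r * i * e * f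
      + 10505822342400 * r * i * f * f
      + 10456889335200 * r * e * e * e
      + 10494820274400 * r * e * e * f
      + 10481932137600 * r * e * f * f
      + 10482875172000 * r * f * f * f
      + 10542538868400 * r * p * f
      + 10927106839500 * p * m * f := by positivity

private theorem part00_23 {r p m n i e f : ℝ} (hr : 0 ≤ r) (hp : 0 ≤ p) (hm : 0 ≤ m) (hn : 0 ≤ n) (hi : 0 ≤ i) (he : 0 ≤ e) (hf : 0 ≤ f) :
    0 ≤ 9108425883600 * p * m * n * e
      + 11634982192800 * p * n * n * e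
      + 11609949369600 * p * n * i * e
      + 11615472856800 * p * n * e * e
      + 10464538392000 * m * m * n * e
      + 10460619560160 * m * n * n * e
      + 10488858201360 * m * n * i * e
      + 10463778725400 * m * n * e * e
      + 10478369563200 * n * n * n * e
      + 10484446896000 * n * n * i * e
      + 10471139632800 * n * n * e * e
      + 10456784553600 * n * i * i * e
      + 10481932137600 * n * i * e * e
      + 10486018620000 * n * e * e * e
      + 10487196955400 * r * e * e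
      + 10525625418000 * r * e * f
      + 9965833225200 * r * r * m * e
      + 10457647932600 * p * p * p * e
      + 11052956962800 * p * p * i * e
      + 11024980275600 * p * p * e * e := by positivity

private theorem part00_24 {r p m n i e f : ℝ} (hr : 0 ≤ r) (hp : 0 ≤ p) (hm : 0 ≤ m) (hn : 0 ≤ n) (hi : 0 ≤ i) (he : 0 ≤ e) (hf : 0 ≤ f) :
    0 ≤ 239265211211121600 * p * p * e * f
      + 7445431018800 * p * m * m * e
      + 10283334385500 * m * i * e
      + 10596136557600 * r * m * i * e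
      + 11740755870000 * p * m * i * e
      + 10497068124840 * m * e * e
      + 10446676336800 * r * m * e * e
      + 12087655866000 * p * m * e * e
      + 10462041970380 * m * e * f
      + 10477007402400 * r * m * e * f
      + 11862145980000 * p * m * e * f
      + 10486559617380 * n * n * e
      + 10548783214200 * n * i * e
      + 10500298979940 * n * e * e
      + 10447393720995 * i * i * e
      + 10461080599200 * r * i * i * e
      + 10481198666400 * p * i * i * e
      + 10452387801240 * i * e * e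
      + 10461709288800 * p * i * e * e
      + 10460243947230 * i * e * f := by positivity

private theorem part00_25 {p m n i e f : ℝ} (hp : 0 ≤ p) (hm : 0 ≤ m) (hn : 0 ≤ n) (hi : 0 ≤ i) (he : 0 ≤ e) (hf : 0 ≤ f) :
    0 ≤ 10447668554400 * p * i * e * f
      + 10475934846300 * e * e * e
      + 10489581194400 * p * e * e * e
      + 10473820295400 * e * e * f
      + 10480674758400 * p * e * e * f
      + 14302084448680875 * e * f * f
      + 10486856872800 * p * e * f * f
      + 10480674758400 * m * m * e * f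
      + 10472397012000 * m * i * e * f
      + 10465900552800 * m * e * e * f
      + 10492410297600 * m * e * f * f
      + 10473759172800 * i * i * e * f
      + 10492619860800 * i * e * e * f
      + 10480569976800 * i * e * f * f
      + 10468100966400 * e * e * e * f
      + 10482979953600 * e * e * f * f
      + 10454584140000 * e * f * f * f
      + 9979372756800 * p * p * m * i
      + 9389228112720 * p * m * n * i
      + 10162321867800 * p * m * i * i := by positivity

private theorem part00_26 {r p m n i f : ℝ} (hr : 0 ≤ r) (hp : 0 ≤ p) (hm : 0 ≤ m) (hn : 0 ≤ n) (hi : 0 ≤ i) (hf : 0 ≤ f) :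
    0 ≤ 11098769504400 * p * m * i * f
      + 10921318557000 * p * m * n
      + 11069616643200 * p * p * m * n
      + 10459277928000 * p * p * n * n
      + 11064677837900 * p * m * i
      + 10476357328800 * p * p * n * i
      + 10490502706200 * p * p * f
      + 9336065983200 * p * p * m * f
      + 9832577253120 * r * r * m * n
      + 10418543150400 * r * r * f
      + 10165249717200 * r * r * m * f
      + 10418236149420 * m * m * n
      + 11093830736400 * r * m * m * n
      + 11518965741600 * p * m * m * m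
      + 11048815875600 * p * m * m * n
      + 9346582795320 * p * m * n * n
      + 10181694063420 * m * n * i
      + 10017202647600 * r * m * m * i
      + 10749758255280 * r * m * n * i
      + 8552158966800 * p * m * m * i := by positivity

private theorem part00_27 {r p m n i f : ℝ} (hr : 0 ≤ r) (hp : 0 ≤ p) (hm : 0 ≤ m) (hn : 0 ≤ n) (hi : 0 ≤ i) (hf : 0 ≤ f) :
    0 ≤ 9682484936400 * p * m * m * f
      + 10461792989340 * n * n * n
      + 10494940024800 * p * n * n * n
      + 10521268979760 * n * n * i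
      + 10462293072000 * p * n * n * i
      + 10793882016060 * m * i * i
      + 10514200223835 * n * i * i
      + 10141391403000 * r * m * i * i
      + 10466135064000 * p * n * i * i
      + 10415945278200 * m * i * f
      + 10439150198400 * r * m * i * f
      + 10397419341540 * m * f * f
      + 10604758810800 * r * f * f
      + 10504984089600 * r * m * f * f
      + 11042704544400 * p * m * f * f
      + 10480569976800 * m * m * n * n
      + 10512603807552 * m * n * n * n
      + 10500587453664 * m * n * n * i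
      + 10463700139200 * m * m * m * f
      + 10473025701600 * m * m * f * f := by positivity

private theorem part00_28 {r p m n i e f : ℝ} (hr : 0 ≤ r) (hp : 0 ≤ p) (hm : 0 ≤ m) (hn : 0 ≤ n) (hi : 0 ≤ i) (he : 0 ≤ e) (hf : 0 ≤ f) :
    0 ≤ 10472187448800 * m * m * i * f
      + 10488533378400 * m * i * f * f
      + 10511166204000 * m * i * i * f
      + 10472397012000 * i * i * f * f
      + 10473549609600 * i * f * f * f
      + 6599393290828800 * f * f * f * f
      + 10474597425600 * m * m * n * i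
      + 10474597425600 * m * m * i * i
      + 10473033036312 * m * n * i * i
      + 10462757104800 * m * m * i * e
      + 10459419447015 * i * i * i
      + 10455664045365 * i * f * f
      + 10480493937375 * f * f * f
      + 9431326653120 * r * p * m * n
      + 10480150850400 * n * n * n * n
      + 10483399080000 * n * n * n * i
      + 10434736249245 * i * i * f
      + 10481093884800 * m * i * i * i
      + 10490314665600 * m * i * i * e
      + 10467891403200 * n * n * i * i := by positivity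

private theorem part00_29 {r p m n i e f : ℝ} (hr : 0 ≤ r) (hp : 0 ≤ p) (hm : 0 ≤ m) (hn : 0 ≤ n) (hi : 0 ≤ i) (he : 0 ≤ e) (hf : 0 ≤ f) :
    0 ≤ 10484866022400 * n * i * i * i
      + 10489790757600 * p * i * i * i
      + 10485075585600 * i * i * i * i
      + 10481722574400 * i * i * i * e
      + 10484970804000 * i * i * i * f
      + 10475435678400 * m * i * e * e
      + 10480360413600 * i * i * e * e
      + 10478369563200 * m * e * e * e
      + 10476797839200 * i * e * e * e
      + 10484446896000 * f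
      + 10711719936000 * r * p * m * f
      + 10468729656000 * m * f * f * f
      + 10486018620000 * m * m * m * m
      + 10483084735200 * m * m * m * e
      + 10474178299200 * m * m * m * n
      + 10476483494400 * m * m * m * i
      + 11037498469200 * p * p * i * f
      + 10480255632000 * p * i * i * f
      + 10486542528000 * p * i * f * f
      + 10490988261600 * p * p * p * i := by positivity

private theorem part00_30 {r p m i e f : ℝ} (hr : 0 ≤ r) (hp : 0 ≤ p) (hm : 0 ≤ m) (hi : 0 ≤ i) (he : 0 ≤ e) (hf : 0 ≤ f) :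
    0 ≤ 10482473152800 * p * p * i * i
      + 11034861822000 * p * p * f * f
      + 10453745887200 * p * f * f * f
      + 11774029233600 * r * p * m * i
      + 10457929764000 * r * p * f * f
      + 10471314447000 * p * p * p * f
      + 10467996184800 * m * m * e * e
      + 10473444828000 * e * e * e * e := by positivity

theorem leaf00 {r p m n i e f : ℝ} (h0 : 0 ≤ r) (h1 : 0 ≤ p) (h2 : 0 ≤ m) (h3 : 0 ≤ n) (h4 : 0 ≤ i) (h5 : 0 ≤ e) (h6 : 0 ≤ f) (h7 : 0 ≤ r - m) (h8 : 0 ≤ 1 - r - p) (h9 : 0 ≤ 1 - m - n - i) (h10 : 0 ≤ m - e - f) (h11 : 0 ≤ p - n - i - e - f) (h12 : 0 ≤ 1 - m - 2 * n) :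
    0 ≤ 672348600000000000 * m + 1161329400000000000 * i + 113513400000000000 * e + 331808400000000000 * r * r - 663616800000000000 * r * p - 1659042000000000000 * r * m + 663616800000000000 * r * n - 1142119440000000000 * r * i + 569313360000000000 * r * e + 663616800000000000 * r * f + 331808400000000000 * p * p + 995425200000000000 * p * m - 663616800000000000 * p * n - 663616800000000000 * p * i - 663616800000000000 * p * e - 663616800000000000 * p * f + 2187315900000000000 * m * m - 2043241200000000000 * m * n + 419126400000000000 * m * i - 576298800000000000 * m * e - 995425200000000000 * m * f + 851350500000000000 * n * n - 392931000000000000 * n * i + 654885000000000000 * n * e + 654885000000000000 * n * f - 196465500000000000 * i * i - 392931000000000000 * i * e - 392931000000000000 * i * f - 196465500000000000 * e * e - 392931000000000000 * e * f - 196465500000000000 * f * f + 1693969200000000000 * r * r * m - 34927200000000000 * r * r * i - 698544000000000000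 * r * r * e - 1693969200000000000 * r * p * m - 2772346500000000000 * r * m * m + 2357586000000000000 * r * m * n - 3440329200000000000 * r * m * i + 296881200000000000 * r * m * e + 1693969200000000000 * r * m * f - 663616800000000000 * r * n * n - 663616800000000000 * r * n * e - 663616800000000000 * r * n * f - 3719746800000000000 * p * m * m - 248856300000000000 * p * n * n - 497712600000000000 * p * n * i - 497712600000000000 * p * n * e - 497712600000000000 * p * n * f - 248856300000000000 * p * i * i - 497712600000000000 * p * i * e - 497712600000000000 * p * i * f - 248856300000000000 * p * e * e - 497712600000000000 * p * e * f - 248856300000000000 * p * f * f - 4086482400000000000 * m * m * m + 768398400000000000 * m * m * i + 2811639600000000000 * m * m * e + 2043241200000000000 * m * m * f + 2043241200000000000 * m * n * n + 2043241200000000000 * m * n * e + 2043241200000000000 * m * n * f - 681080400000000000 * r * r * m * m + 2357586000000000000 * r * r *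 m * i + 5710597200000000000 * r * p * m * m + 4715172000000000000 * r * m * m * m - 2357586000000000000 * r * m * m * e - 2357586000000000000 * r * m * m * f - 2357586000000000000 * r * m * n * n - 2357586000000000000 * r * m * n * e - 2357586000000000000 * r * m * n * f + 1676505600000000000 * p * p * m * m := by
  have t0 := part00_0 h0 h1 h2 h3 h4 h5 h6 h7 h8 h9 h10 h11 h12
  have t1 := part00_1 h0 h1 h2 h3 h4 h5 h6 h7 h8 h9 h10 h11 h12
  have t2 := part00_2 h0 h1 h2 h3 h4 h5 h6 h7 h8 h10 h11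
  have t3 := part00_3 h0 h1 h2 h3 h4 h5 h6 h7 h8 h9 h10 h11
  have t4 := part00_4 h0 h1 h2 h3 h4 h5 h6 h7 h8 h9 h10 h11
  have t5 := part00_5 (r := r) h1 h2 h3 h4 h5 h6 h8 h9 h10 h11 h12
  have t6 := part00_6 h0 h1 h2 h3 h4 h5 h6 h7 h8 h9 h10 h11 h12
  have t7 := part00_7 h0 h1 h2 h3 h4 h5 h6 h8 h9 h10 h11 h12
  have t8 := part00_8 h0 h1 h2 h3 h4 h5 h6 h7 h8 h9 h10 h11 h12
  have t9 := part00_9 h0 h1 h2 h3 h4 h5 h6 h7 h8 h10 h11 h12
  have t10 := part00_10 h0 h1 h2 h3 h4 h5 h6 h7 h8 h10 h11 h12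
  have t11 := part00_11 h0 h1 h2 h3 h4 h5 h6 h7 h8 h9 h10 h11
  have t12 := part00_12 h0 h1 h2 h3 h4 h5 h6 h7 h8 h11 h12
  have t13 := part00_13 h0 h1 h2 h3 h4 h5 h6 h7 h8 h9 h10 h11 h12
  have t14 := part00_14 h0 h1 h2 h3 h4 h5 h6 h7 h8 h9 h10 h11 h12
  have t15 := part00_15 h0 h1 h2 h3 h4 h5 h6 h7 h8 h9 h10 h11
  have t16 := part00_16 h0 h1 h2 h3 h4 h5 h6
  have t17 := part00_17 h0 h1 h2 h3 h4 h5 h6
  have t18 := part00_18 h0 h1 h2 h3 h4 h5 h6
  have t19 := part00_19 h0 h1 h2 h3 h4 h5 h6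
  have t20 := part00_20 h0 h1 h2 h3 h4 h5 h6
  have t21 := part00_21 h0 h1 h3 h4 h5 h6
  have t22 := part00_22 h0 h1 h2 h3 h4 h5 h6
  have t23 := part00_23 h0 h1 h2 h3 h4 h5 h6
  have t24 := part00_24 h0 h1 h2 h3 h4 h5 h6
  have t25 := part00_25 h1 h2 h3 h4 h5 h6
  have t26 := part00_26 h0 h1 h2 h3 h4 h6
  have t27 := part00_27 h0 h1 h2 h3 h4 h6
  have t28 := part00_28 h0 h1 h2 h3 h4 h5 h6
  have t29 := part00_29 h0 h1 h2 h3 h4 h5 h6
  have t30 := part00_30 h0 h1 h2 h4 h5 h6
  linarith only [t0, t1, t2, t3, t4, t5, t6, t7, t8, t9, t10, t11, t12, t13, t14, t15, t16, t17, t18, t19, t20, t21, t22, t23, t24, t25, t26, t27, t28, t29, t30]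

end Vale.Agent.P038.K4
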