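import Mathlib

/-
P038: one corner of the polynomial inequality for K4-free graphs (exact nonnegativity certificate).
-/

namespace Vale.Agent.P038.K4

private theorem part01_0 {r p m n i e f c7 c8 c9 c10 c11 c12 : ℝ} (hr : 0 ≤ r) (hp : 0 ≤ p) (hm : 0 ≤ m) (hn : 0 ≤ n) (hi : 0 ≤ i) (he : 0 ≤ e) (hf : 0 ≤ f) (hc7 : 0 ≤ c7) (hc8 : 0 ≤ c8) (hc9 : 0 ≤ c9) (hc10 : 0 ≤ c10) (hc11 : 0 ≤ c11) (hc12 : 0 ≤ c12) :
    0 ≤ 19652880 * i * e * e * c9
      + 224439 * f * c7 * (-1 + 14 * r - 7 * p - 3 * m - 2 * n + 10 * i - 2 * e - 2 * f) ^ 2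
      + 211344 * p * f * (-4 + 5 * r - p + 10 * m - n + 3 * i + 2 * e + 6 * f) ^ 2
      + 32298 * r * n * c8 * c8
      + 589755 * f * c10 * (2 - 4 * r - 6 * p + 6 * m + n - 2 * i - 9 * e + 3 * f) ^ 2
      + 241887 * p * n * (-10 * e + 7 * f) ^ 2
      + 199443 * i * c11 * (7 - 12 * r + 9 * p - 3 * m + 5 * n - 10 * i) ^ 2
      + 385413 * i * c7 * (-8 * r + 5 * p - 10 * m + 3 * n + 2 * i + e - f) ^ 2
      + 12294042 * r * i * c11 * c11
      + 396633 * i * c8 * (-7 + 11 * r - 10 * p + 2 * m + 2 * n - 10 * i - e) ^ 2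
      + 5637 * f * c12 * (7 + 13 * r - 3 * p + 4 * m + 6 * n - 6 * i + 4 * e - 2 * f) ^ 2
      + 78126 * e * e * (-5 - 3 * r + 5 * p + 7 * m - 5 * n - 6 * i + 10 * e + 3 * f) ^ 2
      + 2284137 * c7 * (-1 + r + 10 * m - n - 3 * i + e) ^ 2
      + 1044780 * r * n * (-3 * r + 3 * m - 10 * e - 6 * f) ^ 2
      + 78486 * (-1 + 5 * p + 2 * m - 10 * n + 6 * i + r * r + r * p + 16 * r * n - 2 * p * p - 2 * p * m - 9 * p * n - 7 * p * i - 3 * m * m + 7 * m * n - 7 * m * i - 4 * n * n + 8 * n * i - 9 * i * i) ^ 2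
      + 204257733 * p * m * m * c7
      + 665319 * r * n * (r + 2 * m + 8 * n - 10 * i) ^ 2
      + 244023 * f * c7 * (-6 - 15 * r + 9 * p + 6 * m + 10 * n + 5 * i + e - 3 * f) ^ 2
      + 26760 * r * f * (-7 - 7 * r + p - 10 * m + 4 * n + 3 * i + 5 * e - 4 * f) ^ 2
      + 139404765 * m * n * f * c10 := by positivity

private theorem part01_1 {r p m n i e f c7 c8 c9 c11 c12 : ℝ} (hr : 0 ≤ r) (hp : 0 ≤ p) (hm : 0 ≤ m) (hn : 0 ≤ n) (hi : 0 ≤ i) (he : 0 ≤ e) (hf : 0 ≤ f) (hc7 : 0 ≤ c7) (hc8 : 0 ≤ c8) (hc9 : 0 ≤ c9) (hc11 : 0 ≤ c11) (hc12 : 0 ≤ c12) :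
    0 ≤ 55598922 * p * c7 * c8
      + 167112576 * m * m * e * c7
      + 16922031 * p * n * c8 * c11
      + 154365 * c8 * (2 - 8 * r + 10 * p + 2 * m - 3 * n + 2 * i) ^ 2
      + 44657727 * e * f * f * c12
      + 20115381 * i * e * c8 * c9
      + 10710 * f * c7 * (-2 - r - 2 * p + 3 * m - i + 10 * e - 4 * f) ^ 2
      + 22723611 * p * p * e * c8
      + 587742 * m * i * (-10 + 7 * r + 6 * m - n + 8 * i) ^ 2
      + 261015 * f * c11 * (10 + 4 * r + 2 * p + 4 * m - 8 * n - 7 * i - e + 5 * f) ^ 2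
      + 978024 * n * c7 * (4 - 2 * r - 8 * p + m + n + 2 * i + e + 2 * f) ^ 2
      + 353031 * c9 * (r - m + 7 * e + 10 * f) ^ 2
      + 4324497 * n * n * c9 * c12
      + 2895 * n * c8 * (5 + 11 * r - 10 * p + m + 8 * n + 3 * i - e + f) ^ 2
      + 197727 * f * f * (3 * r - p + 2 * m + 2 * n - 6 * i - 6 * e + 10 * f) ^ 2
      + 561129 * c8 * (4 * r - 4 * m - 10 * e + 10 * f) ^ 2
      + 961758 * f * c8 * (-5 - 11 * r + 10 * p - 3 * e) ^ 2
      + 356226 * n * c7 * (2 + 10 * r - 3 * p + 10 * m - 8 * n + i + 2 * e + 3 * f) ^ 2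
      + 12117 * i * i * (-5 + 12 * r - 7 * p + 4 * m + 7 * n - 10 * i) ^ 2
      + 79887 * r * c7 * (10 - 8 * r + 4 * m + 6 * n - 2 * i - 3 * e) ^ 2 := by positivity

private theorem part01_2 {r p m n i e f c7 c8 c10 c11 c12 : ℝ} (hr : 0 ≤ r) (hp : 0 ≤ p) (hm : 0 ≤ m) (hn : 0 ≤ n) (hi : 0 ≤ i) (he : 0 ≤ e) (hf : 0 ≤ f) (hc7 : 0 ≤ c7) (hc8 : 0 ≤ c8) (hc10 : 0 ≤ c10) (hc11 : 0 ≤ c11) (hc12 : 0 ≤ c12) :
    0 ≤ 948315 * r * i * (-2 + 4 * r - p + 2 * m + 10 * n - 8 * i) ^ 2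
      + 99708 * r * r * (-5 * e + 10 * f) ^ 2
      + 36062568 * n * c8 * c8
      + 122613 * e * c8 * (1 + 4 * r + 2 * p + 3 * m + 3 * n - 10 * i + 4 * e + 4 * f) ^ 2
      + 486180 * p * c10 * (-10 + 11 * r - 3 * p + 7 * m + 7 * n - i) ^ 2
      + 140040 * n * c11 * (-5 + 14 * r - 10 * p + 4 * m - 5 * n) ^ 2
      + 31566525 * f * f * f * c8
      + 526329 * r * m * (10 * r - 10 * m - 5 * e - 6 * f) ^ 2
      + 16131738 * f * f * f * c10
      + 73047 * n * n * (-1 + 10 * r - 9 * p + m + 7 * n - 10 * i) ^ 2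
      + 1190616 * m * m * (-10 + 5 * r + 4 * p + 9 * m + n - i) ^ 2
      + 292464 * r * m * (-10 + 8 * r + 8 * m + 10 * n - 3 * i) ^ 2
      + 74335656 * r * r * n * c7
      + 1405521 * p * i * (12 * r - 4 * p - 10 * m + 8 * n - 2 * i) ^ 2
      + 20547 * r * (4 + r - 8 * p - 6 * m + 10 * n + 3 * i) ^ 2
      + 339792 * i * c7 * (2 + 16 * r - 10 * p + 4 * m + 6 * n + i + e + f) ^ 2
      + 48507378 * f * c12
      + 185334 * i * c8 * (-5 + r + 5 * m - 5 * n + 2 * i + 10 * e + 2 * f) ^ 2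
      + 815433 * m * n * (-3 * r + 2 * p - m - 8 * n + 10 * i) ^ 2
      + 1407036 * p * c7 * (5 * r - 4 * p - 10 * m - n + 8 * i - e) ^ 2 := by positivity

private theorem part01_3 {r p m n i e f c7 c8 c10 c11 c12 : ℝ} (hr : 0 ≤ r) (hp : 0 ≤ p) (hm : 0 ≤ m) (hn : 0 ≤ n) (hi : 0 ≤ i) (he : 0 ≤ e) (hf : 0 ≤ f) (hc7 : 0 ≤ c7) (hc8 : 0 ≤ c8) (hc10 : 0 ≤ c10) (hc11 : 0 ≤ c11) (hc12 : 0 ≤ c12) :
    0 ≤ 73392 * n * n * (-1 + 2 * r + 3 * p - m - 2 * n - 2 * i + 10 * e - 7 * f) ^ 2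
      + 1426137 * r * f * (-3 + 5 * r + 5 * p + 3 * m - 2 * n + i - e - 3 * f) ^ 2
      + 394812 * i * i * (1 - 2 * r + m - n - i + 10 * f) ^ 2
      + 519483 * r * c11 * (7 - 10 * p - 10 * m + 9 * n) ^ 2
      + 36153918 * i * f * f * c12
      + 67584 * n * c7 * (3 + 14 * r - 9 * p + 10 * m + 4 * n - 4 * i - e + 3 * f) ^ 2
      + 75560442 * n * n * n * c8
      + 339114 * c7 * c7
      + 1120677 * m * n * (-4 * r + 4 * p + 10 * n - i) ^ 2
      + 594609 * n * c8 * (-3 + 13 * r - 10 * p + 3 * m - 3 * n) ^ 2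
      + 831420 * f * c7 * (10 + 6 * r - 5 * p + 9 * m + n + f) ^ 2
      + 852696 * p * n * (11 * r - 2 * p - 10 * m + 4 * n - i) ^ 2
      + 10503705 * e * e * e * c10
      + 1433040 * c7 * c11 * (-4 + 2 * r - 2 * p + 10 * m - 2 * n - 3 * i) ^ 2
      + 367563561 * p * m * c7 * c8
      + 14275356 * m * i * f * c12
      + 81876318 * p * p * c7 * c10
      + 63465 * e * e * (10 - 11 * r + 4 * p - m - n + 3 * i - 6 * e) ^ 2
      + 23567157 * p * p * c7 * c11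
      + 177645 * e * (3 - r - 3 * p + 4 * m - 7 * n + 10 * i - 4 * e) ^ 2 := by positivity

private theorem part01_4 {r p m n i e f c7 c8 c9 c10 c11 c12 : ℝ} (hr : 0 ≤ r) (hp : 0 ≤ p) (hm : 0 ≤ m) (hn : 0 ≤ n) (hi : 0 ≤ i) (he : 0 ≤ e) (hf : 0 ≤ f) (hc7 : 0 ≤ c7) (hc8 : 0 ≤ c8) (hc9 : 0 ≤ c9) (hc10 : 0 ≤ c10) (hc11 : 0 ≤ c11) (hc12 : 0 ≤ c12) :
    0 ≤ 111098100 * m * c7 * c10
      + 155310 * r * c12 * (-e + 10 * f) ^ 2
      + 44585268 * e * c10 * c11
      + 9465753 * i * i * c8 * c9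
      + 29473083 * m * n * n * c8
      + 238509 * p * m * (10 - 9 * r + p - 8 * m - 7 * n + 4 * i) ^ 2
      + 109629 * m * (e + 10 * f) ^ 2
      + 140844 * i * f * (3 - 8 * r - p + 5 * m + 2 * n - 9 * i + 10 * e - 6 * f) ^ 2
      + 65718 * p * e * (-10 - 7 * p - 10 * m + 4 * n + i - 2 * e - 6 * f) ^ 2
      + 76418148 * p * p * c7 * c8
      + 117024 * m * f * (10 + 5 * r + 2 * n + 5 * i + e - 4 * f) ^ 2
      + 54547980 * p * m * e * c8
      + 535578 * r * (-2 - r + 10 * p + 2 * m - 10 * n - 4 * i) ^ 2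
      + 94902 * (10 + 4 * r - 6 * p - m - 4 * n + 6 * i - 5 * r * r - 11 * r * p - 11 * r * m - 2 * r * n - 3 * r * i + 6 * p * p + p * m + 2 * p * i - 10 * m * m - 2 * m * n - m * i - 2 * n * i + 3 * i * i) ^ 2
      + 211242 * i * (-10 + 7 * r + p + 8 * m + 3 * n) ^ 2
      + 51770997 * r * p * i * c11
      + 80232 * e * (-1 + r - p - m + 2 * n + 4 * i + 10 * e - 3 * f) ^ 2
      + 85356 * e * c8 * (-10 - 2 * r - p + 3 * m + 3 * n - 4 * i - 2 * e + f) ^ 2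
      + 650964 * p * c8 * (-r + m - 10 * e + 5 * f) ^ 2
      + 191670 * p * f * (4 + 16 * r - 10 * p + 4 * m - n - 3 * i + e - f) ^ 2 := by positivity

private theorem part01_5 {r p m n i e f c7 c8 c10 c12 : ℝ} (hr : 0 ≤ r) (hm : 0 ≤ m) (hn : 0 ≤ n) (hi : 0 ≤ i) (he : 0 ≤ e) (hf : 0 ≤ f) (hc7 : 0 ≤ c7) (hc8 : 0 ≤ c8) (hc10 : 0 ≤ c10) (hc12 : 0 ≤ c12) :
    0 ≤ 1264845 * e * c8 * (-10 - 4 * r + 2 * p - 3 * m - 4 * n - 2 * i - 2 * e) ^ 2
      + 29408883 * i * c7 * c8 * c12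
      + 151221 * m * e * (10 - 11 * r + 6 * p - 9 * m - 2 * n + 8 * e + 2 * f) ^ 2
      + 46338 * i * i * (-7 + 4 * r + 4 * m - 6 * n + 10 * i) ^ 2
      + 3085710 * i * f * f * c10
      + 235012698 * f * c8
      + 33495 * r * f * (10 - 2 * r - 2 * p - 6 * m + 7 * n + i - 5 * e - 5 * f) ^ 2
      + 7091919 * r * c7 * c8 * c8
      + 364203 * c7 * c8 * (2 - 9 * r - p - 7 * m + 3 * n - 2 * i - e - 7 * f) ^ 2
      + 363477 * r * n * (4 * r - 6 * p - 3 * m + 10 * n + 2 * i) ^ 2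
      + 107982663 * r * e * c8 * c8
      + 1186977 * m * c8 * (7 - 11 * r + 8 * p - 2 * m - n + 10 * i) ^ 2
      + 1491999 * c8 * (-6 * r + 10 * p + 4 * m - 8 * n - 2 * i) ^ 2
      + 103587 * e * f * (-3 - r - 2 * p + 5 * m - 2 * n + 10 * i + 3 * e) ^ 2
      + 198111 * i * i * (-4 + 4 * r - 5 * p + 10 * n + 9 * i - e + 2 * f) ^ 2
      + 122388 * c12 * (2 * e - 10 * f) ^ 2
      + 21825 * i * e * (-2 + 11 * r - 3 * p + 6 * m - n - 10 * i + 7 * e + 2 * f) ^ 2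
      + 44986521 * m * n * e * c12
      + 174456 * i * f * (-1 - 4 * r + 3 * p + 3 * m + 5 * n - 10 * i - 9 * e + 7 * f) ^ 2
      + 104823 * e * f * (1 - r - 2 * m + i - 10 * e + 10 * f) ^ 2 := by positivity

private theorem part01_6 {r p m n i e f c7 c8 c9 c10 c11 c12 : ℝ} (hr : 0 ≤ r) (hp : 0 ≤ p) (hm : 0 ≤ m) (hn : 0 ≤ n) (hi : 0 ≤ i) (he : 0 ≤ e) (hf : 0 ≤ f) (hc7 : 0 ≤ c7) (hc8 : 0 ≤ c8) (hc9 : 0 ≤ c9) (hc10 : 0 ≤ c10) (hc11 : 0 ≤ c11) (hc12 : 0 ≤ c12) :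
    0 ≤ 172120848 * r * n * n * c8
      + 50232531 * r * f * c8
      + 145968 * f * c12 * (-5 - 7 * r + 10 * p + 8 * m - 6 * n + 2 * i + e + 3 * f) ^ 2
      + 480762 * r * f * (4 + 2 * r + 2 * p + m + n - 3 * i - e - 10 * f) ^ 2
      + 226824 * c7 * c11 * (-7 - 8 * r + 2 * p - 10 * m - 6 * n + 3 * i + 2 * e - f) ^ 2
      + 68601 * p * p * (-6 * e - 10 * f) ^ 2
      + 131462835 * m * n * c7 * c7
      + 8506989 * i * c9 * c9 * c9
      + 308253 * e * f * (-14 * r + 10 * p + 3 * m + 2 * n + 3 * i + 3 * f) ^ 2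
      + 50312568 * p * e * c11
      + 26581251 * i * e * f * c12
      + 22438530 * p * i * e * c7
      + 7692441 * p * n * e * c10
      + 947583 * r * e * (10 - 3 * r + 2 * p - 4 * m + 3 * n + i - 4 * e) ^ 2
      + 887667 * r * i * (-10 + 10 * r - 3 * p + 7 * m + n + 2 * i) ^ 2
      + 407049 * c11 * (2 - r - 2 * p - 2 * m - 5 * n + 10 * i) ^ 2
      + 231519 * n * c12 * (-4 * r + 4 * m + 10 * f) ^ 2
      + 7262601 * n * n * f * c10
      + 71912172 * p * p * f * c7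
      + 1117563 * m * m * (2 + 4 * r - 10 * p - 5 * m + 10 * n + 4 * i) ^ 2 := by positivity

private theorem part01_7 {r p m n i e f c7 c8 c9 c11 c12 : ℝ} (hr : 0 ≤ r) (hp : 0 ≤ p) (hm : 0 ≤ m) (hn : 0 ≤ n) (hi : 0 ≤ i) (he : 0 ≤ e) (hf : 0 ≤ f) (hc7 : 0 ≤ c7) (hc8 : 0 ≤ c8) (hc9 : 0 ≤ c9) (hc11 : 0 ≤ c11) (hc12 : 0 ≤ c12) :
    0 ≤ 567888 * p * m * (r - m + 10 * e - 2 * f) ^ 2
      + 49626663 * p * i * c8 * c8
      + 700695 * p * c7 * (-8 - 9 * r + 5 * p + 10 * m + 5 * n + 4 * i - 4 * e - 6 * f) ^ 2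
      + 86049012 * m * f * c12
      + 45798741 * n * f * c12
      + 106585566 * r * e * c12
      + 975993 * c9 * (-9 + 4 * r + 6 * p + 9 * m - n - 7 * i - 3 * e - 2 * f) ^ 2
      + 15365064 * i * e * c11
      + 713931 * e * c8 * (-1 - 13 * r + 10 * p + 4 * m - 5 * n + 4 * i - e + 5 * f) ^ 2
      + 296766 * p * c11 * (-7 + 8 * p + 10 * m + 6 * n - i) ^ 2
      + 657 * f * (3 - 6 * r + 5 * p + 3 * m + 2 * n - 4 * i + 10 * e - 8 * f) ^ 2
      + 854577 * m * c7 * (4 + 3 * r - p - 10 * m - 2 * n - 5 * i - 2 * e - 5 * f) ^ 2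
      + 129759039 * n * i * c8
      + 69165 * i * c8 * (3 - 5 * r - 5 * p + 5 * m - 3 * n - 4 * i + e + 10 * f) ^ 2
      + 19070118 * p * p * e * c12
      + 37410 * c7 * c12 * (-6 + 12 * r - 9 * p + 10 * m - 7 * n - 4 * i + 3 * f) ^ 2
      + 1998444 * c11 * (6 + r - 10 * p - 9 * m - n - 6 * i) ^ 2
      + 353097 * n * f * (10 + 5 * r - 5 * p - 5 * n - 2 * i + 2 * e + 6 * f) ^ 2
      + 1111329 * m * n * (4 - 13 * r + 10 * p - 3 * m - n + 6 * i) ^ 2
      + 2201850 * r * m * (-10 + 6 * r + 3 * p + 9 * m - n) ^ 2 := by positivity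

private theorem part01_8 {r p m n i e f c7 c8 c9 c10 c11 c12 : ℝ} (hr : 0 ≤ r) (hp : 0 ≤ p) (hm : 0 ≤ m) (hn : 0 ≤ n) (hi : 0 ≤ i) (he : 0 ≤ e) (hf : 0 ≤ f) (hc7 : 0 ≤ c7) (hc8 : 0 ≤ c8) (hc9 : 0 ≤ c9) (hc10 : 0 ≤ c10) (hc11 : 0 ≤ c11) (hc12 : 0 ≤ c12) :
    0 ≤ 70791183 * n * e * c12
      + 311685 * p * n * (3 * r - 2 * p + m + 10 * n - 10 * i) ^ 2
      + 1151847 * m * c11 * (2 + 3 * r - 10 * p - 4 * m + n - 2 * i - 2 * e - 2 * f) ^ 2
      + 76680 * c9 * c9 * (5 - 6 * r + 2 * p - 3 * m - 10 * n + i) ^ 2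
      + 681870 * m * c11 * (10 - 8 * r - p - 9 * m - 3 * n + i) ^ 2
      + 706833 * r * p * (10 - 8 * r - 8 * m - 2 * n - i) ^ 2
      + 16659 * c7 * c8 * (6 + 10 * r - 4 * p + 10 * m - n - 4 * i - e + 4 * f) ^ 2
      + 44425641 * i * c9 * c11
      + 564882 * c7 * c11 * (-10 - 7 * m - 2 * n - 3 * i - 5 * e - 2 * f) ^ 2
      + 288624 * r * f * (2 - 9 * r - p - 4 * m - 6 * i - f) ^ 2
      + 287457 * i * c7 * (-8 * r + 5 * p - 9 * m + n + 10 * i - 2 * e - f) ^ 2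
      + 670758 * p * (10 - 10 * r - 6 * m - 9 * n + 2 * i) ^ 2
      + 733017 * r * e * (-4 + 2 * r + 3 * p + 2 * m - 8 * n + 7 * i + e + 10 * f) ^ 2
      + 684021 * c7 * c8 * (-9 - 7 * r + 2 * p + 5 * m - 5 * n - 10 * i) ^ 2
      + 16681749 * n * n * e * c10
      + 375822 * n * i * (-2 + r - p + 3 * m - 10 * n + 4 * i + e + 2 * f) ^ 2
      + 364563 * e * (-6 - 11 * r + 7 * p + 8 * m - 3 * n - 3 * i + 10 * e - f) ^ 2
      + 29535633 * i * i * c7 * c7
      + 329970 * f * (-2 + 2 * r + 8 * p + m + 2 * n + 2 * i - 5 * e + 9 * f) ^ 2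
      + 1385148 * m * n * (-3 * r + 3 * m + 2 * e + 10 * f) ^ 2 := by positivity

private theorem part01_9 {r p m n i e f c7 c8 c9 c10 c11 : ℝ} (hr : 0 ≤ r) (hp : 0 ≤ p) (hm : 0 ≤ m) (hn : 0 ≤ n) (hi : 0 ≤ i) (he : 0 ≤ e) (hf : 0 ≤ f) (hc7 : 0 ≤ c7) (hc8 : 0 ≤ c8) (hc9 : 0 ≤ c9) (hc10 : 0 ≤ c10) (hc11 : 0 ≤ c11) :
    0 ≤ 129057 * c7 * (-1 + 7 * r - p + 10 * m + n - 4 * i - 5 * e + 2 * f) ^ 2
      + 22858206 * i * i * f * c10
      + 24480 * e * c11 * (10 + 10 * r - 2 * p + 7 * m - n - i + 4 * e + 2 * f) ^ 2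
      + 223023 * p * p * (9 * e - 10 * f) ^ 2
      + 124485882 * i * c8 * c8
      + 212463 * f * c7 * (4 + 2 * r + 8 * n + 2 * i - 10 * e) ^ 2
      + 28261713 * n * f * c11 * c11
      + 7715283 * e * e * e * c9
      + 76035924 * i * c8 * c9
      + 80802 * e * c7 * (4 + 14 * r - 10 * p + m + 3 * n - 2 * i - 3 * e) ^ 2
      + 315030 * m * e * (-1 + 8 * r - 5 * p - 2 * m + 7 * n + i - 5 * e - 10 * f) ^ 2
      + 18698517 * n * f * c8
      + 75639822 * r * p * c7 * c11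
      + 198759 * e * e * (4 + 8 * r - 3 * p + 3 * m - 6 * n - 10 * i - 2 * e - 4 * f) ^ 2
      + 898905 * e * (-3 + 4 * r - 2 * p - m + 10 * n + 8 * i - e + 3 * f) ^ 2
      + 951 * e * c11 * (-3 + 5 * r - 6 * p + 5 * m - 2 * n + 10 * i - f) ^ 2
      + 179739 * p * e * (r + 2 * p - 5 * n + 7 * i - 10 * e - 2 * f) ^ 2
      + 5446926 * n * n * i * c11
      + 16156173 * m * f * c10 * c11
      + 90471 * i * c8 * (-3 + 2 * r - 4 * p - 10 * n + 10 * i - 6 * e - 3 * f) ^ 2 := by positivity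

private theorem part01_10 {r p m n i e f c7 c8 c9 c10 c11 c12 : ℝ} (hr : 0 ≤ r) (hp : 0 ≤ p) (hm : 0 ≤ m) (hn : 0 ≤ n) (hi : 0 ≤ i) (he : 0 ≤ e) (hf : 0 ≤ f) (hc7 : 0 ≤ c7) (hc8 : 0 ≤ c8) (hc9 : 0 ≤ c9) (hc10 : 0 ≤ c10) (hc11 : 0 ≤ c11) (hc12 : 0 ≤ c12) :
    0 ≤ 4129344 * i * e * c12 * c12
      + 230502 * f * f * (-5 - 6 * r + 3 * p + 10 * m + 7 * n - 3 * i - 2 * e + 9 * f) ^ 2
      + 84576 * f * c7 * (-10 - 4 * p - 6 * m - 2 * n - i - 2 * e - 4 * f) ^ 2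
      + 20983863 * r * e * c7 * c11
      + 6814059 * r * r * e * c9
      + 119600919 * m * e * e * c10
      + 5786103 * i * f * f * c8
      + 372687 * f * c8 * (6 - r + 2 * p - 10 * i + 2 * e + 4 * f) ^ 2
      + 686697 * m * e * (-2 - 4 * r - p + 10 * m + 5 * n - 10 * e + 6 * f) ^ 2
      + 70221759 * i * i * c8 * c8
      + 43749375 * n * c7 * c12
      + 125250 * i * c11 * (-1 - 11 * r + 2 * p - 10 * m + 7 * n - 3 * i + 3 * e) ^ 2
      + 134412 * m * c9 * (-4 - 3 * r + 10 * p + 7 * m - 6 * n - 7 * i) ^ 2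
      + 46414401 * i * i * e * c7
      + 348324 * m * m * (10 - 8 * r - 8 * m - 10 * n + 2 * i) ^ 2
      + 74568 * i * (-9 * e + 10 * f) ^ 2
      + 107994 * n * (-2 + 12 * r - 9 * p + m + 8 * n - 10 * i) ^ 2
      + 1851 * p * e * (1 - 17 * r + 7 * p - 3 * m - 7 * n - 4 * i + 4 * e) ^ 2
      + 19308861 * i * i * f * c9
      + 299907 * f * (-10 + 3 * r + 2 * p + 8 * m + n - 2 * i - 2 * e + 10 * f) ^ 2 := by positivity

private theorem part01_11 {r p m n i e f c8 c9 c10 c12 : ℝ} (hr : 0 ≤ r) (hp : 0 ≤ p) (hm : 0 ≤ m) (hi : 0 ≤ i) (he : 0 ≤ e) (hf : 0 ≤ f) (hc8 : 0 ≤ c8) (hc9 : 0 ≤ c9) (hc10 : 0 ≤ c10) (hc12 : 0 ≤ c12) :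
    0 ≤ 1317444 * r * m * (6 * r - 6 * m - e + 10 * f) ^ 2
      + 165174 * m * e * (6 - 16 * r + 6 * p + 3 * m - 3 * n + 9 * i + 8 * e - 7 * f) ^ 2
      + 117138 * m * e * (4 - 2 * r + 10 * p - 2 * m + 7 * n + 4 * i - 4 * e - 4 * f) ^ 2
      + 184518 * r * f * (3 + 3 * r + 7 * p - 5 * m + 7 * n + 2 * i - 2 * e + f) ^ 2
      + 18861 * m * e * (-2 + r + 7 * m - 3 * i + 10 * e + 7 * f) ^ 2
      + 28938 * p * f * (7 * r + 3 * p - 3 * m - 9 * n - 2 * f) ^ 2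
      + 224061 * c8 * c10 * (8 - 12 * r + 10 * p - 2 * m - i) ^ 2
      + 48795750 * i * c9 * c9
      + 577527 * e * c8 * (10 - r + 3 * p - m + 3 * i - 4 * e + 4 * f) ^ 2
      + 107526813 * p * f * c10
      + 1017498 * c10 * (-3 * r + 3 * m + 10 * e + f) ^ 2
      + 274830 * i * c10 * (10 - 14 * r + 6 * p - 8 * m - 8 * n + 6 * i) ^ 2
      + 158143686 * m * i * c8 * c8
      + 1079733 * e * f * (10 + 3 * r + 2 * p + 5 * m + n - 4 * i + 3 * e + 2 * f) ^ 2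
      + 423618 * r * p * (10 * e + 2 * f) ^ 2
      + 1173450 * f * (-5 * r + 5 * p - 3 * m - 10 * n + 5 * i + 4 * e + f) ^ 2
      + 785181 * c8 * c10 * (-1 + 7 * r - 10 * p - 3 * m + n) ^ 2
      + 967002 * m * c12 * (-10 + 8 * r + 8 * m + 10 * n - 3 * i) ^ 2
      + 1418151 * p * f * f * c10
      + 129663 * i * f * (2 - 2 * r + 5 * p - 7 * m + 10 * n - 6 * i + 5 * e + 5 * f) ^ 2 := by positivity

private theorem part01_12 {r p m n i e f c7 c8 c9 c10 c11 c12 : ℝ} (hr : 0 ≤ r) (hp : 0 ≤ p) (hm : 0 ≤ m) (hn : 0 ≤ n) (hi : 0 ≤ i) (he : 0 ≤ e) (hf : 0 ≤ f) (hc7 : 0 ≤ c7) (hc8 : 0 ≤ c8) (hc9 : 0 ≤ c9) (hc10 : 0 ≤ c10) (hc11 : 0 ≤ c11) (hc12 : 0 ≤ c12) :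
    0 ≤ 84840 * i * c8 * (5 + 2 * r - 8 * p - 6 * m + 10 * n - 3 * i + 4 * e - 5 * f) ^ 2
      + 467118 * i * c8 * (-5 + 10 * r - 2 * p - 5 * m + 10 * n + 7 * i - 2 * e + 5 * f) ^ 2
      + 168852 * f * c7 * (7 - r + p - 3 * m + n - 10 * i + 4 * f) ^ 2
      + 39500388 * f * f * c7 * c7
      + 2724 * c8 * c8 * (8 - 2 * r - p - 10 * m + 8 * n - 6 * i - 10 * e - f) ^ 2
      + 399036 * r * c8 * (-1 + 7 * r - 10 * p - 3 * m + 4 * n - 4 * i) ^ 2
      + 202443 * c7 * (-15 * r + 10 * p - m - 9 * n - 2 * i) ^ 2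
      + 2880840 * p * p * f * c8
      + 214434150 * e * e * c7
      + 83005371 * f * c11
      + 99381690 * e * c11
      + 19992 * f * c10 * (7 - 7 * m + 4 * n - 2 * i - 10 * e + 8 * f) ^ 2
      + 86809758 * r * m * n * c11
      + 24144 * i * e * (1 + 10 * r - 6 * p - 6 * m + 8 * n - 8 * i - 9 * e - 10 * f) ^ 2
      + 113172 * i * e * (10 - 8 * r + 6 * p + 6 * m + n - 6 * i + 4 * e - 4 * f) ^ 2
      + 247968 * c7 * c9 * (-3 - 9 * r + 3 * p - 10 * m - 4 * n + 5 * i + 4 * e) ^ 2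
      + 549030 * r * m * (-8 * e + 10 * f) ^ 2
      + 227292 * p * c8 * (3 - 8 * r + 10 * p + 2 * m - 5 * n + 2 * i) ^ 2
      + 841944 * c7 * c7 * (4 - 10 * r + 9 * p - 10 * m - 4 * n - e + 5 * f) ^ 2
      + 4598412 * p * i * f * c12 := by positivity

private theorem part01_13 {r p m n i e f c7 c8 c9 c10 c11 c12 : ℝ} (hr : 0 ≤ r) (hp : 0 ≤ p) (hm : 0 ≤ m) (hn : 0 ≤ n) (hi : 0 ≤ i) (he : 0 ≤ e) (hf : 0 ≤ f) (hc7 : 0 ≤ c7) (hc8 : 0 ≤ c8) (hc9 : 0 ≤ c9) (hc10 : 0 ≤ c10) (hc11 : 0 ≤ c11) (hc12 : 0 ≤ c12) :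
    0 ≤ 287286 * r * i * (4 * r - 10 * p - 4 * m + 10 * n + 10 * i - 7 * e + f) ^ 2
      + 569664 * e * c8 * (-2 + 9 * r + p - 9 * m - 2 * n + 5 * i - 3 * e + 2 * f) ^ 2
      + 267243 * c7 * c8 * (10 - 7 * r + 3 * p - 8 * m + 4 * i - 3 * e + f) ^ 2
      + 1635903 * p * p * f * c12
      + 13831623 * p * c7 * c12
      + 255615 * f * c11 * (-1 + 7 * r + 3 * p + 9 * m + 3 * n - 3 * i - 5 * e + 6 * f) ^ 2
      + 759660 * c10 * (-r + m + 4 * e + 10 * f) ^ 2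
      + 127986 * c9 * c11 * (-9 + 13 * r - 10 * p + 3 * m - 3 * n) ^ 2
      + 70383 * m * f * (-1 - 3 * r - 7 * p - 6 * m - 5 * n - 2 * i - 6 * e + 2 * f) ^ 2
      + 86058 * c8 * c12 * (4 + 3 * r - 10 * p - 7 * m - 8 * n + 4 * i) ^ 2
      + 89325483 * n * n * c8
      + 7909146 * i * e * c10 * c10
      + 190995 * n * c11 * (-r + 3 * p + 2 * m - 10 * n) ^ 2
      + 81297 * f * (6 + 10 * r - 6 * p - 10 * m + 5 * n - 5 * i + f) ^ 2
      + 112377 * c7 * c9 * (2 - 18 * r + 8 * p - 10 * m + 6 * n - 5 * i - 3 * e) ^ 2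
      + 228858 * e * c12 * (5 - 7 * r + 9 * p + 6 * m - n + 10 * i - 5 * f) ^ 2
      + 127599495 * m * m * m * c7
      + 917460 * r * p * (10 * f) ^ 2
      + 42252 * p * i * (7 - 5 * r + 2 * p - 2 * m - 10 * n - 9 * i) ^ 2
      + 705906 * c9 * (3 + 2 * r - 10 * p - 5 * m + 7 * n + 6 * i) ^ 2 := by positivity

private theorem part01_14 {r p m n i e f c7 c8 c9 c11 c12 : ℝ} (hr : 0 ≤ r) (hp : 0 ≤ p) (hm : 0 ≤ m) (hn : 0 ≤ n) (hi : 0 ≤ i) (he : 0 ≤ e) (hf : 0 ≤ f) (hc7 : 0 ≤ c7) (hc8 : 0 ≤ c8) (hc9 : 0 ≤ c9) (hc11 : 0 ≤ c11) (hc12 : 0 ≤ c12) :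
    0 ≤ 25295328 * e * e * f * c12
      + 309714 * e * (-7 - 3 * r + 4 * p + 10 * m - 6 * n + 8 * i + 5 * e + 4 * f) ^ 2
      + 182617077 * n * n * c7 * c7
      + 131709 * n * c7 * (-10 - 4 * r + 2 * p - 6 * m + 6 * n - 5 * i + 2 * f) ^ 2
      + 169971 * n * (-p - m + 10 * n) ^ 2
      + 172125 * c8 * c12 * (7 - 9 * r + 7 * p - 4 * m + 7 * n + 10 * i + 2 * f) ^ 2
      + 42454698 * i * f * c11
      + 257655 * p * i * (3 * p - 3 * n - 3 * i + e - 10 * f) ^ 2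
      + 201765 * r * e * (-2 - 2 * r + p - m + 2 * n + 8 * i + 10 * e - 6 * f) ^ 2
      + 33194910 * f * f * f * c12
      + 3760182 * e * e * e * c8
      + 1142454 * n * c11 * c12
      + 138839487 * e * c8 * c9
      + 86478 * e * c7 * (-1 + 4 * p + 2 * m - i - 4 * e - 10 * f) ^ 2
      + 316980 * m * f * (-2 + 4 * r + 4 * p + m - 3 * n - 7 * i + 10 * e - 6 * f) ^ 2
      + 326040 * i * f * (-4 - 6 * r + 3 * p - 4 * m - n + 10 * i + 2 * e - 3 * f) ^ 2
      + 9072 * r * c8 * (-9 + 13 * r - 10 * p + 3 * m - i) ^ 2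
      + 3449 * r * n * n
      + 3305 * r * r * i
      + 3281 * r * p := by positivity

private theorem part01_15 {r p m n i : ℝ} (hr : 0 ≤ r) (hp : 0 ≤ p) (hm : 0 ≤ m) (hn : 0 ≤ n) (hi : 0 ≤ i) :
    0 ≤ 2986 * r * n
      + 2894 * r * r
      + 2835 * r * m
      + 2248 * r * p * m
      + 3275 * r * m * n
      + 3488 * r * r * m
      + 3073 * r * m * m
      + 2652 * n * n
      + 2559 * r * i
      + 3199 * m
      + 2667 * p * m
      + 2859 * m * n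
      + 3294 * m * m
      + 3549 * m * n * n
      + 2996 * r * m * i
      + 3276 * p * m * m
      + 2622 * m * m * n
      + 2664 * m * m * m
      + 2811 * r * m * n * n
      + 3006 * r * r * m * i := by positivity

private theorem part01_16 {r p m n i e f : ℝ} (hr : 0 ≤ r) (hp : 0 ≤ p) (hm : 0 ≤ m) (hn : 0 ≤ n) (hi : 0 ≤ i) (he : 0 ≤ e) (hf : 0 ≤ f) :
    0 ≤ 2550 * r * p * m * m
      + 3237 * r * m * m * n
      + 2901 * r * r * m * m
      + 2742 * r * m * m * m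
      + 2549 * p * p
      + 3704 * p * n
      + 3133 * i
      + 3206 * p * i
      + 777976 * e
      + 3038 * p * e
      + 3111 * f
      + 3383 * p * f
      + 2922 * n * i
      + 3183 * n * e
      + 2790 * n * f
      + 2865 * i * i
      + 2367 * i * e
      + 2724 * i * f
      + 2763 * e * e
      + 2925 * e * f := by positivity

private theorem part01_17 {r p m n i e f : ℝ} (hr : 0 ≤ r) (hp : 0 ≤ p) (hm : 0 ≤ m) (hn : 0 ≤ n) (hi : 0 ≤ i) (he : 0 ≤ e) (hf : 0 ≤ f) :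
    0 ≤ 2760 * f * f
      + 2823 * p * n * n
      + 2925 * p * n * i
      + 2586 * p * n * e
      + 2940 * p * n * f
      + 2760 * p * i * i
      + 3630 * p * i * e
      + 2646 * p * i * f
      + 3114 * p * e * e
      + 2739 * p * e * f
      + 3087 * p * f * f
      + 2878
      + 2418 * r * e
      + 2916 * m * i
      + 2283 * m * e
      + 3475 * r * r * e
      + 4367 * r * m * e
      + 3085 * m * m * i
      + 3073 * m * m * e
      + 3023 * n := by positivity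

private theorem part01_18 {r p m n i e f : ℝ} (hr : 0 ≤ r) (hp : 0 ≤ p) (hm : 0 ≤ m) (hn : 0 ≤ n) (hi : 0 ≤ i) (he : 0 ≤ e) (hf : 0 ≤ f) :
    0 ≤ 3090 * p * m * m * m
      + 3531 * p * m * m * n
      + 2940 * p * p * m * m
      + 3510 * i * e * e
      + 2628 * m * i * e * e
      + 3108 * n * i * e * e
      + 2658 * i * i * e * e
      + 2049 * r * f
      + 3021 * m * f
      + 3390 * r * r * f
      + 3306 * r * m * f
      + 3297 * r * p * f
      + 2571 * p * m * f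
      + 2604 * m * m * f
      + 3135 * r * n * f
      + 2913 * m * n * f
      + 3870 * r * i * f
      + 2595 * m * i * f
      + 2868 * r * e * f
      + 2808 * m * e * f := by positivity

private theorem part01_19 {r p m n i e f : ℝ} (hr : 0 ≤ r) (hp : 0 ≤ p) (hm : 0 ≤ m) (hn : 0 ≤ n) (hi : 0 ≤ i) (he : 0 ≤ e) (hf : 0 ≤ f) :
    0 ≤ 3300 * r * f * f
      + 2808 * m * f * f
      + 3396 * r * r * r * f
      + 2376 * r * r * m * f
      + 2769 * r * r * p * f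
      + 3180 * r * p * m * f
      + 2691 * r * m * m * f
      + 105068559 * r * r * n * f
      + 4110 * r * m * n * f
      + 2403 * r * r * i * f
      + 3822 * r * m * i * f
      + 3204 * r * r * e * f
      + 2739 * r * m * e * f
      + 3150 * r * r * f * f
      + 2397 * r * m * f * f
      + 2988 * r * p * p * f
      + 2868 * p * p * m * f
      + 2871 * p * m * m * f
      + 2871 * r * p * n * f
      + 157880400 * p * m * n * f := by positivity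

private theorem part01_20 {r p m n i e f : ℝ} (hr : 0 ≤ r) (hp : 0 ≤ p) (hm : 0 ≤ m) (hn : 0 ≤ n) (hi : 0 ≤ i) (he : 0 ≤ e) (hf : 0 ≤ f) :
    0 ≤ 168072477 * r * p * i * f
      + 3186 * p * m * i * f
      + 3432 * r * p * e * f
      + 3429 * p * m * e * f
      + 3102 * r * p * f * f
      + 3204 * p * m * f * f
      + 113432211 * m * m * m * f
      + 2829 * m * m * n * f
      + 241735146 * m * m * i * f
      + 3432 * m * m * e * f
      + 3339 * m * m * f * f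
      + 3699 * r * n * n * f
      + 2610 * m * n * n * f
      + 2868 * r * n * i * f
      + 2742 * m * n * i * f
      + 3078 * r * n * e * f
      + 2742 * m * n * e * f
      + 2733 * r * n * f * f
      + 3078 * m * n * f * f
      + 2676 * r * i * i * f := by positivity

private theorem part01_21 {r p m n i e f : ℝ} (hr : 0 ≤ r) (hp : 0 ≤ p) (hm : 0 ≤ m) (hn : 0 ≤ n) (hi : 0 ≤ i) (he : 0 ≤ e) (hf : 0 ≤ f) :
    0 ≤ 3042 * m * i * i * f
      + 3444 * r * i * e * f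
      + 2526 * m * i * e * f
      + 3126 * r * i * f * f
      + 3291 * m * i * f * f
      + 2793 * r * e * e * f
      + 3348 * m * e * e * f
      + 3105 * r * e * f * f
      + 3210 * m * e * f * f
      + 2904 * r * f * f * f
      + 3063 * m * f * f * f
      + 10525731 * p * p * f
      + 3003 * p * p * p * f
      + 2907 * p * p * n * f
      + 6755049 * p * p * i * f
      + 3321 * p * p * e * f
      + 3042 * p * p * f * f
      + 2634 * p * n * n * f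
      + 2940 * p * n * i * f
      + 3201 * p * n * e * f := by positivity

private theorem part01_22 {r p n i e f : ℝ} (hr : 0 ≤ r) (hp : 0 ≤ p) (hn : 0 ≤ n) (hi : 0 ≤ i) (he : 0 ≤ e) (hf : 0 ≤ f) :
    0 ≤ 89628000 * p * n * f * f
      + 2859 * p * i * i * f
      + 28509306 * p * i * e * f
      + 3126 * p * i * f * f
      + 2886 * p * e * e * f
      + 70118247 * p * e * f * f
      + 3039 * p * f * f * f
      + 3714 * r * r * n
      + 1752 * r * p * n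
      + 2577 * r * r * r * n
      + 3654 * r * r * p * n
      + 2556 * r * p * p * n
      + 2988 * n * e * f
      + 3357 * n * f * f
      + 2901 * i * e * f
      + 3144 * i * f * f
      + 2958 * e * e * f
      + 2718 * e * f * f
      + 3210 * f * f * f
      + 2811 * n * n * e * f := by positivity

private theorem part01_23 {r p n i e f : ℝ} (hr : 0 ≤ r) (hp : 0 ≤ p) (hn : 0 ≤ n) (hi : 0 ≤ i) (he : 0 ≤ e) (hf : 0 ≤ f) :
    0 ≤ 2871 * n * n * f * f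
      + 3252 * n * i * e * f
      + 3054 * n * i * f * f
      + 2823 * n * e * e * f
      + 2871 * n * e * f * f
      + 3276 * n * f * f * f
      + 2904 * i * i * e * f
      + 2808 * i * i * f * f
      + 2829 * i * e * e * f
      + 2931 * i * e * f * f
      + 2916 * i * f * f * f
      + 38707926 * e * e * e * f
      + 3102 * e * e * f * f
      + 2670 * e * f * f * f
      + 3174 * f * f * f * f
      + 2718 * p * n * e * e
      + 2673 * r * p * i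
      + 3207 * r * n * i
      + 3222 * r * i * i
      + 3750 * r * i * e := by positivity

private theorem part01_24 {r p m n i e f : ℝ} (hr : 0 ≤ r) (hp : 0 ≤ p) (hm : 0 ≤ m) (hn : 0 ≤ n) (hi : 0 ≤ i) (he : 0 ≤ e) (hf : 0 ≤ f) :
    0 ≤ 3489 * p * p * i
      + 3048 * p * m * i
      + 2979 * m * n * i
      + 3102 * m * i * i
      + 2850 * m * i * e
      + 3096 * n * n * i
      + 3069 * n * i * i
      + 2208 * n * i * e
      + 3015 * n * i * f
      + 3126 * i * i * i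
      + 3405 * i * i * e
      + 20587848 * i * i * f
      + 2937 * r * r * p * i
      + 3261 * r * r * n * i
      + 3582 * r * r * i * i
      + 2976 * r * r * i * e
      + 2847 * r * p * p * i
      + 3990 * r * p * n * i
      + 3108 * r * p * i * i
      + 3249 * r * p * i * e := by positivity

private theorem part01_25 {r p m n i e : ℝ} (hr : 0 ≤ r) (hp : 0 ≤ p) (hm : 0 ≤ m) (hn : 0 ≤ n) (hi : 0 ≤ i) (he : 0 ≤ e) :
    0 ≤ 2685 * r * p * m * i
      + 2982 * r * m * n * i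
      + 3210 * r * m * i * i
      + 3822 * r * m * i * e
      + 2139 * r * n * n * i
      + 3114 * r * n * i * i
      + 3303 * r * n * i * e
      + 2706 * r * i * i * i
      + 2814 * r * i * i * e
      + 3024 * p * p * p * i
      + 2535 * p * p * n * i
      + 2790 * p * p * i * i
      + 72781944 * p * p * i * e
      + 2445 * p * p * m * i
      + 3066 * p * m * n * i
      + 2874 * p * m * i * i
      + 2613 * p * m * i * e
      + 2889 * p * n * n * i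
      + 2814 * p * n * i * i
      + 3039 * p * n * i * e := by positivity

private theorem part01_26 {p m n i e f : ℝ} (hp : 0 ≤ p) (hm : 0 ≤ m) (hn : 0 ≤ n) (hi : 0 ≤ i) (he : 0 ≤ e) (hf : 0 ≤ f) :
    0 ≤ 2880 * p * i * i * i
      + 2910 * p * i * i * e
      + 3039 * p * m * m * i
      + 2778 * m * m * n * i
      + 2817 * m * m * i * i
      + 128252214 * m * m * i * e
      + 2631 * m * n * n * i
      + 3309 * m * n * i * i
      + 2586 * m * n * i * e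
      + 3270 * m * i * i * i
      + 2544 * m * i * i * e
      + 2946 * n * n * n * i
      + 3039 * n * n * i * i
      + 21407412 * n * n * i * e
      + 2832 * n * n * i * f
      + 2287260 * n * i * i * e
      + 17897760 * n * i * i * f
      + 3072 * i * i * i * i
      + 24594600 * i * i * i * e
      + 2973 * i * i * i * f := by positivity

private theorem part01_27 {r p m n i e f : ℝ} (hr : 0 ≤ r) (hp : 0 ≤ p) (hm : 0 ≤ m) (hn : 0 ≤ n) (hi : 0 ≤ i) (he : 0 ≤ e) (hf : 0 ≤ f) :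
    0 ≤ 3012 * r * r * r * i
      + 3192 * r * m * m * i
      + 2856 * m * m * m * i
      + 3402 * r * i * e * e
      + 2787 * p * i * e * e
      + 3384 * n * n * f
      + 12225567 * n * n * n * f
      + 3714 * r * e * e
      + 2733 * m * e * e
      + 3123 * n * e * e
      + 3045 * e * e * e
      + 2775 * r * r * e * e
      + 2799 * r * p * e * e
      + 3141 * r * m * e * e
      + 3066 * r * n * e * e
      + 7680636 * r * e * e * e
      + 5928936 * p * p * e * e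
      + 3147 * p * m * e * e
      + 2997 * p * e * e * e
      + 3225 * m * m * e * e := by positivity

private theorem part01_28 {r p m n i e : ℝ} (hr : 0 ≤ r) (hp : 0 ≤ p) (hm : 0 ≤ m) (hn : 0 ≤ n) (hi : 0 ≤ i) (he : 0 ≤ e) :
    0 ≤ 93168699 * m * n * e * e
      + 3135 * m * e * e * e
      + 3054 * n * n * e * e
      + 10191927 * n * e * e * e
      + 2886 * i * e * e * e
      + 3009 * e * e * e * e
      + 3012 * r
      + 2862 * r * r * r
      + 3039 * r * n * e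
      + 2610 * m * n * e
      + 2910 * r * r * m * n
      + 118315518 * r * r * n * e
      + 110888709 * r * m * n * e
      + 3189 * p
      + 2892 * r * p * p
      + 3318 * r * r * p
      + 2937 * p * p * p
      + 3606 * p * p * m
      + 3168 * p * p * n
      + 2340 * p * m * n := by positivity

private theorem part01_29 {r p m n : ℝ} (hr : 0 ≤ r) (hp : 0 ≤ p) (hm : 0 ≤ m) (hn : 0 ≤ n) :
    0 ≤ 3234 * n * n * n
      + 2775 * r * r * p * p
      + 3042 * r * r * r * p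
      + 3246 * r * p * p * p
      + 3072 * r * p * p * m
      + 2394 * r * p * m * n
      + 3438 * r * p * n * n
      + 3192 * r * r * r * r
      + 3150 * r * r * p * m
      + 2901 * r * r * n * n
      + 3144 * r * n * n * n
      + 3036 * p * p * p * p
      + 3030 * p * p * p * m
      + 3078 * p * p * p * n
      + 3555 * p * p * m * n
      + 2727 * p * p * n * n
      + 3192 * p * m * n * n
      + 2817 * p * n * n * n
      + 3210 * m * m * m * m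
      + 2901 * m * m * m * n := by positivity

private theorem part01_30 {r p m n i e : ℝ} (hr : 0 ≤ r) (hp : 0 ≤ p) (hm : 0 ≤ m) (hn : 0 ≤ n) (hi : 0 ≤ i) (he : 0 ≤ e) :
    0 ≤ 2571 * m * m * n * n
      + 3105 * m * n * n * n
      + 2985 * n * n * n * n
      + 2949 * n * i * i * i
      + 2817 * r * m * m * e
      + 2700 * m * m * m * e
      + 4161 * r * p * n * e
      + 2634 * p * p * n * e
      + 3312 * p * p * e
      + 2544 * r * p * p * e
      + 23747277 * p * p * p * e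
      + 152198289 * p * m * n * e
      + 58803846 * m * m * n * e
      + 43682637 * r * n * n * e
      + 3009 * m * n * n * e
      + 2874 * n * n * e
      + 52590597 * p * n * n * e
      + 3354 * r * p * e
      + 3021 * p * m * e
      + 2670 * r * r * r * m := by positivity

private theorem part01_31 {r p m n e : ℝ} (hr : 0 ≤ r) (hp : 0 ≤ p) (hm : 0 ≤ m) (hn : 0 ≤ n) (he : 0 ≤ e) :
    0 ≤ 2679 * r * r * r * e
      + 2910 * r * r * m * e
      + 3399 * r * r * p * e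
      + 2883 * r * p * m * e
      + 2580 * p * p * m * e
      + 330512148 * p * m * m * e
      + 24870306 * n * n * n * e := by positivity

theorem leaf01 {r p m n i e f : ℝ} (h0 : 0 ≤ r) (h1 : 0 ≤ p) (h2 : 0 ≤ m) (h3 : 0 ≤ n) (h4 : 0 ≤ i) (h5 : 0 ≤ e) (h6 : 0 ≤ f) (h7 : 0 ≤ r - m) (h8 : 0 ≤ 1 - r - p) (h9 : 0 ≤ 1 - m - n - i) (h10 : 0 ≤ m - e - f) (h11 : 0 ≤ p - n - i - e - f) (h12 : 0 ≤ 1 - m - 2 * n) :
    0 ≤ 107500000 - 215000000 * m - 107500000 * n + 332500000 * i + 332500000 * e + 300000000 * f + 95000000 * r * r - 190000000 * r * p - 285000000 * r * m + 190000000 * r * n - 327000000 * r * i - 27000000 * r * e + 95000000 * p * p + 285000000 * p * m - 190000000 * p * n - 190000000 * p * i - 190000000 * p * e - 190000000 * p * f + 341250000 * m * m - 285000000 * m * n + 120000000 * m * i + 120000000 * m * e + 243750000 * n * n - 112500000 * n * i - 112500000 * n * e - 112500000 * n * f - 56250000 * i *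 i - 112500000 * i * e - 112500000 * i * f - 56250000 * e * e - 112500000 * e * f - 56250000 * f * f + 485000000 * r * r * m - 10000000 * r * r * i - 200000000 * r * r * e - 485000000 * r * p * m - 308750000 * r * m * m + 485000000 * r * m * n - 985000000 * r * m * i - 400000000 * r * m * e - 190000000 * r * n * n - 585000000 * p * m * m - 71250000 * p * n * n - 142500000 * p * n * i - 142500000 * p * n * e - 142500000 * p * n * f - 71250000 * p * i * i - 142500000 * p * i * e - 142500000 * p * i * f - 71250000 * p * e * e - 142500000 * p * e * f - 71250000 * p * f * f - 585000000 * m * m * m + 585000000 * m * m * n + 220000000 * m * m * i + 220000000 * m * m * e + 585000000 * m * n * n - 195000000 * r * r * m * m + 675000000 * r * r * m * i + 1635000000 * r * p * m * m + 675000000 * r * m * m * m - 675000000 * r * m * m * n - 675000000 * r * m * n * n + 480000000 * p * p * m * m - 480000000 * p * m * m * m - 480000000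 * p * m * m * n := by
  have t0 := part01_0 h0 h1 h2 h3 h4 h5 h6 h7 h8 h9 h10 h11 h12
  have t1 := part01_1 h0 h1 h2 h3 h4 h5 h6 h7 h8 h9 h11 h12
  have t2 := part01_2 h0 h1 h2 h3 h4 h5 h6 h7 h8 h10 h11 h12
  have t3 := part01_3 h0 h1 h2 h3 h4 h5 h6 h7 h8 h10 h11 h12
  have t4 := part01_4 h0 h1 h2 h3 h4 h5 h6 h7 h8 h9 h10 h11 h12
  have t5 := part01_5 (p := p) h0 h2 h3 h4 h5 h6 h7 h8 h10 h12
  have t6 := part01_6 h0 h1 h2 h3 h4 h5 h6 h7 h8 h9 h10 h11 h12
  have t7 := part01_7 h0 h1 h2 h3 h4 h5 h6 h7 h8 h9 h11 h12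
  have t8 := part01_8 h0 h1 h2 h3 h4 h5 h6 h7 h8 h9 h10 h11 h12
  have t9 := part01_9 h0 h1 h2 h3 h4 h5 h6 h7 h8 h9 h10 h11
  have t10 := part01_10 h0 h1 h2 h3 h4 h5 h6 h7 h8 h9 h10 h11 h12
  have t11 := part01_11 (n := n) h0 h1 h2 h4 h5 h6 h8 h9 h10 h12
  have t12 := part01_12 h0 h1 h2 h3 h4 h5 h6 h7 h8 h9 h10 h11 h12
  have t13 := part01_13 h0 h1 h2 h3 h4 h5 h6 h7 h8 h9 h10 h11 h12
  have t14 := part01_14 h0 h1 h2 h3 h4 h5 h6 h7 h8 h9 h11 h12
  have t15 := part01_15 h0 h1 h2 h3 h4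
  have t16 := part01_16 h0 h1 h2 h3 h4 h5 h6
  have t17 := part01_17 h0 h1 h2 h3 h4 h5 h6
  have t18 := part01_18 h0 h1 h2 h3 h4 h5 h6
  have t19 := part01_19 h0 h1 h2 h3 h4 h5 h6
  have t20 := part01_20 h0 h1 h2 h3 h4 h5 h6
  have t21 := part01_21 h0 h1 h2 h3 h4 h5 h6
  have t22 := part01_22 h0 h1 h3 h4 h5 h6
  have t23 := part01_23 h0 h1 h3 h4 h5 h6
  have t24 := part01_24 h0 h1 h2 h3 h4 h5 h6
  have t25 := part01_25 h0 h1 h2 h3 h4 h5
  have t26 := part01_26 h1 h2 h3 h4 h5 h6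
  have t27 := part01_27 h0 h1 h2 h3 h4 h5 h6
  have t28 := part01_28 h0 h1 h2 h3 h4 h5
  have t29 := part01_29 h0 h1 h2 h3
  have t30 := part01_30 h0 h1 h2 h3 h4 h5
  have t31 := part01_31 h0 h1 h2 h3 h5
  linarith only [t0, t1, t2, t3, t4, t5, t6, t7, t8, t9, t10, t11, t12, t13, t14, t15, t16, t17, t18, t19, t20, t21, t22, t23, t24, t25, t26, t27, t28, t29, t30, t31]

end Vale.Agent.P038.K4
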