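import Mathlib

/-
P038: one corner of the polynomial inequality for K4-free graphs (exact nonnegativity certificate).
-/

namespace Vale.Agent.P038.K4

private theorem part02_0 {r p m n i e f c7 c8 c9 c10 c11 : ℝ} (hr : 0 ≤ r) (hp : 0 ≤ p) (hm : 0 ≤ m) (hn : 0 ≤ n) (hi : 0 ≤ i) (he : 0 ≤ e) (hf : 0 ≤ f) (hc7 : 0 ≤ c7) (hc8 : 0 ≤ c8) (hc9 : 0 ≤ c9) (hc10 : 0 ≤ c10) (hc11 : 0 ≤ c11) :
    0 ≤ 124369039810701100800 * n * f * (2 + 19 * r - 9 * p - 5 * m - 4 * n + i - 3 * e + 2 * f) ^ 2
      + 111788103225453177600 * p * c10 * (-10 * r + 10 * p + 2 * m - 2 * i) ^ 2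
      + 92961522595094630400 * c8 * c8 * (-n + 10 * i - 2 * e + f) ^ 2
      + 173091410158672051200 * n * e * (7 * r - 3 * p - 10 * m + n - 2 * e + f) ^ 2
      + 11067958768420563609600 * e * c7 * c8 * c10
      + 17492960098147564800 * p * c10 * (8 * r - 8 * p - m + 10 * n - 2 * i - 4 * e + f) ^ 2
      + 232281233987899219200 * i * c7 * c11
      + 1530767886318316800 * r * e * (15 * r - 10 * p - 3 * m + 3 * n - 6 * e + f) ^ 2
      + 31304381778850118400 * r * c8 * (-10 * r + 10 * p + 4 * m - 2 * n) ^ 2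
      + 1627770334660476652800 * r * i * i * c11
      + 5109388244773677849600 * i * e * c9 * c11
      + 171701065136245075200 * i * e * (2 + 8 * r - 5 * p - 10 * m - 8 * n + 4 * e + 4 * f) ^ 2
      + 71253496531666310400 * m * f * (-2 + r - 2 * p + 6 * m + 10 * n - 2 * i - 10 * e + 4 * f) ^ 2
      + 32588110146855458764800 * r * p * e * c8
      + 8113188799914105600 * n * c10 * (2 + 8 * r - 10 * p + 3 * m - 3 * i + 3 * f) ^ 2
      + 16890411142636416000 * e * c10 * (1 - 3 * r - 3 * p + 10 * m + n + i - 8 * e + f) ^ 2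
      + 32475762335548224000 * i * f * (2 + 9 * r - 6 * p + m - 10 * n + 4 * i + 2 * f) ^ 2
      + 24196763487310444800 * f * (5 - 2 * r - p - 4 * m - 10 * n - 2 * i + 6 * e - 4 * f) ^ 2
      + 75192080191488691200 * p * e * (2 + 4 * r + p - 3 * m - n - 10 * i - 10 * e) ^ 2
      + 7919214843860812800 * e * c8 * (10 + 10 * r - 4 * p + 7 * m + 5 * n + 4 * i + 9 * e + 2 * f) ^ 2 := by positivity

private theorem part02_1 {r p m n i e f c7 c8 c10 c11 c12 : ℝ} (hp : 0 ≤ p) (hm : 0 ≤ m) (hi : 0 ≤ i) (he : 0 ≤ e) (hf : 0 ≤ f) (hc7 : 0 ≤ c7) (hc8 : 0 ≤ c8) (hc10 : 0 ≤ c10) (hc11 : 0 ≤ c11) (hc12 : 0 ≤ c12) :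
    0 ≤ 3706980739668532972800 * p * i * c11 * c12
      + 17176247832208591526400 * p * i * c11
      + 67530307264762003200 * m * c11 * (2 * e - 10 * f) ^ 2
      + 4080989897497497600 * e * c8 * (2 - 11 * r + 7 * p + 10 * m + 3 * n - 9 * i + 3 * e + 8 * f) ^ 2
      + 3244331434044564864000 * f * c8 * c8
      + 6780036343916094336000 * i * e * c11
      + 3848260421034465004800 * p * p * i * c11
      + 23185242857584684800 * m * c7 * (-9 * r + 9 * p - 9 * m - 10 * n + 5 * i + 5 * e + 2 * f) ^ 2
      + 34731255002458291200 * i * c7 * (10 * r - 7 * p - 3 * m + 10 * n - 4 * i - 6 * e - 4 * f) ^ 2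
      + 19315680605437708800 * e * c10 * (7 - 10 * r + 10 * p - 5 * m + 8 * n - 9 * i + 4 * e) ^ 2
      + 54250033083354662400 * c10 * c10 * (2 * r + p - 3 * m - 10 * n) ^ 2
      + 77099292421967692800 * m * f * (4 - 5 * r - 2 * m - 10 * i + 2 * e + 4 * f) ^ 2
      + 87830931291222873600 * f * c8 * (-1 + 4 * r + 6 * p - 2 * m + n - 4 * i - 2 * e - 3 * f) ^ 2
      + 7338125992690120320000 * f * c7 * c11
      + 76777589194239225600 * i * f * (1 + 7 * r + p - 6 * m - 10 * n - 2 * i - 6 * e - 6 * f) ^ 2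
      + 935017936137952128000 * i * i * f * c11
      + 86305716851499129600 * m * c11 * (-10 * r + 10 * p + 4 * m - 3 * n + 2 * i) ^ 2
      + 8123105668832985600 * m * f * (4 + r - 10 * p + 3 * m + n + 7 * i + 3 * e) ^ 2
      + 22924627542396518400 * p * f * (5 + 14 * r - 10 * p - 7 * m - 9 * n + i + 5 * f) ^ 2
      + 51959236363093382400 * p * e * (-12 * r + 8 * p + 10 * m + 5 * n - 8 * i + 4 * f) ^ 2 := by positivity

private theorem part02_2 {r p m n i e f c7 c8 c9 c10 c11 c12 : ℝ} (hr : 0 ≤ r) (hp : 0 ≤ p) (hm : 0 ≤ m) (hn : 0 ≤ n) (hi : 0 ≤ i) (he : 0 ≤ e) (hf : 0 ≤ f) (hc7 : 0 ≤ c7) (hc8 : 0 ≤ c8) (hc9 : 0 ≤ c9) (hc10 : 0 ≤ c10) (hc11 : 0 ≤ c11) (hc12 : 0 ≤ c12) :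
    0 ≤ 18045351514040802336000 * n * e * c10 * c11
      + 407835520629977563200 * (3 * r - 3 * p - 5 * m + 3 * n - i - f - 2 * r * r + 2 * r * p + 3 * r * m - 4 * r * n - 2 * r * i + 7 * p * m + 3 * p * n + p * i + 4 * m * m) ^ 2
      + 2091497008923791884800 * p * p * f * c11
      + 2139266963180793600 * f * (-3 - 9 * r + 8 * p + 10 * m + 3 * n - 6 * i + 6 * e - 2 * f) ^ 2
      + 7032722130716724288000 * n * f * c8
      + 83860613650860076800 * i * c7 * (-6 * r + 4 * p - 10 * m - 7 * n + 8 * i + e) ^ 2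
      + 39337838952656428800 * p * f * (-5 + 9 * p + 4 * m - 2 * n - 2 * i - 10 * e - 5 * f) ^ 2
      + 543371031924624288000 * m * c10 * (-3 + 5 * r + 5 * p - 2 * n - 4 * i) ^ 2
      + 275438350409008846752 * m * c7 * (10 * r - 10 * p - 5 * m + 9 * n + i + 2 * f) ^ 2
      + 4451484120306854400 * c7 * c12 * (4 * r - 4 * p - 10 * m + 5 * n + 3 * i) ^ 2
      + 53947766918707200 * p * c8 * (10 * r - 10 * p - 5 * m) ^ 2
      + 2749992972127694092800 * e * f * c10 * c10
      + 94102359195522585600 * r * n * (6 * r - 6 * p + 8 * m + 10 * n - 5 * i - 2 * e + f) ^ 2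
      + 63529445668129056000 * n * c11 * (-m + 3 * n + 6 * i - e - 10 * f) ^ 2
      + 801679683402259200 * e * c8 * (6 + 3 * r + 7 * p - 2 * m + 9 * n + 10 * i - 4 * f) ^ 2
      + 290809916195737276800 * p * c8 * (3 * r - 3 * p - 2 * m + 10 * n) ^ 2
      + 40158162349626182400 * c8 * c9 * (-10 * i + 7 * e + 7 * f) ^ 2
      + 2229312132964224000 * p * n * (-2 * r + 2 * p - 10 * m - 7 * n + 6 * i + 3 * e + f) ^ 2
      + 120628396854499564800 * f * c12 * (4 - 8 * r - 2 * p + 2 * m + n - i - 7 * e + f) ^ 2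
      + 18818250460466688000 * f * c11 * (2 - 4 * r + 4 * p + 2 * m - 10 * n + 6 * i - 3 * e + 3 * f) ^ 2 := by positivity

private theorem part02_3 {r p m n i e f c7 c8 c10 c11 c12 : ℝ} (hr : 0 ≤ r) (hp : 0 ≤ p) (hm : 0 ≤ m) (hn : 0 ≤ n) (hi : 0 ≤ i) (he : 0 ≤ e) (hf : 0 ≤ f) (hc7 : 0 ≤ c7) (hc8 : 0 ≤ c8) (hc10 : 0 ≤ c10) (hc11 : 0 ≤ c11) (hc12 : 0 ≤ c12) :
    0 ≤ 42231581303185612800 * n * c11 * (-r + p - 10 * n + 3 * i + e + f) ^ 2
      + 11884385629254710880000 * r * e * c8 * c8
      + 115424024045871340800 * m * f * (-7 * r + 4 * p + 5 * m - 10 * n + 9 * i) ^ 2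
      + 28829348674464372249600 * p * m * f * c11
      + 1597695644627567654400 * p * p * f * c10
      + 1448837888708584281600 * n * n * i * c11
      + 11340667506917925792000 * p * n * f * c8
      + 106694950355392845600 * c7 * c11 * (2 * r - 2 * p + 10 * m - 3 * n + e) ^ 2
      + 17269394601915090835200 * i * i * i * c8
      + 129115920568495543200 * r * c7 * (-8 * r + 8 * p + 2 * m - 10 * n + i + e) ^ 2
      + 149233803588387302400 * i * c7 * (1 + 2 * r - p - 10 * m - 3 * n + i) ^ 2
      + 7265937533756782003200 * e * f * f * c11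
      + 30863676124095091200 * c8 * c12 * (3 * r - 3 * p - 3 * m + 10 * n + i + e) ^ 2
      + 7252946435473049203200 * n * i * c8 * c12
      + 314701124922224409600 * f * c7 * (4 - p + 6 * m - 10 * n - 2 * i + 4 * e + 2 * f) ^ 2
      + 14853882941455219200 * p * i * (5 + 7 * r - 8 * p - m + n - 10 * i - e + f) ^ 2
      + 3728742713498880000 * c8 * c8 * (-8 * r + 8 * p + 10 * m + 2 * n) ^ 2
      + 62597823645279370140 * c7 * c8 * (10 * r - 10 * p - 10 * m + n - 10 * i + 7 * e + 10 * f) ^ 2
      + 7610998557862022400 * c7 * c10 * (-7 * r + 7 * p + 5 * m - 7 * n - i + 10 * e + 5 * f) ^ 2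
      + 20800792020603015590400 * n * n * e * c10 := by positivity

private theorem part02_4 {r p m n i e f c7 c8 c10 c11 : ℝ} (hr : 0 ≤ r) (hp : 0 ≤ p) (hm : 0 ≤ m) (hn : 0 ≤ n) (hi : 0 ≤ i) (he : 0 ≤ e) (hf : 0 ≤ f) (hc7 : 0 ≤ c7) (hc8 : 0 ≤ c8) (hc10 : 0 ≤ c10) (hc11 : 0 ≤ c11) :
    0 ≤ 90183212598781209600 * i * c10 * (2 * r - 2 * m - n - i - 2 * e + 10 * f) ^ 2
      + 7031888320378024857600 * i * e * c7 * c11
      + 19108616382411494400 * r * c11 * (-7 * r + 7 * p - 4 * n + 10 * i) ^ 2
      + 6281741447975347200 * e * (1 + 2 * r - p - 2 * m - 10 * n + 4 * i + 4 * e + f) ^ 2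
      + 329038934005141113600 * r * i * (1 - 10 * m - 2 * n + 2 * i) ^ 2
      + 6999722757702259200 * c8 * (10 * n + i) ^ 2
      + 1102739560114429036800 * r * n * i * c11
      + 5194059264952588800 * e * c7 * (-1 - 13 * r + 8 * p + m + 10 * n - 2 * i - 3 * e + f) ^ 2
      + 33153282820086105600 * r * c10 * (4 * e + 10 * f) ^ 2
      + 15033476644226622489600 * r * n * f * c11
      + 152071218123457248000 * n * c10 * (1 + 13 * r - 10 * p - 5 * m - 9 * n - 2 * i) ^ 2
      + 138749293092590611200 * m * f * (-6 + 6 * r + 2 * p + 2 * m - 2 * n + 3 * i + 10 * e + 5 * f) ^ 2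
      + 17730053790284418105600 * m * n * e * c10
      + 9609445982394720000 * f * (-3 - 16 * r + 10 * p - 5 * n + 7 * i - e + 2 * f) ^ 2
      + 158265294450189696000 * r * i * (-4 - 4 * r + 4 * p + 10 * m + 5 * n + 4 * i - e - 4 * f) ^ 2
      + 2069848880748633600 * n * c11 * (-4 * r + 4 * p + 2 * m - 10 * n + 2 * i + f) ^ 2
      + 297902742323155200 * p * (6 * r - 6 * p - 2 * m + 10 * n - i - 7 * e + 2 * f) ^ 2
      + 147842344397832462000 * r * c7 * (4 * r - 4 * p + 10 * m + 5 * n - 5 * i + f) ^ 2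
      + 14601994470915667200 * m * f * (3 + r - p + 4 * m + 3 * n - 5 * i + 6 * e - 10 * f) ^ 2
      + 233911268287520947200 * p * m * (9 * r - 9 * p - m + 10 * n - i - 2 * e + 3 * f) ^ 2 := by positivity

private theorem part02_5 {r p m n i e f c7 c8 c9 c10 c11 : ℝ} (hr : 0 ≤ r) (hp : 0 ≤ p) (hm : 0 ≤ m) (hn : 0 ≤ n) (hi : 0 ≤ i) (he : 0 ≤ e) (hf : 0 ≤ f) (hc7 : 0 ≤ c7) (hc8 : 0 ≤ c8) (hc9 : 0 ≤ c9) (hc10 : 0 ≤ c10) (hc11 : 0 ≤ c11) :
    0 ≤ 75366617084460979200 * r * e * (5 * r - 4 * p - 2 * m + 6 * n + i - 10 * e + 2 * f) ^ 2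
      + 283037355813754080000 * i * c11 * (2 + 3 * r - p - 10 * m) ^ 2
      + 59409184969712793600 * r * c8 * (7 * r - 7 * p - 4 * m + 10 * n - 10 * i) ^ 2
      + 183028509490146566400 * r * e * (1 - 3 * r + 2 * p - 2 * m - 10 * n + 4 * i + 4 * e + f) ^ 2
      + 8245725372966396268800 * m * f * c7 * c11
      + 11384913005961157555200 * n * n * f * c11
      + 61502040986353228800 * n * c8 * (-2 * r + 2 * p - 2 * m + 7 * n + 5 * e - 10 * f) ^ 2
      + 68737785224324832000 * c9 * c10 * (4 * r - 4 * p - m + 10 * n - i) ^ 2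
      + 37072826091584236800 * f * f * (9 * r - 4 * p + 2 * m - 10 * n + i + 4 * e + 5 * f) ^ 2
      + 13023656951092510060800 * e * f * c10
      + 1474121541029403974400 * n * i * c9 * c11
      + 26263042295248281600 * n * n * (1 - 12 * r + 7 * p + 10 * m - 9 * n + 2 * i + 4 * e - 7 * f) ^ 2
      + 33989473207326067200 * e * c8 * (-8 - 4 * r + 2 * p - 4 * m + 7 * n - 10 * i + 5 * e - 3 * f) ^ 2
      + 4445533998955526400 * f * c11 * (-2 - r + 9 * p - 3 * n - 10 * i - 6 * e + 9 * f) ^ 2
      + 10783206587633356800 * f * (1 + 2 * r - p - m - 10 * n + 6 * i + 3 * f) ^ 2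
      + 5795021521436716800 * n * i * (1 + 15 * r - 10 * p - m + 2 * n - 6 * i) ^ 2
      + 6108394579273324800 * p * f * (2 + 17 * r - 9 * p + 7 * m - 4 * n - 10 * i + 10 * e + 4 * f) ^ 2
      + 2143233710748345600 * e * c7 * (1 - 14 * r + 10 * p + m - 8 * n + 9 * e + 2 * f) ^ 2
      + 7175306872032380928000 * r * e * e * c10
      + 810506886764332665600 * m * c10 * (-3 + 3 * r + 7 * p + 3 * m - 4 * i) ^ 2 := by positivity

private theorem part02_6 {r p m n i e f c8 c10 c11 c12 : ℝ} (hr : 0 ≤ r) (hm : 0 ≤ m) (hn : 0 ≤ n) (hi : 0 ≤ i) (he : 0 ≤ e) (hf : 0 ≤ f) (hc8 : 0 ≤ c8) (hc10 : 0 ≤ c10) (hc11 : 0 ≤ c11) (hc12 : 0 ≤ c12) :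
    0 ≤ 4572866595873945600 * e * c8 * (-8 + r - 10 * p - 3 * m + 2 * n - 8 * i + 9 * e - 7 * f) ^ 2
      + 6912057636459360000 * f * c10 * (3 + r + p - 4 * m + 8 * n - 2 * i + 2 * e - 10 * f) ^ 2
      + 77378948125480108800 * e * c8 * (3 + 5 * r + 5 * p - 5 * m + 2 * n - 5 * i - 3 * e) ^ 2
      + 12035905469466278400 * f * f * (8 - 15 * r + 6 * p - 4 * m - 7 * n - 9 * i - e - 10 * f) ^ 2
      + 136808760182544172800 * n * c8 * (4 * i + 10 * e + f) ^ 2
      + 9111935709122834649600 * i * e * e * c11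
      + 169466199556686278400 * m * i * (4 - 15 * r + 6 * p - 10 * n + 2 * i + e) ^ 2
      + 164841665650773724800 * r * c11 * (-7 * r + 7 * p + 2 * m - 10 * n) ^ 2
      + 33585488131478625619200 * m * e * c8 * c8
      + 45539848774523980800 * n * c10 * (10 * e - 4 * f) ^ 2
      + 130587661596424032000 * c8 * c8 * (r - p - 2 * m + 10 * n + 3 * i + 4 * e + f) ^ 2
      + 38619460968172761600 * c10 * (10 * n - 2 * i + 2 * e + f) ^ 2
      + 29781150712910150400 * i * c10 * (-3 - r + 8 * p + 8 * m + 10 * n - 7 * i - e - f) ^ 2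
      + 5761304167112524800 * c11 * c12 * (-8 * r + 8 * p + 3 * m - 10 * n + i) ^ 2
      + 48247153989378220800 * m * e * (4 - r + 2 * p - 3 * m - 8 * n - 6 * i - 7 * e + 10 * f) ^ 2
      + 79453160428553049600 * f * (-3 - 4 * r + 2 * p + 10 * m + 6 * n + i - 4 * e - 6 * f) ^ 2
      + 15676586386965504000 * n * f * (3 + 2 * r - 3 * p - 3 * m + 7 * n - 10 * i + 2 * e) ^ 2
      + 31981902263388000000 * m * i * (-2 - 16 * r + 10 * p + 9 * m - 6 * n + 9 * i + e) ^ 2
      + 23285998245800505600 * r * f * (-2 - 18 * r + 10 * p + m - 8 * n + 6 * i - 3 * e + 8 * f) ^ 2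
      + 11880324473095051142400 * e * c8 := by positivity

private theorem part02_7 {r p m n i e f c7 c8 c9 c10 c11 c12 : ℝ} (hr : 0 ≤ r) (hp : 0 ≤ p) (hm : 0 ≤ m) (hn : 0 ≤ n) (hi : 0 ≤ i) (he : 0 ≤ e) (hf : 0 ≤ f) (hc7 : 0 ≤ c7) (hc8 : 0 ≤ c8) (hc9 : 0 ≤ c9) (hc10 : 0 ≤ c10) (hc11 : 0 ≤ c11) (hc12 : 0 ≤ c12) :
    0 ≤ 10919662703957145600 * i * (-5 + 5 * r + 5 * p) ^ 2
      + 4865153613665717433600 * m * f * c11 * c12
      + 16044598615821843513600 * p * n * i * c8
      + 14962571824806144000 * c7 * c8 * (10 * r - 10 * p - 10 * m + 2 * n + 2 * i - 4 * e + f) ^ 2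
      + 2713433046496594329600 * e * c11 * c12
      + 1206287935292563200 * i * e * (1 + 9 * r - 6 * p - 2 * m + 8 * n - 10 * i - 2 * e + f) ^ 2
      + 10275462898986700800 * e * c7 * (-4 * r + 3 * p + 10 * m - 4 * i + 2 * e + 3 * f) ^ 2
      + 12734162920263051590400 * r * i * c8 * c8
      + 17286292549878105600 * e * (4 - 5 * r + 3 * m - 5 * i - 10 * e + 10 * f) ^ 2
      + 130505994972460800 * e * (3 + 12 * r - 7 * p - 10 * m - 8 * n - 6 * i + 7 * e + 8 * f) ^ 2
      + 11842328188169740800 * e * c12 * (-6 * r + 6 * p - m - 10 * n + 6 * i - 4 * e + 9 * f) ^ 2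
      + 29922489498814838956800 * m * i * c8 * c9
      + 3840777151748278156800 * i * i * i * c11
      + 39761884267627737600 * c8 * c9 * (10 * i - 9 * e + 4 * f) ^ 2
      + 438751238228494329600 * m * m * (-3 + 5 * r + 5 * p - 2 * n - 4 * i) ^ 2
      + 47802481587055641600 * c8 * c11 * (-4 * i + 10 * e - 2 * f) ^ 2
      + 101799832850357241600 * e * f * (-4 + 2 * r + p - m + 6 * n + 5 * i - 10 * e - 5 * f) ^ 2
      + 34403204978621740800 * c7 * c10 * (-5 * r + 5 * p - 10 * m + 2 * n + 3 * i + e) ^ 2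
      + 110181967135351372800 * e * c12 * (1 + 9 * r - 5 * p - 10 * m - 4 * i + 4 * e + f) ^ 2
      + 17138729540365171200 * p * i * (2 + 11 * r - 7 * p - 10 * m + 4 * n - 5 * i - 4 * e + 4 * f) ^ 2 := by positivity

private theorem part02_8 {r p m n i e f c7 c8 c10 c11 c12 : ℝ} (hr : 0 ≤ r) (hp : 0 ≤ p) (hm : 0 ≤ m) (hn : 0 ≤ n) (hi : 0 ≤ i) (he : 0 ≤ e) (hf : 0 ≤ f) (hc7 : 0 ≤ c7) (hc8 : 0 ≤ c8) (hc10 : 0 ≤ c10) (hc11 : 0 ≤ c11) (hc12 : 0 ≤ c12) :
    0 ≤ 1810423589830732800 * f * c8 * (10 + 9 * r - 3 * p + 9 * m + 7 * n + 4 * i + 3 * e + 10 * f) ^ 2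
      + 1538626806599150822400 * f * f * f * c11
      + 78660604264556160000 * f * f * (-2 + r - 2 * p - 3 * m + 10 * n - 4 * i - 5 * e + 3 * f) ^ 2
      + 21066177349741163270400 * m * i * c8 * c8
      + 62340214747376966400 * n * f * (3 + 6 * r - 4 * p - 5 * m - 10 * n + 6 * i - 4 * f) ^ 2
      + 5659590016009626681600 * p * e * c8 * c8
      + 30243673479286713600 * f * c10 * (-1 + 16 * r - 9 * p + 10 * m - 6 * n - i - 3 * e + 4 * f) ^ 2
      + 84023250301129708800 * i * c8 * (10 - 8 * r + 8 * p - 2 * m + 4 * n + 5 * i - 2 * e - 4 * f) ^ 2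
      + 23929404701257440000 * f * (-2 - 8 * r + 5 * p + 5 * m - 10 * n + 7 * i + 2 * e + 3 * f) ^ 2
      + 13005938283057768787200 * e * e * c11
      + 39925710942167635200 * e * c7 * (1 + 5 * m + 2 * n - 10 * i + 7 * e) ^ 2
      + 42212144240104608000 * n * f * (-3 - 11 * r + 10 * p - 3 * m - 3 * n + 3 * i + 2 * e + 3 * f) ^ 2
      + 196211201681392128000 * f * c10
      + 134487816180769497600 * p * m * n * c8
      + 8473313547907124716800 * n * f * c10
      + 25747761786223276800 * e * c11 * (5 - r + p - 5 * m + 7 * n + 10 * i - 5 * e - 4 * f) ^ 2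
      + 31132224934418361600 * f * c8 * (-6 - r - p + 10 * n - 10 * i + e + 6 * f) ^ 2
      + 8196093824075942400 * n * e * (-1 - 8 * r + 5 * p + 3 * m + 10 * n - 9 * i + 9 * e - 8 * f) ^ 2
      + 331508631040698988800 * r * r * f * c8
      + 9243734070452803891200 * e * c8 * c12 := by positivity

private theorem part02_9 {r p m n i e f c7 c8 c10 c11 : ℝ} (hr : 0 ≤ r) (hp : 0 ≤ p) (hm : 0 ≤ m) (hn : 0 ≤ n) (hi : 0 ≤ i) (he : 0 ≤ e) (hf : 0 ≤ f) (hc7 : 0 ≤ c7) (hc8 : 0 ≤ c8) (hc10 : 0 ≤ c10) (hc11 : 0 ≤ c11) :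
    0 ≤ 63617507464128710400 * n * c11 * (m + 2 * n + 3 * i + 10 * e - f) ^ 2
      + 104170499564990443200 * (5 * r - 5 * p - 8 * m + 2 * n - 2 * r * r + 5 * r * m - 2 * r * n + 2 * p * p + 5 * p * m + 2 * p * n + 9 * m * m) ^ 2
      + 4129780892578387200 * m * f * (5 + 14 * r - 9 * p + 4 * m - 9 * n - 7 * i + 2 * e + 10 * f) ^ 2
      + 20441443565108966400 * c7 * c11 * (-4 * r + 4 * p - 10 * m - 3 * n) ^ 2
      + 28646032179100821408000 * p * m * e * c11
      + 18393808470738624000 * f * f * (-5 - 2 * r + 5 * p + 3 * m + 5 * n - 3 * i + 3 * e + 10 * f) ^ 2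
      + 324533502117915552000 * e * c8 * c11
      + 49855670128020556800 * p * c10 * (e - 10 * f) ^ 2
      + 9138003190763002617600 * p * e * c8 * c10
      + 170455109725276992000 * f * c8 * (3 * r - 3 * p + 2 * m + 2 * n + 10 * i + 3 * f) ^ 2
      + 380152770791525313120 * m * c8 * (10 * r - 10 * p - 3 * m + n - 9 * i) ^ 2
      + 249560783066912486400 * r * i * (1 + 3 * r - 2 * p - 10 * m - n + i - e) ^ 2
      + 270943732667210058225 * c7 * c8 * (-4 * r + 4 * p + 4 * m - 10 * n) ^ 2
      + 13496461923838924800 * m * c11 * (10 * i - 5 * e - 7 * f) ^ 2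
      + 143980809546317004800 * n * c8 * (9 * r - 9 * p + 10 * m + 4 * n + 9 * i + 4 * e + f) ^ 2
      + 8135799261049152000 * n * c8 * (-7 * r + 7 * p + 4 * m + 10 * n - i - 3 * e + 2 * f) ^ 2
      + 3485113011394971264000 * e * c7 * c11
      + 7625026960634670048000 * e * e * c7 * c8
      + 142581171242845843200 * i * f * (-2 * r - 2 * p + 5 * m + 10 * n - 3 * i - 9 * e - 4 * f) ^ 2
      + 35271435579314333414400 * i * e * e * c8 := by positivity

private theorem part02_10 {r p m n i e f c7 c8 c10 c11 c12 : ℝ} (hr : 0 ≤ r) (hp : 0 ≤ p) (hm : 0 ≤ m) (hn : 0 ≤ n) (hi : 0 ≤ i) (he : 0 ≤ e) (hf : 0 ≤ f) (hc7 : 0 ≤ c7) (hc8 : 0 ≤ c8) (hc10 : 0 ≤ c10) (hc11 : 0 ≤ c11) (hc12 : 0 ≤ c12) :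
    0 ≤ 41727407687349753600 * c10 * (e - 10 * f) ^ 2
      + 6900796833464593382400 * f * f * c8 * c8
      + 87597686534250816000 * r * n * (r - p - 4 * m - 5 * n + 4 * i + 6 * e + 10 * f) ^ 2
      + 81909370522381248000 * p * i * (-5 + 5 * r + 5 * p) ^ 2
      + 255398645462078764800 * n * c7 * (-4 * r + 4 * p + 10 * m - 3 * n - 4 * i + 2 * e + 5 * f) ^ 2
      + 13657115200324780800 * p * f * (4 + 2 * r - p - 5 * m - 8 * n - i + 10 * e - 10 * f) ^ 2
      + 2195594778640032000 * m * n * (-1 + 5 * r - 5 * p + 10 * m + 4 * n + 2 * e - 2 * f) ^ 2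
      + 5340432250195257600 * e * c11 * (-10 - 2 * r - 3 * p + 4 * m - 2 * i + 2 * e + 9 * f) ^ 2
      + 13836992128872507302400 * e * e * e * c8
      + 119712474841151808000 * n * n * (5 - 5 * r - 5 * p) ^ 2
      + 41548904046809913600 * e * c8 * (-10 - 6 * r + 6 * p - 7 * m + n - 2 * i + 10 * e) ^ 2
      + 6019539433760160000 * m * c12 * (6 * r - 6 * p - 2 * m + 10 * n - i - 3 * e + f) ^ 2
      + 477553582178084966400 * r * n * (3 * r - 3 * p - 10 * m - n + 5 * i + 8 * e + 7 * f) ^ 2
      + 14725360320266534400 * f * c8 * (-1 + 3 * r - 4 * p + 9 * m + 4 * n - 2 * i - 10 * e + 3 * f) ^ 2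
      + 6550059393590186073600 * m * m * c7 * c8
      + 80830811858763859200 * i * f * (1 + 8 * r - 5 * p - 10 * m + n + i - 7 * e + 6 * f) ^ 2
      + 465696164430604800 * c8 * c8 * (r - p - 10 * n + 2 * i + 5 * e - 2 * f) ^ 2
      + 53454700196060486400 * e * f * (2 + 4 * r - 2 * p + 2 * m - 2 * n - 2 * i - 9 * e + 10 * f) ^ 2
      + 34114425755703955200 * m * c7 * (-2 * r + 2 * p + 9 * m + 2 * n - 3 * i - 10 * e - f) ^ 2
      + 4938600721602240000 * m * e * (1 + 2 * r - p + 5 * m + 4 * n - 10 * i + 5 * e) ^ 2 := by positivity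

private theorem part02_11 {r p m n i e f c7 c8 c10 c11 c12 : ℝ} (hr : 0 ≤ r) (hp : 0 ≤ p) (hm : 0 ≤ m) (hn : 0 ≤ n) (hi : 0 ≤ i) (he : 0 ≤ e) (hf : 0 ≤ f) (hc7 : 0 ≤ c7) (hc8 : 0 ≤ c8) (hc10 : 0 ≤ c10) (hc11 : 0 ≤ c11) (hc12 : 0 ≤ c12) :
    0 ≤ 45220525595336044800 * e * c10 * (3 + 7 * r - p - 10 * m + 4 * n - 9 * i - 2 * f) ^ 2
      + 40144675407896505600 * e * e * (9 * r - 4 * p - n - 10 * e + 3 * f) ^ 2
      + 478786431403526400 * n * c12 * (2 * r - 2 * p - 10 * m - 6 * n + 7 * i + 5 * e + f) ^ 2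
      + 61111747818288367200 * p * c8 * (6 * r - 6 * p - 2 * m + 10 * n) ^ 2
      + 21776254121590214400 * i * c8 * (-10 - r + 4 * m - 7 * n + 2 * i - e + 3 * f) ^ 2
      + 8434495352885817600 * p * f * (3 + 19 * r - 10 * p + 2 * n - 7 * i - 4 * e + 6 * f) ^ 2
      + 69877828475239276800 * e * e * (-1 + r + m - 10 * n + 10 * i + 2 * e + f) ^ 2
      + 3023058321231379200 * (3 * r - 3 * p - 4 * m + 8 * n - 3 * e + f - 10 * r * r + 19 * r * p + 6 * r * m + 6 * r * n + 15 * r * i - 9 * p * p - 4 * p * m - p * n - 10 * p * i - p * e + 5 * m * m - 4 * m * i + 3 * n * n - n * e - 5 * i * i - i * e) ^ 2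
      + 15864213546910713600 * i * c11 * (5 - 12 * r + 10 * p - 2 * m + n + 6 * i + f) ^ 2
      + 6739498960499010182400 * p * i * c10 * c11
      + 5173432177601318400 * f * c7 * (-2 - 16 * r + 10 * p + 10 * m - 2 * n - 6 * i + 9 * f) ^ 2
      + 367717499512070400 * e * f * (10 - 9 * r + 7 * p - 5 * m + 3 * n + 7 * i + 5 * e - 8 * f) ^ 2
      + 40913827761244838400 * n * c8 * (-2 * r + 2 * p + 2 * m + 3 * n + 3 * i - 10 * e - 2 * f) ^ 2
      + 10765752898336128000 * f * c11 * (6 + 11 * r - 3 * p + 6 * m - n - 8 * i + 2 * e + 10 * f) ^ 2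
      + 75557020967703475200 * e * (1 - 6 * m - 10 * n + 7 * i + f) ^ 2
      + 17027925587211227673600 * f * c7 * c8
      + 52905305657954534400 * i * c10 * (-16 * r + 10 * p + 6 * m + n + 4 * i) ^ 2
      + 31417830759282105600 * p * c10 * (-10 * r + 10 * p + 4 * m - 2 * n - i) ^ 2
      + 32724519455557950451200 * r * i * c7 * c8
      + 2136155843063562566400 * m * i * e * c10 := by positivity

private theorem part02_12 {r p m n i e f c8 c9 c10 c11 c12 : ℝ} (hm : 0 ≤ m) (hn : 0 ≤ n) (hi : 0 ≤ i) (he : 0 ≤ e) (hf : 0 ≤ f) (hc8 : 0 ≤ c8) (hc9 : 0 ≤ c9) (hc10 : 0 ≤ c10) (hc11 : 0 ≤ c11) (hc12 : 0 ≤ c12) :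
    0 ≤ 1438504114620354566400 * i * i * e * c10
      + 73088117281659110400 * n * e * (-1 - 14 * r + 9 * p + 10 * m + 2 * n - i - e + 9 * f) ^ 2
      + 1207874634319584000 * c8 * c8 * (-10 * r + 10 * p + 10 * m - n) ^ 2
      + 2132126817559200000 * n * c10 * (-1 + 11 * r - 10 * p + 2 * m - 9 * n + 3 * i) ^ 2
      + 46858395665978265600 * i * c10 * (1 - 10 * m - n + i) ^ 2
      + 336380193728409600 * f * c11 * (-9 - 5 * r - 2 * p + 3 * m - 6 * n + 2 * i - e + 10 * f) ^ 2
      + 430060887657501408000 * m * f * (-6 + 3 * r + 7 * p + 3 * m + n - 3 * f) ^ 2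
      + 32580017981817652684800 * i * c8 * c9
      + 56687599463615366400 * e * e * (6 - 8 * r + p + 3 * m - 3 * n - 6 * i - 10 * e + 8 * f) ^ 2
      + 36322714126560153600 * i * e * (-1 - 16 * r + 10 * p + 5 * m - 2 * n + i + 5 * e) ^ 2
      + 3725192871100677715200 * i * i * c9 * c11
      + 4810078100413555200 * n * c10 * (1 - 3 * r - 2 * p - 10 * m + 6 * n + 4 * i) ^ 2
      + 9652407841925091936000 * i * f * c11
      + 6698646617325062400 * (-2 * r + 2 * p + 5 * m - 3 * n + i + r * r - 2 * r * p - 4 * r * m + 4 * r * n - 5 * r * i + p * p - 6 * p * m - 4 * p * n + 4 * p * i - 3 * m * m - m * n - 2 * m * i - 3 * n * n + n * i + i * i) ^ 2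
      + 6381155282163821913600 * m * i * i * c8
      + 53795047137356448000 * n * f * (3 + 8 * r - 5 * p - 6 * m - 10 * n + 2 * i + 5 * f) ^ 2
      + 1064730978271659283200 * m * i * c11 * c12
      + 5853332710679731200 * m * f * (-5 + r + 6 * p + 10 * m + 5 * n - 6 * i + 5 * e) ^ 2
      + 683870850718775596800 * m * c8 * (-10 * n - i + 3 * f) ^ 2
      + 7046262623538563040000 * i * e * f * c12 := by positivity

private theorem part02_13 {r p m n i e f c7 c8 c10 c11 : ℝ} (hm : 0 ≤ m) (hn : 0 ≤ n) (hi : 0 ≤ i) (he : 0 ≤ e) (hf : 0 ≤ f) (hc7 : 0 ≤ c7) (hc8 : 0 ≤ c8) (hc10 : 0 ≤ c10) (hc11 : 0 ≤ c11) :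
    0 ≤ 6753366313320415219200 * i * i * c8 * c11
      + 8751206825475277363200 * m * n * i * c8
      + 116901240840027705600 * c8 * c10 * (10 * r - 10 * p - 3 * m) ^ 2
      + 28249589477078323200 * m * e * (6 * r - 4 * p - 2 * m + 10 * n - 7 * i - 6 * e - 2 * f) ^ 2
      + 2043271672046035200 * f * f * (6 - 11 * r + p - 2 * m - 2 * n - 8 * i - e + 2 * f) ^ 2
      + 22770321062018745600 * i * f * (3 + 9 * r - 5 * p + 4 * m - n - 10 * i + 7 * e + 3 * f) ^ 2
      + 22005532130994720000 * n * c11 * (-r + p - m + 2 * n - 10 * i + e - 6 * f) ^ 2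
      + 4354045726407020582400 * i * e * e * c10
      + 74288081212899800400 * c8 * c8 * (-6 * r + 6 * p + 8 * m - 10 * n) ^ 2
      + 6357474592535049984000 * m * e * c7 * c11
      + 5151608322508917561600 * n * i * i * c8
      + 109956366277080523200 * (5 * r - 5 * p - 7 * m + 2 * n + i - 5 * r * r + 8 * r * p + 6 * r * m - r * n - 9 * r * i - 3 * p * p + 4 * p * m + p * n + 6 * p * i + 8 * m * m - m * i + n * i + 2 * i * i) ^ 2
      + 41049490528055116800 * (-r + p + 2 * m - i - 3 * e - 2 * f - r * m - r * n + 2 * r * i - 2 * p * m + p * n - 2 * p * i - p * e - p * f - 3 * m * m + 3 * m * n + 10 * m * i - m * f + 7 * n * n - n * e - 2 * i * i - i * e - f * f) ^ 2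
      + 2044858371073056000 * i * c8 * (8 - 6 * r + 4 * p - 2 * m + 6 * n - 6 * i - 5 * e + 10 * f) ^ 2
      + 6628435185379392000 * f * c7 * (-2 + r - 10 * m + 7 * i + 8 * e - 9 * f) ^ 2
      + 25811626422060864000 * n * e * (1 + 16 * r - 10 * p + 9 * m - 7 * n - 5 * i + 8 * e + f) ^ 2
      + 21334358442564921600 * c7 * c8 * (6 * r - 6 * p - 2 * m + i + 8 * e - 10 * f) ^ 2
      + 21825011795991536563200 * m * m * i * c11
      + 2653754122692288000 * n * i * (2 + 16 * r - 10 * p - 4 * m + 8 * n - 10 * i - 2 * e) ^ 2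
      + 98426510718911020800 * m * c8 * (10 * n + 2 * i - 10 * e + 3 * f) ^ 2 := by positivity

private theorem part02_14 {r p m n i e f c7 c8 c10 c11 c12 : ℝ} (hr : 0 ≤ r) (hp : 0 ≤ p) (hm : 0 ≤ m) (hn : 0 ≤ n) (hi : 0 ≤ i) (he : 0 ≤ e) (hf : 0 ≤ f) (hc7 : 0 ≤ c7) (hc8 : 0 ≤ c8) (hc10 : 0 ≤ c10) (hc11 : 0 ≤ c11) (hc12 : 0 ≤ c12) :
    0 ≤ 24886472597099143430400 * p * f * c7 * c10
      + 84748768431234969600 * e * f * (5 - 2 * r - 8 * p - 2 * m + 5 * n + 3 * i + 6 * e - 2 * f) ^ 2
      + 15129643695531055891200 * m * m * f * c7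
      + 31230203599336896000 * i * f * (3 - 4 * r - 2 * m + n - 7 * i + 10 * f) ^ 2
      + 161781816168824544000 * m * c7 * (3 * r - 3 * p + 10 * m + 5 * n - 5 * i + 3 * e) ^ 2
      + 173419460182508601600 * f * c8 * (-10 - 2 * r + 2 * p - 4 * m + 2 * n + i + 3 * e + 4 * f) ^ 2
      + 3739452931931270400 * f * c10 * (10 + 8 * r + 7 * m + 6 * n + 6 * i + 3 * e + 10 * f) ^ 2
      + 22105097494940275200 * r * c11 * (-10 * r + 10 * p + 4 * m - 5 * n - 2 * i) ^ 2
      + 48908014134132384000 * r * f * (-3 - 10 * r + 9 * p + 9 * m + 5 * n - 5 * i + 4 * e - 10 * f) ^ 2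
      + 8577298265317689600 * m * m * (-6 + 2 * r + 8 * p + 9 * m - 3 * e) ^ 2
      + 358358751975944966400 * p * p * e * c10
      + 10459706026582031788800 * p * e * c11 * c12
      + 85390191512908128000 * p * c7 * (-10 * r + 10 * p + 8 * m - 9 * n - 2 * i - 2 * e - 7 * f) ^ 2
      + 148950974486820844800 * n * e * (-3 - 5 * r + 3 * p + 3 * m + 10 * n + e - 4 * f) ^ 2
      + 6335689214894054400 * r * c7 * (4 * r - 4 * p + 10 * m + 3 * n - 4 * i + 9 * f) ^ 2
      + 25176153461739033600 * f * (-7 * r + 5 * p - 3 * m - 9 * n + 10 * i + e - f) ^ 2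
      + 5422118689504342425600 * f * c11 * c12
      + 61496090865001900800 * p * f * (6 + r - 10 * n - 9 * i - 9 * f) ^ 2
      + 29588366781127123200 * n * e * (-2 - 15 * r + 10 * p - 4 * m + 7 * i - f) ^ 2
      + 44506511033176684800 * i * (-3 + 7 * r - 3 * p + 4 * m + 10 * n - i - 4 * e - f) ^ 2 := by positivity

private theorem part02_15 {r p m n i e f c7 c8 c10 c11 c12 : ℝ} (hr : 0 ≤ r) (hp : 0 ≤ p) (hm : 0 ≤ m) (hn : 0 ≤ n) (hi : 0 ≤ i) (he : 0 ≤ e) (hf : 0 ≤ f) (hc7 : 0 ≤ c7) (hc8 : 0 ≤ c8) (hc10 : 0 ≤ c10) (hc11 : 0 ≤ c11) (hc12 : 0 ≤ c12) :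
    0 ≤ 4461797663982489600 * r * c12 * (-7 * r + 7 * p + 3 * m - 10 * n + i + e + f) ^ 2
      + 25098008534658259200 * c7 * c8 * (-2 * r + 2 * p - 10 * m + 4 * n + 8 * i + 2 * e + 3 * f) ^ 2
      + 187141233368184480000 * n * i * (6 * r - 4 * p - 10 * m + 5 * n + i - 4 * e - 4 * f) ^ 2
      + 973185981232937472000 * m * m * e * c10
      + 88057035902573337600 * r * f * (-5 + r + 9 * p + 2 * m + n - 7 * i + 5 * e + 3 * f) ^ 2
      + 25002013243523500800 * e * f * (4 - 5 * r + 3 * p - 6 * m - 7 * n - 4 * i + 10 * e - 4 * f) ^ 2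
      + 48929831245753920000 * i * e * (-1 - p - 7 * m + 4 * n + 2 * i + 10 * e - 7 * f) ^ 2
      + 9032576957286389337600 * r * e * c11 * c11
      + 109801952718379891200 * n * c8 * (-3 * r + 3 * p - 10 * m - 2 * n + f) ^ 2
      + 7898997521533270521600 * p * i * f * c8
      + 7908048846132910675200 * e * e * e * c11
      + 3819595909761820742400 * i * i * f * c10
      + 430042287777600960 * r * n * n
      + 434292584506149600 * r * r * i
      + 371458098965923200 * r * m * n
      + 393134758718486400 * r * m * m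
      + 390218244552259200 * n * n
      + 381944799646502400 * r * i
      + 399136565180707200 * m * n
      + 390771014693875200 * m * m := by positivity

private theorem part02_16 {r p m n i e f : ℝ} (hr : 0 ≤ r) (hp : 0 ≤ p) (hm : 0 ≤ m) (hn : 0 ≤ n) (hi : 0 ≤ i) (he : 0 ≤ e) (hf : 0 ≤ f) :
    0 ≤ 386766552306669920 * m * n * n
      + 418692776972500800 * r * m * i
      + 407638580988038400 * p * m * m
      + 377340636890768320 * m * m * n
      + 412410459094492320 * m * m * m
      + 491867150913070768 * r * m * n * n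
      + 386675952922949760 * r * r * m * i
      + 459488850705878400 * r * p * m * m
      + 495750256724064320 * r * m * m * n
      + 323959113715406400 * r * r * m * m
      + 458139985306375680 * r * m * m * m
      + 396013632160608000 * i
      + 414445886999020800 * p * i
      + 375650994647174400 * e
      + 377908485598828800 * p * e
      + 369568648376928000 * f
      + 453632757916060800 * p * f
      + 371712627984297600 * n * i
      + 382694466968352000 * n * e
      + 356322287655734400 * n * f := by positivity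

private theorem part02_17 {r p m n i e f : ℝ} (hr : 0 ≤ r) (hp : 0 ≤ p) (hm : 0 ≤ m) (hn : 0 ≤ n) (hi : 0 ≤ i) (he : 0 ≤ e) (hf : 0 ≤ f) :
    0 ≤ 401443565398444800 * i * i
      + 418859541143366400 * i * e
      + 351501577871875200 * i * f
      + 428389402635532800 * e * e
      + 414118778722387200 * e * f
      + 380139874186564800 * f * f
      + 369593565350486400 * p * n * n
      + 443234986379539200 * p * n * i
      + 470178853891084800 * p * n * e
      + 440570489886172800 * p * n * f
      + 434983905459734400 * p * i * i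
      + 332868124897862400 * p * i * e
      + 380469767528188800 * p * i * f
      + 450661192994073600 * p * e * e
      + 447071785523193600 * p * e * f
      + 379520990358048000 * p * f * f
      + 398648463208934400 * r * e
      + 401140878299884800 * m * i
      + 389553945793689600 * m * e
      + 373845683531905200 * r * r * e := by positivity

private theorem part02_18 {r p m n i e f : ℝ} (hr : 0 ≤ r) (hp : 0 ≤ p) (hm : 0 ≤ m) (hn : 0 ≤ n) (hi : 0 ≤ i) (he : 0 ≤ e) (hf : 0 ≤ f) :
    0 ≤ 446035200931504800 * r * m * e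
      + 374672503338930720 * m * m * i
      + 342092368331406000 * m * m * e
      + 320702646030893280 * p * m * m * m
      + 434671689793294800 * p * m * m * e
      + 423857586185399520 * p * m * m * f
      + 377609676636931200 * p * p * m * m
      + 356433714997390800 * r * n * f
      + 400585886912010800 * m * n * f
      + 381433047158240000 * n * n * f
      + 412659435580761600 * n * i * f
      + 360012610293459200 * n * e * f
      + 378654631062400000 * n * f * f
      + 480470789522178000 * r * r * n * f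
      + 245819381900122800 * r * p * n * f
      + 329243468313844528 * r * m * n * f
      + 360698346419514400 * r * n * n * f
      + 384732551006496000 * r * n * i * f
      + 651595824653435200 * r * n * e * f
      + 504753392612268800 * r * n * f * f := by positivity

private theorem part02_19 {p m n i e f : ℝ} (hp : 0 ≤ p) (hm : 0 ≤ m) (hn : 0 ≤ n) (hi : 0 ≤ i) (he : 0 ≤ e) (hf : 0 ≤ f) :
    0 ≤ 452897755066310400 * p * p * n * f
      + 419995478198942800 * p * m * n * f
      + 430163505162899200 * p * n * n * f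
      + 431067772037548800 * p * n * i * f
      + 303227583001235200 * p * n * e * f
      + 461899178501868800 * p * n * f * f
      + 325381558574806272 * m * m * n * f
      + 434586497586040800 * m * n * n * f
      + 445465751836089600 * m * n * i * f
      + 334906185246494400 * m * n * e * f
      + 372477596593132800 * m * n * f * f
      + 349470460701331200 * n * n * n * f
      + 457365994538745600 * n * n * i * f
      + 406591625674080000 * n * n * e * f
      + 379221067457971200 * n * n * f * f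
      + 371287572322867200 * n * i * i * f
      + 397864781025465600 * n * i * e * f
      + 318926504431180800 * n * i * f * f
      + 391517984917382400 * n * e * e * f
      + 389137936376851200 * n * e * f * f := by positivity

private theorem part02_20 {r p m n i e f : ℝ} (hr : 0 ≤ r) (hp : 0 ≤ p) (hm : 0 ≤ m) (hn : 0 ≤ n) (hi : 0 ≤ i) (he : 0 ≤ e) (hf : 0 ≤ f) :
    0 ≤ 422458615944288000 * n * f * f * f
      + 414138113382470400 * p * p * p * e
      + 421568514574099200 * p * p * p * f
      + 362891707711671600 * r * p * p * e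
      + 348989017668429600 * r * p * p * f
      + 447872607490770000 * p * p * m * e
      + 359578953154159200 * p * p * m * f
      + 409629410709472800 * p * p * m * i
      + 447816798386496000 * p * p * i * e
      + 485820157838400000 * p * p * i * f
      + 461767683939811200 * r * r * p * e
      + 417037180251081600 * r * r * p * f
      + 358056928095879600 * r * p * m * e
      + 451478620447051680 * r * p * m * f
      + 418007665036211040 * r * p * m * i
      + 428169884455882800 * r * p * i * e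
      + 245253361969677600 * r * p * i * f
      + 425234244295254240 * p * m * m * i
      + 375837621804968400 * p * m * i * e
      + 409236818233874400 * p * m * i * f := by positivity

private theorem part02_21 {r p m n i e f : ℝ} (hr : 0 ≤ r) (hp : 0 ≤ p) (hm : 0 ≤ m) (hn : 0 ≤ n) (hi : 0 ≤ i) (he : 0 ≤ e) (hf : 0 ≤ f) :
    0 ≤ 419318988646385520 * p * m * i * i
      + 381204441241747200 * p * i * i * e
      + 354627232539148800 * p * i * i * f
      + 300390030074589840 * r * r * n * n
      + 459578632781204640 * r * p * n * n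
      + 438536634202497600 * p * p * n * n
      + 409461893557239600 * r * n * i
      + 479366400558654000 * r * r * n * i
      + 271733930819643600 * r * p * n * i
      + 380622789399283200 * p * p * n * i
      + 449345568497003640 * r * n * e
      + 307020802394685960 * r * r * n * e
      + 425160351581925960 * r * p * n * e
      + 389115342541094400 * p * p * n * e
      + 375233334150906000 * r * i * i
      + 426838179233743200 * r * r * i * i
      + 384785800548534000 * r * p * i * i
      + 347016370837752000 * p * p * i * i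
      + 400276330456741200 * r * i * e
      + 455442911636655600 * r * r * i * e := by positivity

private theorem part02_22 {r p m n i e f : ℝ} (hr : 0 ≤ r) (hp : 0 ≤ p) (hm : 0 ≤ m) (hn : 0 ≤ n) (hi : 0 ≤ i) (he : 0 ≤ e) (hf : 0 ≤ f) :
    0 ≤ 563478117444396000 * r * i * f
      + 423431958849984000 * r * r * i * f
      + 344500470429871140 * r * e * e
      + 507512975227651260 * r * r * e * e
      + 331471631212320060 * r * p * e * e
      + 347071077500716800 * p * p * e * e
      + 415760982829038000 * r * e * f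
      + 394862564500866000 * r * r * e * f
      + 433708994191611600 * r * p * e * f
      + 418878875803449600 * p * p * e * f
      + 419547403746147600 * r * f * f
      + 389148193206964800 * r * r * f * f
      + 521761794033942000 * r * p * f * f
      + 326115025981113600 * p * p * f * f
      + 170165902752430840 * r * m * n * e
      + 374211966475573600 * r * n * n * e
      + 537246636533314400 * r * n * e * e
      + 381548920489299640 * p * m * n * e
      + 418767468981030400 * p * n * n * e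
      + 394630845895193600 * p * n * e * e := by positivity

private theorem part02_23 {r p m n i e f : ℝ} (hr : 0 ≤ r) (hp : 0 ≤ p) (hm : 0 ≤ m) (hn : 0 ≤ n) (hi : 0 ≤ i) (he : 0 ≤ e) (hf : 0 ≤ f) :
    0 ≤ 409458494677478400 * m * m * n * e
      + 411295377482589600 * m * n * n * e
      + 326028333921444000 * m * n * e * e
      + 410161698484876800 * n * n * n * e
      + 406591625674080000 * n * n * e * e
      + 377634368430950400 * n * e * e * e
      + 429310141960341600 * r * r * m * e
      + 427863950292669660 * m * e * e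
      + 377211190584690000 * m * e * f
      + 386559023619243600 * r * m * m * e
      + 288837337151385540 * r * m * e * e
      + 364209988073223600 * r * m * e * f
      + 451134772843833540 * p * m * e * e
      + 2033764387996270129200 * p * m * e * f
      + 340350313225507200 * p * p * m * n
      + 529381218191189760 * r * p * m * n
      + 441161419764000320 * p * m * m * n
      + 400914274517341200 * p * m * f * f
      + 383267262740380480 * p * m * n * n
      + 403052878008451440 * p * m * n * i := by positivity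

private theorem part02_24 {r p m n i e f : ℝ} (hr : 0 ≤ r) (hp : 0 ≤ p) (hm : 0 ≤ m) (hn : 0 ≤ n) (hi : 0 ≤ i) (he : 0 ≤ e) (hf : 0 ≤ f) :
    0 ≤ 401360774371603200 * p * n * i * e
      + 465696164430604800 * p * i * e * e
      + 408574999457856000 * p * i * e * f
      + 465696164430604800 * p * i * f * f
      + 408971674214611200 * p * e * e * e
      + 387947912106585600 * p * e * e * f
      + 417301844106470400 * p * e * f * f
      + 465696164430604800 * p * f * f * f
      + 366019802600205600 * r * p * i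
      + 361031243314341600 * p * m * i
      + 393707351335026960 * m * n * i
      + 372750089576190480 * m * i * i
      + 358223808439450800 * m * i * e
      + 349394986612980000 * m * i * f
      + 379238827770507600 * r * r * r * e
      + 467830544890816800 * r * e * e * e
      + 416262826512640800 * r * e * e * f
      + 421665266430777600 * r * e * f * f
      + 295641509235589440 * r * r * m * n
      + 420316703894102400 * r * n * i * i := by positivity

private theorem part02_25 {r m n i e f : ℝ} (hr : 0 ≤ r) (hm : 0 ≤ m) (hn : 0 ≤ n) (hi : 0 ≤ i) (he : 0 ≤ e) (hf : 0 ≤ f) :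
    0 ≤ 386645959891699200 * r * i * i * i
      + 407781649944345600 * r * i * i * e
      + 403418227620038400 * r * i * i * f
      + 391988739138796800 * n * i * e
      + 415318470322694400 * i * i * e
      + 410955047998387200 * i * e * e
      + 423648640214553600 * i * e * f
      + 429314777354232000 * m * n * i * e
      + 351453834485107200 * m * i * i * e
      + 391763652997701600 * m * i * e * e
      + 375254319890419200 * m * i * e * f
      + 433565509133433600 * n * n * i * e
      + 443879052809068800 * n * i * i * e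
      + 428805412052371200 * n * i * e * e
      + 411351722755142400 * i * i * i * e
      + 401038179079507200 * i * i * e * e
      + 447449125619865600 * i * i * e * f
      + 386515330439187600 * r * m * i * e
      + 537224065365556800 * r * n * i * e
      + 350414816891277600 * r * i * e * e := by positivity

private theorem part02_26 {r p m i e f : ℝ} (hr : 0 ≤ r) (hp : 0 ≤ p) (hm : 0 ≤ m) (hi : 0 ≤ i) (he : 0 ≤ e) (hf : 0 ≤ f) :
    0 ≤ 322893251998732800 * r * i * e * f
      + 447602390145187200 * m * m * i * e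
      + 406591625674080000 * i * e * e * e
      + 385567863566054400 * i * e * e * f
      + 330826747133836800 * i * e * f * f
      + 355204541693232000 * m * f
      + 343595807232955200 * r * m * f
      + 465325234511306400 * p * m * f
      + 363058627562215200 * m * m * f
      + 393539095745334000 * m * f * f
      + 403498494245589120 * r * r * m * f
      + 481128745402645920 * r * m * m * f
      + 322235197763294592 * r * m * i * f
      + 433231986575126592 * r * m * f * f
      + 381699254612712960 * m * m * m * f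
      + 472017927438465408 * m * m * i * f
      + 415868409604771200 * m * m * e * f
      + 412913388681940608 * m * m * f * f
      + 359784004376966400 * m * i * i * f
      + 346297062647289600 * m * i * f * f := by positivity

private theorem part02_27 {r p m n i e f : ℝ} (hr : 0 ≤ r) (hp : 0 ≤ p) (hm : 0 ≤ m) (hn : 0 ≤ n) (hi : 0 ≤ i) (he : 0 ≤ e) (hf : 0 ≤ f) :
    0 ≤ 536549939213349600 * m * e * e * f
      + 464506140160339200 * m * e * f * f
      + 368907523782336000 * m * f * f * f
      + 483916700151838800 * r * p * e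
      + 424866266555068800 * p * m * n
      + 390191653486887560 * m * n * e
      + 328018899465841104 * r * m * n * i
      + 448977030379859520 * m * m * m * n
      + 373563636332838336 * m * m * n * i
      + 408789156103574400 * m * n * i * i
      + 397455940038049200 * p * m * e
      + 373728157939628800 * n * e * e
      + 303059514160972800 * e * e * e
      + 364544101458028800 * e * e * f
      + 363750751944518400 * e * f * f
      + 420448215273609600 * m * m * m * e
      + 385721128091376000 * m * m * e * e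
      + 422307609267852000 * m * e * e * e
      + 403021552863283200 * e * e * e * e
      + 388741261620096000 * e * e * e * f := by positivity

private theorem part02_28 {r p m n i e f : ℝ} (hr : 0 ≤ r) (hp : 0 ≤ p) (hm : 0 ≤ m) (hn : 0 ≤ n) (hi : 0 ≤ i) (he : 0 ≤ e) (hf : 0 ≤ f) :
    0 ≤ 496636795457510400 * e * e * f * f
      + 396278081998444800 * e * f * f * f
      + 420078567403756800 * i * i * f
      + 418095193619980800 * i * f * f
      + 411748397511897600 * r * i * f * f
      + 417698518863225600 * i * i * i * f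
      + 385567863566054400 * i * i * f * f
      + 341140290809472000 * i * f * f * f
      + 372905210242857600 * r * f
      + 409804371073389600 * r * r * f
      + 466256662885490400 * r * p * f
      + 353630711982240000 * p * p * f
      + 434755533403699200 * f * f * f
      + 361351368743904000 * p * p * e
      + 379342141610432000 * n * n * e
      + 378472765051180800 * p * p * i
      + 394799821617801600 * p * n * n * i
      + 390068482766054400 * p * n * i * i
      + 384372330537888000 * p * p * p * i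
      + 407160485314783200 * m * m * m * m := by positivity

private theorem part02_29 {r p m n i f : ℝ} (hr : 0 ≤ r) (hp : 0 ≤ p) (hm : 0 ≤ m) (hn : 0 ≤ n) (hi : 0 ≤ i) (hf : 0 ≤ f) :
    0 ≤ 369664645919849280 * m * m * m * i
      + 360899832994458912 * m * m * n * n
      + 383307819019015968 * r * m * i * i
      + 439645029055337952 * m * m * i * i
      + 394527388712436000 * r * r * r * i
      + 329423307948201600 * r * r * p * i
      + 426273839458604640 * r * m * m * i
      + 494639664849237600 * r * p * p * i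
      + 435578209572132000 * r * n * n * i
      + 388175551045682400 * m * n * n * i
      + 400276468100678400 * m * i * i * i
      + 440755163986485600 * r * r * r * f
      + 433565509133433600 * r * f * f * f
      + 386192177261906400 * m * n * n * n
      + 355074190359284000 * r * n * n * n
      + 417241307030240000 * p * n * n * n
      + 385171188809299200 * n * n * n * n
      + 406194950917324800 * n * n * n * i
      + 412831343459304000 * n * n * i * i
      + 403783263842112000 * n * i * i * i := by positivity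

private theorem part02_30 {p n i f : ℝ} (hp : 0 ≤ p) (hn : 0 ≤ n) (hi : 0 ≤ i) (hf : 0 ≤ f) :
    0 ≤ 398910295322985600 * n * i * i
      + 394659744436742400 * i * i * i
      + 394501551763334400 * p * i * i * i
      + 382394465512012800 * f * f * f * f
      + 376504881236915200 * n * n * n
      + 399097246225708800 * n * n * i
      + 397436467734028800 * i * i * i * i := by positivity

theorem leaf02 {r p m n i e f : ℝ} (h0 : 0 ≤ r) (h1 : 0 ≤ p) (h2 : 0 ≤ m) (h3 : 0 ≤ n) (h4 : 0 ≤ i) (h5 : 0 ≤ e) (h6 : 0 ≤ f) (h7 : 0 ≤ r - m) (h8 : 0 ≤ 1 - r - p) (h9 : 0 ≤ 1 - m - n - i) (h10 : 0 ≤ m - e - f) (h11 : 0 ≤ p - n - i - e - f) (h12 : 0 ≤ 1 - m - 2 * n) :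
    0 ≤ 43964785540368000000000 * i + 29750606756640000000000 * e + 25453296891792000000000 * f + 12561367297248000000000 * r * r - 25122734594496000000000 * r * p - 37684101891744000000000 * r * m + 25122734594496000000000 * r * n - 43237548486316800000000 * r * i - 3570072810796800000000 * r * e + 12561367297248000000000 * p * p + 37684101891744000000000 * p * m - 25122734594496000000000 * p * n - 25122734594496000000000 * p * i - 25122734594496000000000 * p * e - 25122734594496000000000 * p * f + 45121753580904000000000 * m * m - 37684101891744000000000 * m * n + 15866990270208000000000 * m * i + 15866990270208000000000 * m * e + 32229823986360000000000 * n * n - 14875303378320000000000 * n * i - 14875303378320000000000 * n * e - 14875303378320000000000 * n * f - 7437651689160000000000 * i * i - 14875303378320000000000 * i * e - 14875303378320000000000 * i * f - 7437651689160000000000 * e * e - 14875303378320000000000 * e * f - 7437651689160000000000 * f * f + 64129085675424000000000 * r * r * m - 1322249189184000000000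 * r * r * i - 26444983783680000000000 * r * r * e - 64129085675424000000000 * r * p * m - 40824443716056000000000 * r * m * m + 64129085675424000000000 * r * m * n - 130241545134624000000000 * r * m * i - 52889967567360000000000 * r * m * e - 25122734594496000000000 * r * n * n - 140819538648096000000000 * p * m * m - 9421025472936000000000 * p * n * n - 18842050945872000000000 * p * n * i - 18842050945872000000000 * p * n * e - 18842050945872000000000 * p * n * f - 9421025472936000000000 * p * i * i - 18842050945872000000000 * p * i * e - 18842050945872000000000 * p * i * f - 9421025472936000000000 * p * e * e - 18842050945872000000000 * p * e * f - 9421025472936000000000 * p * f * f - 77351577567264000000000 * m * m * m + 77351577567264000000000 * m * m * n + 29089482162048000000000 * m * m * i + 29089482162048000000000 * m * m * e + 77351577567264000000000 * m * n * n - 25783859189088000000000 * r * r * m * m + 89251820269920000000000 * r * r * m * i + 216187742431584000000000 * r * p * m * m + 89251820269920000000000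 * r * m * m * m - 89251820269920000000000 * r * m * m * n - 89251820269920000000000 * r * m * n * n + 63467961080832000000000 * p * p * m * m + 63467961080832000000000 * p * m * m * m - 63467961080832000000000 * p * m * m * e - 63467961080832000000000 * p * m * m * f := by
  have t0 := part02_0 h0 h1 h2 h3 h4 h5 h6 h7 h8 h9 h10 h11
  have t1 := part02_1 (r := r) (n := n) h1 h2 h4 h5 h6 h7 h8 h10 h11 h12
  have t2 := part02_2 h0 h1 h2 h3 h4 h5 h6 h7 h8 h9 h10 h11 h12
  have t3 := part02_3 h0 h1 h2 h3 h4 h5 h6 h7 h8 h10 h11 h12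
  have t4 := part02_4 h0 h1 h2 h3 h4 h5 h6 h7 h8 h10 h11
  have t5 := part02_5 h0 h1 h2 h3 h4 h5 h6 h7 h8 h9 h10 h11
  have t6 := part02_6 (p := p) h0 h2 h3 h4 h5 h6 h8 h10 h11 h12
  have t7 := part02_7 h0 h1 h2 h3 h4 h5 h6 h7 h8 h9 h10 h11 h12
  have t8 := part02_8 h0 h1 h2 h3 h4 h5 h6 h7 h8 h10 h11 h12
  have t9 := part02_9 h0 h1 h2 h3 h4 h5 h6 h7 h8 h10 h11
  have t10 := part02_10 h0 h1 h2 h3 h4 h5 h6 h7 h8 h10 h11 h12
  have t11 := part02_11 h0 h1 h2 h3 h4 h5 h6 h7 h8 h10 h11 h12
  have t12 := part02_12 (r := r) (p := p) h2 h3 h4 h5 h6 h8 h9 h10 h11 h12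
  have t13 := part02_13 (r := r) (p := p) h2 h3 h4 h5 h6 h7 h8 h10 h11
  have t14 := part02_14 h0 h1 h2 h3 h4 h5 h6 h7 h8 h10 h11 h12
  have t15 := part02_15 h0 h1 h2 h3 h4 h5 h6 h7 h8 h10 h11 h12
  have t16 := part02_16 h0 h1 h2 h3 h4 h5 h6
  have t17 := part02_17 h0 h1 h2 h3 h4 h5 h6
  have t18 := part02_18 h0 h1 h2 h3 h4 h5 h6
  have t19 := part02_19 h1 h2 h3 h4 h5 h6
  have t20 := part02_20 h0 h1 h2 h3 h4 h5 h6
  have t21 := part02_21 h0 h1 h2 h3 h4 h5 h6
  have t22 := part02_22 h0 h1 h2 h3 h4 h5 h6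
  have t23 := part02_23 h0 h1 h2 h3 h4 h5 h6
  have t24 := part02_24 h0 h1 h2 h3 h4 h5 h6
  have t25 := part02_25 h0 h2 h3 h4 h5 h6
  have t26 := part02_26 h0 h1 h2 h4 h5 h6
  have t27 := part02_27 h0 h1 h2 h3 h4 h5 h6
  have t28 := part02_28 h0 h1 h2 h3 h4 h5 h6
  have t29 := part02_29 h0 h1 h2 h3 h4 h6
  have t30 := part02_30 h1 h3 h4 h6
  linarith only [t0, t1, t2, t3, t4, t5, t6, t7, t8, t9, t10, t11, t12, t13, t14, t15, t16, t17, t18, t19, t20, t21, t22, t23, t24, t25, t26, t27, t28, t29, t30]

end Vale.Agent.P038.K4
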