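import Mathlib

/-
P038: one corner of the polynomial inequality for K4-free graphs (exact nonnegativity certificate).
-/

namespace Vale.Agent.P038.K4

private theorem part03_0 {r p m n i e f c7 c8 c11 c12 : ℝ} (hr : 0 ≤ r) (hp : 0 ≤ p) (hm : 0 ≤ m) (hn : 0 ≤ n) (hi : 0 ≤ i) (he : 0 ≤ e) (hf : 0 ≤ f) (hc7 : 0 ≤ c7) (hc8 : 0 ≤ c8) (hc11 : 0 ≤ c11) (hc12 : 0 ≤ c12) :
    0 ≤ 8237880 * n * f * c7 * c7
      + 4727217 * p * p * i * c12
      + 90156861 * r * p * i * c8
      + 1504311 * r * m * n * c8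
      + 58125123 * r * p * f * c8
      + 8326320 * m * n * n * c12
      + 103637778 * p * i * c7 * c7
      + 268404 * c11 * (2 + 7 * r - 4 * p + 5 * m - 10 * n - 2 * i + 4 * e - 5 * f) ^ 2
      + 157299 * r * p * c7 * c8
      + 175063167 * r * e * c7 * c7
      + 59634426 * e * f * c11
      + 68351646 * f * c8 * c8
      + 109744329 * r * i * i * c11
      + 76765956 * p * p * c8
      + 46498353 * c7 * c7
      + 80702217 * p * p * c11
      + 190907514 * r * f * c8
      + 342194982 * p * p * m * c8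
      + 63237 * r * p * (-1 + 15 * r - 10 * p + 5 * m - 5 * i) ^ 2
      + 1500 * n * i * i * c12 := by positivity

private theorem part03_1 {r p m n i e f c7 c8 c9 c10 c11 c12 : ℝ} (hr : 0 ≤ r) (hp : 0 ≤ p) (hm : 0 ≤ m) (hn : 0 ≤ n) (hi : 0 ≤ i) (he : 0 ≤ e) (hf : 0 ≤ f) (hc7 : 0 ≤ c7) (hc8 : 0 ≤ c8) (hc9 : 0 ≤ c9) (hc10 : 0 ≤ c10) (hc11 : 0 ≤ c11) (hc12 : 0 ≤ c12) :
    0 ≤ 181483605 * c7 * c8
      + 2708670 * p * p * e * c7
      + 37975494 * p * e * f * c8
      + 10611036 * p * f * c8 * c12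
      + 63353925 * e * c10
      + 4062 * c8 * c9 * (-10 - 11 * r + 2 * p - 9 * m + 2 * n - 7 * i + e + 3 * f) ^ 2
      + 148728468 * p * i * c11
      + 45632055 * p * i * c8
      + 11868 * r * r * (-4 + 12 * r - 6 * p + 2 * m - 8 * n + 10 * i - 7 * e + f) ^ 2
      + 46168518 * m * c12 * c12
      + 10489686 * r * p * i * c12
      + 20843070 * p * n * c8 * c12
      + 48945297 * c8 * c8
      + 10169814 * c11 * c12
      + 43013112 * n * f * c8
      + 71736438 * m * m * f * c8
      + 133229649 * p * m * i * c10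
      + 19463625 * r * n * n * c12
      + 40490409 * r * f * f * c7
      + 358205313 * m * n * c7 := by positivity

private theorem part03_2 {r p m n i e f c7 c8 c10 c12 : ℝ} (hr : 0 ≤ r) (hp : 0 ≤ p) (hm : 0 ≤ m) (hn : 0 ≤ n) (hi : 0 ≤ i) (he : 0 ≤ e) (hf : 0 ≤ f) (hc7 : 0 ≤ c7) (hc8 : 0 ≤ c8) (hc10 : 0 ≤ c10) (hc12 : 0 ≤ c12) :
    0 ≤ 13581111 * p * i * i * c12
      + 14246463 * r * n * i * c12
      + 36360255 * e * c7 * c10
      + 100782 * c8 * c8 * (-10 - 10 * r + p - 10 * m + 3 * n - 8 * i - f) ^ 2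
      + 15988380 * p * e * c10 * c10
      + 4515675 * m * m * (-5 + 2 * r + 2 * p + 10 * m - 8 * n + 3 * i + 3 * f) ^ 2
      + 12629745 * e * e * c10 * c12
      + 156970239 * p * e * c10
      + 468171 * p * m * (5 * r - 3 * p - 4 * m - 10 * n + 3 * i + 2 * e + 5 * f) ^ 2
      + 76893180 * f * c10
      + 2533011 * p * n * n * c12
      + 46265682 * p * p * p * c12
      + 1602 * f * f * (-10 - 4 * r + p - n + 2 * i - e + 7 * f) ^ 2
      + 36061785 * r * m * c7 * c12
      + 21775545 * p * m * i * c12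
      + 62350215 * r * r * i * c10
      + 14133471 * m * f * c12
      + 456273 * i * i * f * c12
      + 32720079 * m * f * f * c7
      + 19631985 * p * c12 * c12 := by positivity

private theorem part03_3 {r p m n i e f c7 c8 c11 c12 : ℝ} (hr : 0 ≤ r) (hp : 0 ≤ p) (hm : 0 ≤ m) (hn : 0 ≤ n) (hi : 0 ≤ i) (he : 0 ≤ e) (hf : 0 ≤ f) (hc7 : 0 ≤ c7) (hc8 : 0 ≤ c8) (hc11 : 0 ≤ c11) (hc12 : 0 ≤ c12) :
    0 ≤ 11491098 * m * m * f * c11
      + 452501829 * m * m * m * c7
      + 305300829 * m * c7 * c8 * c11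
      + 135602112 * m * m * n * c12
      + 269037 * p * f * (-2 - 16 * r + 10 * p - m + n + 3 * i + 2 * e) ^ 2
      + 92874804 * r * r * n * c8
      + 52029 * n * n * f * c12
      + 67778628 * m * m * i * c11
      + 23583801 * n * c8
      + 172034619 * m * f * c7
      + 737757 * n * f * f * c12
      + 2116059 * e * e * e * c12
      + 132794436 * r * r * c7 * c8
      + 122322660 * m * m * m * c11
      + 9544872 * r * f * f * c8
      + 34421526 * m * i * c11
      + 2444667 * r * n * e * c8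
      + 146283 * i * e * (1 - 14 * r + 10 * p + 8 * m - 3 * n - 8 * i + 10 * e + 2 * f) ^ 2
      + 84238878 * p * e * c7 * c7
      + 131941713 * m * m * i * c7 := by positivity

private theorem part03_4 {r p m n i e f c7 c8 c9 c10 c11 c12 : ℝ} (hr : 0 ≤ r) (hp : 0 ≤ p) (hm : 0 ≤ m) (hn : 0 ≤ n) (hi : 0 ≤ i) (he : 0 ≤ e) (hf : 0 ≤ f) (hc7 : 0 ≤ c7) (hc8 : 0 ≤ c8) (hc9 : 0 ≤ c9) (hc10 : 0 ≤ c10) (hc11 : 0 ≤ c11) (hc12 : 0 ≤ c12) :
    0 ≤ 65331 * n * (3 + 15 * r - 10 * p + 7 * m + n - 7 * i + 5 * e + f) ^ 2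
      + 27479124 * i * i * c7 * c7
      + 94329 * p * (-6 - 4 * r + 4 * p + 10 * m - 10 * n + i + 6 * e + 3 * f) ^ 2
      + 35244 * f * f * (2 + 2 * r - 10 * p + 10 * m - 6 * n + i + 2 * e) ^ 2
      + 1470321 * p * i * f * c12
      + 72224067 * p * c7 * c9
      + 137394 * r * f * (10 + 10 * r - 3 * p - m + 5 * i - 4 * e - 4 * f) ^ 2
      + 146211510 * r * r * f * c8
      + 27451548 * r * e * c12
      + 396894 * p * c10 * (2 - 2 * r + n - 2 * i + 10 * e - 4 * f) ^ 2
      + 335811 * p * c10 * (1 - 15 * r + 10 * p - 5 * m + 5 * i) ^ 2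
      + 117732 * m * e * (4 - 6 * r + 5 * p - 8 * m + 9 * n + 3 * i + 2 * e - 10 * f) ^ 2
      + 83256 * c7 * c12 * (-7 + 12 * r - 8 * p + 5 * m - 10 * n - e + f) ^ 2
      + 57636114 * e * f * f * c8
      + 1094376 * r * i * e * c12
      + 81283122 * p * f * c10
      + 17788587 * e * e * f * c8
      + 107363664 * i * c11
      + 67301163 * r * r * n * c12
      + 287532 * c7 * c10 * (6 + 14 * r - 10 * p + 2 * m + 2 * n - 4 * i - 3 * e + 2 * f) ^ 2 := by positivity

private theorem part03_5 {r p m n i e f c7 c8 c9 c10 c11 c12 : ℝ} (hr : 0 ≤ r) (hp : 0 ≤ p) (hm : 0 ≤ m) (hn : 0 ≤ n) (hi : 0 ≤ i) (he : 0 ≤ e) (hf : 0 ≤ f) (hc7 : 0 ≤ c7) (hc8 : 0 ≤ c8) (hc9 : 0 ≤ c9) (hc10 : 0 ≤ c10) (hc11 : 0 ≤ c11) (hc12 : 0 ≤ c12) :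
    0 ≤ 149836545 * p * n * c7 * c7
      + 147376275 * r * i * i * c8
      + 150219528 * p * m * m * c10
      + 89712780 * f * c12
      + 148700208 * m * m * f * c7
      + 150900759 * m * i * c8
      + 275768436 * i * c8
      + 3000 * i * i * i * c9
      + 569643 * p * c8 * (-3 - 8 * r + 3 * p + 10 * m - 5 * n + i + e + 6 * f) ^ 2
      + 73104900 * e * c12
      + 47954127 * r * c11
      + 363493500 * p * m * c8 * c8
      + 82429419 * p * f * c7 * c7
      + 27101001 * r * p * p * c8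
      + 38225640 * p * m * e * c12
      + 53703885 * r * i * c9 * c9
      + 52701570 * m * m * c11
      + 35701836 * i * i * i * c7
      + 124059999 * m * m * c8 * c8
      + 65974494 * n * n * c8 := by positivity

private theorem part03_6 {r p m n i e f c7 c8 c9 c11 c12 : ℝ} (hr : 0 ≤ r) (hp : 0 ≤ p) (hm : 0 ≤ m) (hn : 0 ≤ n) (hi : 0 ≤ i) (he : 0 ≤ e) (hf : 0 ≤ f) (hc7 : 0 ≤ c7) (hc8 : 0 ≤ c8) (hc9 : 0 ≤ c9) (hc11 : 0 ≤ c11) (hc12 : 0 ≤ c12) :
    0 ≤ 25931115 * r * f * c9
      + 60871686 * p * p * m * c11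
      + 273692427 * r * m * n * c12
      + 102126738 * m * e * c8
      + 244176 * m * n * e * c12
      + 19413465 * r * i * c8 * c8
      + 5454321 * e * c7 * c7 * c12
      + 633144 * p * m * (-1 + 15 * r - 10 * p + 5 * m - 5 * i) ^ 2
      + 1183134 * r * p * n * c12
      + 177700767 * r * f * c7 * c7
      + 10381692 * p * e * e * c12
      + 6673086 * p * i * i * c8
      + 16611225 * n * i * c8
      + 6837021 * p * p * e * c8
      + 40812 * f * f * f * c12
      + 205638732 * p * m * m * c7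
      + 52014249 * r * r * r * c11
      + 2303010 * f * f * f * c7
      + 49468581 * p * m * n * c12
      + 123991326 * r * r * m * c7 := by positivity

private theorem part03_7 {r p m n i e f c7 c8 c9 c10 c12 : ℝ} (hr : 0 ≤ r) (hp : 0 ≤ p) (hm : 0 ≤ m) (hn : 0 ≤ n) (hi : 0 ≤ i) (he : 0 ≤ e) (hf : 0 ≤ f) (hc7 : 0 ≤ c7) (hc8 : 0 ≤ c8) (hc9 : 0 ≤ c9) (hc10 : 0 ≤ c10) (hc12 : 0 ≤ c12) :
    0 ≤ 5144226 * i * f * f * c9
      + 2648721 * i * i * i * c10
      + 166586334 * r * e * c8
      + 212796 * i * c7 * (-9 + 13 * r - 10 * p + 10 * m - 9 * n - i + e + 4 * f) ^ 2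
      + 24531318 * p * p * c8 * c12
      + 151472505 * m * m * c7
      + 33053211 * p * e * e * c7
      + 37861035 * p * p * f * c12
      + 36033240 * p * p * c8 * c10
      + 1378521 * m * f * c8 * c10
      + 101061 * n * f * (-5 - 16 * r + 10 * p - 2 * m + n - 3 * i + 9 * e + f) ^ 2
      + 31032 * p * c8 * (10 - 4 * r + 6 * p + 2 * m + 6 * n + 6 * i - 4 * e + 6 * f) ^ 2
      + 5505780 * i * e * c8 * c8
      + 472671 * r * c7 * (2 + 16 * r - 10 * p + m + 3 * n - 6 * i - 2 * e) ^ 2
      + 47874 * i * f * f * c10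
      + 65969760 * r * c8 * c8
      + 3915357 * m * m * e * c8
      + 16435080 * e * e * c9
      + 11936586 * n * i * f * c7
      + 34450707 * r * r * e * c8 := by positivity

private theorem part03_8 {r p m n i e f c7 c8 c9 c10 c11 c12 : ℝ} (hr : 0 ≤ r) (hp : 0 ≤ p) (hm : 0 ≤ m) (hn : 0 ≤ n) (hi : 0 ≤ i) (he : 0 ≤ e) (hf : 0 ≤ f) (hc7 : 0 ≤ c7) (hc8 : 0 ≤ c8) (hc9 : 0 ≤ c9) (hc10 : 0 ≤ c10) (hc11 : 0 ≤ c11) (hc12 : 0 ≤ c12) :
    0 ≤ 13515 * p * (3 - 13 * r + 10 * p - 3 * m + 7 * i) ^ 2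
      + 10689975 * m * e * c12
      + 238483176 * p * c7 * c7 * c7
      + 35335119 * p * c11
      + 130893 * r * i * (9 - 7 * r + p - 2 * m + 4 * n - 10 * i + 8 * e - 5 * f) ^ 2
      + 1056567 * m * c8 * (1 - 15 * r + 10 * p - 3 * m - n + 6 * i) ^ 2
      + 11180010 * p * e * c11
      + 1500 * n * n * i * c12
      + 273372 * r * i * (-1 + 15 * r - 10 * p + 5 * m - 5 * i) ^ 2
      + 505125 * p * c11 * (-1 - r + 10 * m - 10 * n + 2 * i - e - f) ^ 2
      + 14403948 * r * i * f * c8
      + 173690349 * c7 * c7 * c8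
      + 54487575 * r * e * e * c8
      + 16149372 * p * m * f * c12
      + 28596117 * f * c9
      + 55355046 * p * i * e * c10
      + 58927113 * p * m * m * c12
      + 167425422 * e * c8
      + 1500 * n * n * n * c12
      + 263040 * c8 * (8 - 13 * r + 10 * p - 2 * m + n + 7 * i - e + 2 * f) ^ 2 := by positivity

private theorem part03_9 {r p m n i e f c7 c8 c9 c10 c11 c12 : ℝ} (hr : 0 ≤ r) (hp : 0 ≤ p) (hm : 0 ≤ m) (hn : 0 ≤ n) (hi : 0 ≤ i) (he : 0 ≤ e) (hf : 0 ≤ f) (hc7 : 0 ≤ c7) (hc8 : 0 ≤ c8) (hc9 : 0 ≤ c9) (hc10 : 0 ≤ c10) (hc11 : 0 ≤ c11) (hc12 : 0 ≤ c12) :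
    0 ≤ 68907 * f * c8 * (10 + 3 * r + 2 * p + 8 * m + 9 * n + 5 * i + 6 * e + 10 * f) ^ 2
      + 345840 * p * e * (-4 + 4 * r - 6 * p - 6 * m + 10 * n - 3 * i + 3 * e - 8 * f) ^ 2
      + 6058029 * n * n * c9
      + 154357140 * p * m * c11
      + 132111 * n * e * (-9 - 17 * r + 10 * p + m - n - 2 * i + 2 * e + 7 * f) ^ 2
      + 36897525 * i * c7 * c12
      + 88857681 * r * r * n * c7
      + 94500555 * r * p * e * c8
      + 9230712 * r * n * f * c8
      + 6140175 * p * p * p * c11
      + 82920 * e * c11 * (8 + 10 * r + 10 * m + 8 * n + 9 * i + 10 * e + 8 * f) ^ 2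
      + 5849610 * i * i * f * c7
      + 9403629 * p * e * c12
      + 79454253 * i * c7 * c7
      + 52001064 * p * c8 * c12
      + 72843141 * n * i * c7 * c7
      + 3452991 * c8 * c8 * c8 * c12
      + 31260495 * m * f * c11
      + 277797 * c8 * c12 * (10 - 8 * r + 7 * p + 9 * m - 10 * n + 4 * i) ^ 2
      + 396897 * f * c10 * c10 * c10 := by positivity

private theorem part03_10 {r p m n i : ℝ} (hr : 0 ≤ r) (hp : 0 ≤ p) (hm : 0 ≤ m) (hn : 0 ≤ n) (hi : 0 ≤ i) :
    0 ≤ 61831115 * r * n * n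
      + 2201 * r * r * i
      + 2747 * r * p
      + 1840 * r * n
      + 2519 * r * r
      + 2763 * r * m
      + 2971 * r * p * m
      + 2504 * r * m * n
      + 2627 * r * r * m
      + 2422 * r * m * m
      + 2397 * n * n
      + 3039 * r * i
      + 3215 * m
      + 2565 * p * m
      + 3294 * m * n
      + 3231 * m * m
      + 281902752 * m * n * n
      + 2381 * r * m * i
      + 2763 * p * m * m
      + 2961 * m * m * n := by positivity

private theorem part03_11 {r p m n i e f : ℝ} (hr : 0 ≤ r) (hp : 0 ≤ p) (hm : 0 ≤ m) (hn : 0 ≤ n) (hi : 0 ≤ i) (he : 0 ≤ e) (hf : 0 ≤ f) :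
    0 ≤ 3051 * m * m * m
      + 3441 * r * m * n * n
      + 3804 * r * r * m * i
      + 3090 * r * p * m * m
      + 3006 * r * m * m * n
      + 3399 * r * r * m * m
      + 2925 * r * m * m * m
      + 3290 * p * p
      + 3263 * p * n
      + 3154 * i
      + 2561 * p * i
      + 2988 * e
      + 2954 * p * e
      + 2987 * f
      + 2987 * p * f
      + 16119513 * n * i
      + 3027 * n * e
      + 2994 * n * f
      + 25552314 * i * i
      + 323901 * i * e := by positivity

private theorem part03_12 {r p m n i e f : ℝ} (hr : 0 ≤ r) (hp : 0 ≤ p) (hm : 0 ≤ m) (hn : 0 ≤ n) (hi : 0 ≤ i) (he : 0 ≤ e) (hf : 0 ≤ f) :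
    0 ≤ 3021 * i * f
      + 3087 * e * e
      + 24739317 * e * f
      + 3024 * f * f
      + 3276 * p * n * n
      + 2979 * p * n * i
      + 2928 * p * n * e
      + 3066 * p * n * f
      + 85731690 * p * i * i
      + 2808 * p * i * e
      + 23410413 * p * i * f
      + 81359238 * p * e * e
      + 2835 * p * e * f
      + 3069 * p * f * f
      + 3052
      + 2991 * r * e
      + 3108 * m * i
      + 2964 * m * e
      + 3058 * r * r * e
      + 3014 * r * m * e := by positivity

private theorem part03_13 {r p m n i e f : ℝ} (hr : 0 ≤ r) (hp : 0 ≤ p) (hm : 0 ≤ m) (hn : 0 ≤ n) (hi : 0 ≤ i) (he : 0 ≤ e) (hf : 0 ≤ f) :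
    0 ≤ 3127 * m * m * i
      + 3061 * m * m * e
      + 3392 * n
      + 3189 * p * m * m * n
      + 3147 * p * m * m * e
      + 3141 * p * m * m * f
      + 39908202 * p * p * m * m
      + 2946 * r * r * n * f
      + 2988 * r * m * n * f
      + 219601374 * m * m * n * f
      + 3255 * p * p * i
      + 85708965 * p * p * m * i
      + 2820 * p * p * n * i
      + 3291 * r * p * i
      + 3204 * r * r * p * i
      + 3225 * r * p * p * i
      + 2940 * r * r * m * n
      + 3054 * r * p * m * n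
      + 2799 * r * p * f
      + 3081 * r * r * p * f := by positivity

private theorem part03_14 {r p m n i e f : ℝ} (hr : 0 ≤ r) (hp : 0 ≤ p) (hm : 0 ≤ m) (hn : 0 ≤ n) (hi : 0 ≤ i) (he : 0 ≤ e) (hf : 0 ≤ f) :
    0 ≤ 3015 * r * p * p * f
      + 3072 * m * m * n * n
      + 2940 * m * n * n * n
      + 3591 * r * p * m * i
      + 3303 * p * m * m * i
      + 2622 * p
      + 3090 * r * f
      + 2964 * m * f
      + 3324 * r * r * p
      + 3870 * r * r * n
      + 3255 * r * r * f
      + 3207 * r * p * p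
      + 2859 * r * p * n
      + 2805 * r * p * e
      + 141828933 * r * m * f
      + 3048 * r * n * i
      + 2937 * r * n * e
      + 3135 * r * n * f
      + 2589 * r * i * i
      + 2228268 * r * i * e := by positivity

private theorem part03_15 {r p m n i e f : ℝ} (hr : 0 ≤ r) (hp : 0 ≤ p) (hm : 0 ≤ m) (hn : 0 ≤ n) (hi : 0 ≤ i) (he : 0 ≤ e) (hf : 0 ≤ f) :
    0 ≤ 2979 * r * i * f
      + 3198 * r * e * e
      + 58337847 * r * e * f
      + 3030 * r * f * f
      + 2970 * p * p * p
      + 2415 * p * p * n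
      + 83106384 * p * p * e
      + 3138 * p * p * f
      + 3492 * p * p * m
      + 2916 * p * m * n
      + 102760629 * p * m * i
      + 2778 * p * m * e
      + 3021 * p * m * f
      + 2970 * m * m * f
      + 3042 * m * n * i
      + 3174 * m * n * e
      + 3051 * m * n * f
      + 2964 * m * i * i
      + 57731934 * m * i * e
      + 39471453 * m * i * f := by positivity

private theorem part03_16 {m n i e f : ℝ} (hm : 0 ≤ m) (hn : 0 ≤ n) (hi : 0 ≤ i) (he : 0 ≤ e) (hf : 0 ≤ f) :
    0 ≤ 3198 * m * e * e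
      + 12973653 * m * e * f
      + 2982 * m * f * f
      + 88407246 * n * n * n
      + 2715 * n * n * i
      + 12966780 * n * n * e
      + 48975996 * n * n * f
      + 17581863 * n * i * i
      + 8177868 * n * i * e
      + 34503954 * n * i * f
      + 26264967 * n * e * e
      + 93164448 * n * e * f
      + 22205136 * n * f * f
      + 1269654 * i * i * i
      + 11003292 * i * i * e
      + 4092144 * i * i * f
      + 67830942 * i * e * f
      + 2916 * i * f * f
      + 28075350 * e * e * e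
      + 69434196 * e * e * f := by positivity

private theorem part03_17 {r p m n i e f : ℝ} (hr : 0 ≤ r) (hp : 0 ≤ p) (hm : 0 ≤ m) (hn : 0 ≤ n) (hi : 0 ≤ i) (he : 0 ≤ e) (hf : 0 ≤ f) :
    0 ≤ 3180 * e * f * f
      + 2868 * f * f * f
      + 2601 * r * r * r * p
      + 3489 * r * r * p * p
      + 3618 * r * r * p * m
      + 3702 * r * p * p * m
      + 2829 * r * r * r * e
      + 2946 * r * r * m * e
      + 75636153 * r * m * m * e
      + 3234 * r * p * i * i
      + 2865 * r * n * i * i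
      + 3174 * r * i * i * i
      + 117928389 * r * i * i * e
      + 95566728 * r * i * i * f
      + 2757 * p * p * p * m
      + 2916 * r * p * p * p
      + 3831828 * m * n * i * i
      + 3000 * n * n * i * i
      + 3318 * r
      + 2694 * r * p * p * e := by positivity

private theorem part03_18 {r p m n i e f : ℝ} (hr : 0 ≤ r) (hp : 0 ≤ p) (hm : 0 ≤ m) (hn : 0 ≤ n) (hi : 0 ≤ i) (he : 0 ≤ e) (hf : 0 ≤ f) :
    0 ≤ 2928 * p * p * m * e
      + 68489250 * r * p * e * f
      + 3072 * p * p * e * f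
      + 3141 * r * p * m * f
      + 3132 * r * p * n * f
      + 124558323 * p * p * m * f
      + 2982 * p * p * n * f
      + 2934 * r * r * r
      + 3144 * r * r * r * m
      + 2760 * r * r * r * n
      + 3693 * r * r * r * i
      + 2856 * r * r * p * n
      + 3042 * r * p * p * n
      + 2505 * r * r * n * n
      + 43144899 * r * r * n * i
      + 3051 * r * p * n * n
      + 3066 * r * p * n * i
      + 122832075 * r * r * i * i
      + 2934 * r * r * n * e
      + 3795483 * r * r * i * e := by positivity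

private theorem part03_19 {r p m n i e f : ℝ} (hr : 0 ≤ r) (hp : 0 ≤ p) (hm : 0 ≤ m) (hn : 0 ≤ n) (hi : 0 ≤ i) (he : 0 ≤ e) (hf : 0 ≤ f) :
    0 ≤ 2817 * r * p * m * e
      + 3243 * r * p * n * e
      + 2550 * r * p * i * e
      + 2973 * r * r * m * f
      + 3315 * r * r * i * f
      + 46991436 * r * p * i * f
      + 2889 * p * p * p * n
      + 13388601 * p * p * p * i
      + 3108 * p * p * m * n
      + 3213 * p * p * n * n
      + 3069 * p * p * i * i
      + 10984986 * p * p * n * e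
      + 2650782 * p * p * i * e
      + 28246284 * p * p * i * f
      + 2865 * r * m * m * i
      + 2946 * p * m * m * m
      + 2979 * r * m * n * i
      + 3030 * p * m * n * n
      + 2550 * p * m * n * i
      + 3036 * r * m * i * i := by positivity

private theorem part03_20 {r p m n i e f : ℝ} (hr : 0 ≤ r) (hp : 0 ≤ p) (hm : 0 ≤ m) (hn : 0 ≤ n) (hi : 0 ≤ i) (he : 0 ≤ e) (hf : 0 ≤ f) :
    0 ≤ 40897851 * p * m * i * i
      + 3498 * r * m * n * e
      + 92325864 * r * m * i * e
      + 2196 * p * m * n * e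
      + 2685 * p * m * i * e
      + 3003 * r * m * m * f
      + 41969280 * r * m * i * f
      + 2694 * p * m * n * f
      + 75106980 * p * m * i * f
      + 2802 * r * n * n * n
      + 3285 * r * n * n * i
      + 2874 * p * n * n * n
      + 74852508 * p * n * n * i
      + 2916 * p * n * i * i
      + 13239546 * r * n * n * e
      + 3516 * r * n * i * e
      + 23746986 * p * n * n * e
      + 9201384 * p * n * i * e
      + 6586563 * r * n * n * f
      + 641568 * r * n * i * f := by positivity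

private theorem part03_21 {r p m n i e f : ℝ} (hr : 0 ≤ r) (hp : 0 ≤ p) (hm : 0 ≤ m) (hn : 0 ≤ n) (hi : 0 ≤ i) (he : 0 ≤ e) (hf : 0 ≤ f) :
    0 ≤ 64254360 * p * n * n * f
      + 2994 * p * n * i * f
      + 1821462 * p * i * i * i
      + 23615919 * p * i * i * e
      + 9454797 * p * i * i * f
      + 38721162 * i * e * e
      + 39493962 * r * m * e * e
      + 35546814 * r * n * e * e
      + 70775598 * r * i * e * e
      + 2697 * p * m * e * e
      + 2787 * p * n * e * e
      + 2769 * p * i * e * e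
      + 16753827 * r * m * e * f
      + 93016818 * r * n * e * f
      + 57059784 * r * i * e * f
      + 2907 * p * m * e * f
      + 40353534 * p * n * e * f
      + 9288324 * p * i * e * f
      + 3051 * r * m * f * f
      + 18900462 * r * n * f * f := by positivity

private theorem part03_22 {r p m n i e f : ℝ} (hr : 0 ≤ r) (hp : 0 ≤ p) (hm : 0 ≤ m) (hn : 0 ≤ n) (hi : 0 ≤ i) (he : 0 ≤ e) (hf : 0 ≤ f) :
    0 ≤ 956985 * r * i * f * f
      + 3042 * p * m * f * f
      + 13551879 * p * n * f * f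
      + 12387543 * p * i * f * f
      + 3468 * r * r * r * r
      + 61461555 * r * r * r * f
      + 3144 * r * r * p * e
      + 36154671 * r * r * e * e
      + 13879428 * r * r * e * f
      + 2937 * r * r * f * f
      + 2982 * p * p * p * p
      + 2979 * p * p * p * f
      + 31842702 * r * p * f * f
      + 20248671 * p * p * f * f
      + 12801585 * p * e * e * e
      + 2706 * p * e * e * f
      + 3057 * p * e * f * f
      + 3057 * m * m * m * m
      + 986895828 * m * m * m * n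
      + 2961 * m * m * m * i := by positivity

private theorem part03_23 {r p m n i e f : ℝ} (hr : 0 ≤ r) (hp : 0 ≤ p) (hm : 0 ≤ m) (hn : 0 ≤ n) (hi : 0 ≤ i) (he : 0 ≤ e) (hf : 0 ≤ f) :
    0 ≤ 3039 * m * m * m * f
      + 168784095 * m * m * n * i
      + 3021 * m * m * i * i
      + 15011256 * m * m * i * f
      + 3009 * m * m * f * f
      + 30644085 * m * m * e * e
      + 53627766 * m * n * e * e
      + 3011598 * m * e * e * e
      + 3384 * n * e * e * e
      + 21602640 * m * e * e * f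
      + 3621 * n * e * e * f
      + 72180522 * r * e * f * f
      + 3629226 * r * f * f * f
      + 13723701 * p * f * f * f
      + 3006 * n * n * f * f
      + 6179928 * n * i * f * f
      + 8470755 * n * e * f * f
      + 2991 * n * f * f * f
      + 5102574 * i * i * f * f
      + 16575534 * i * e * f * f := by positivity

private theorem part03_24 {m n i e f : ℝ} (hm : 0 ≤ m) (hn : 0 ≤ n) (hi : 0 ≤ i) (he : 0 ≤ e) (hf : 0 ≤ f) :
    0 ≤ 3018 * i * f * f * f
      + 19622193 * e * e * f * f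
      + 6519999 * e * f * f * f
      + 318399 * f * f * f * f
      + 3003 * m * i * i * f
      + 2997 * n * i * i * f
      + 2925 * m * m * e * f
      + 2636385 * m * n * n * f
      + 2997 * n * n * n * f
      + 88116852 * m * m * i * e
      + 2904513 * m * n * f * f
      + 116474181 * m * m * m * e
      + 30155484 * m * n * i * e
      + 27564132 * m * i * i * e
      + 3564 * m * i * e * e
      + 29977776 * m * i * e * f
      + 15402369 * n * n * i * e
      + 11106972 * n * i * i * e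
      + 49967148 * n * i * e * e
      + 45406518 * n * i * e * f := by positivity

private theorem part03_25 {r p m n i e f : ℝ} (hr : 0 ≤ r) (hp : 0 ≤ p) (hm : 0 ≤ m) (hn : 0 ≤ n) (hi : 0 ≤ i) (he : 0 ≤ e) (hf : 0 ≤ f) :
    0 ≤ 3129 * i * i * i * e
      + 45047400 * i * i * e * e
      + 23338056 * i * i * e * f
      + 8589300 * i * e * e * e
      + 34281960 * i * e * e * f
      + 12396720 * m * i * f * f
      + 3114 * m * e * f * f
      + 47059539 * r * e * e * f
      + 2769 * r * p * e * e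
      + 3138 * p * p * p * e
      + 30515475 * m * m * n * e
      + 3114 * m * n * n * e
      + 50997954 * m * n * e * f
      + 3054 * m * n * i * f
      + 19171788 * r * e * e * e
      + 3003 * m * f * f * f
      + 33268911 * m * i * i * i
      + 3000 * n * i * i * i
      + 3000 * i * i * i * i
      + 13011270 * p * p * e * e := by positivity

private theorem part03_26 {m n i e f : ℝ} (hm : 0 ≤ m) (hn : 0 ≤ n) (hi : 0 ≤ i) (he : 0 ≤ e) (hf : 0 ≤ f) :
    0 ≤ 2648721 * i * i * i * f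
      + 17237976 * m * n * n * i
      + 606366 * n * n * i * f
      + 15951096 * n * n * e * f
      + 3000 * n * n * n * i
      + 3000 * n * n * n * n
      + 5174769 * n * n * n * e
      + 19102524 * n * n * e * e
      + 8292000 * e * e * e * e
      + 21956097 * e * e * e * f := by positivity

theorem leaf03 {r p m n i e f : ℝ} (h0 : 0 ≤ r) (h1 : 0 ≤ p) (h2 : 0 ≤ m) (h3 : 0 ≤ n) (h4 : 0 ≤ i) (h5 : 0 ≤ e) (h6 : 0 ≤ f) (h7 : 0 ≤ r - m) (h8 : 0 ≤ 1 - r - p) (h9 : 0 ≤ 1 - m - n - i) (h10 : 0 ≤ m - e - f) (h11 : 0 ≤ p - n - i - e - f) (h12 : 0 ≤ 1 - m - 2 * n) :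
    0 ≤ 107500000 - 107500000 * m - 107500000 * n + 332500000 * i + 225000000 * e + 192500000 * f + 95000000 * r * r - 190000000 * r * p - 285000000 * r * m + 190000000 * r * n - 327000000 * r * i - 27000000 * r * e + 95000000 * p * p + 285000000 * p * m - 190000000 * p * n - 190000000 * p * i - 190000000 * p * e - 190000000 * p * f + 341250000 * m * m - 285000000 * m * n + 120000000 * m * i + 120000000 * m * e + 243750000 * n * n - 112500000 * n * i - 112500000 * n * e - 112500000 * n * f - 56250000 * i * i - 112500000 * i * e - 112500000 * i * f - 56250000 * e * e - 112500000 * e * f - 56250000 * f * f + 485000000 * r * r * m - 10000000 * r * r * i - 200000000 * r * r * e - 485000000 * r * p * m - 308750000 * r * m * m + 485000000 * r * m * n - 985000000 * r * m * i - 400000000 * r * m * e - 190000000 * r * n * n - 585000000 * p * m * m - 71250000 * p * n * n - 142500000 * p * n * i - 142500000 * p * n * e - 142500000 * p * n * f - 71250000 * p * i * i - 142500000 * p * i *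 e - 142500000 * p * i * f - 71250000 * p * e * e - 142500000 * p * e * f - 71250000 * p * f * f - 585000000 * m * m * m + 585000000 * m * m * n + 220000000 * m * m * i + 220000000 * m * m * e + 585000000 * m * n * n - 195000000 * r * r * m * m + 675000000 * r * r * m * i + 1635000000 * r * p * m * m + 675000000 * r * m * m * m - 675000000 * r * m * m * n - 675000000 * r * m * n * n + 480000000 * p * p * m * m - 480000000 * p * m * m * n - 480000000 * p * m * m * e - 480000000 * p * m * m * f := by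
  have t0 := part03_0 h0 h1 h2 h3 h4 h5 h6 h7 h8 h11 h12
  have t1 := part03_1 h0 h1 h2 h3 h4 h5 h6 h7 h8 h9 h10 h11 h12
  have t2 := part03_2 h0 h1 h2 h3 h4 h5 h6 h7 h8 h10 h12
  have t3 := part03_3 h0 h1 h2 h3 h4 h5 h6 h7 h8 h11 h12
  have t4 := part03_4 h0 h1 h2 h3 h4 h5 h6 h7 h8 h9 h10 h11 h12
  have t5 := part03_5 h0 h1 h2 h3 h4 h5 h6 h7 h8 h9 h10 h11 h12
  have t6 := part03_6 h0 h1 h2 h3 h4 h5 h6 h7 h8 h9 h11 h12
  have t7 := part03_7 h0 h1 h2 h3 h4 h5 h6 h7 h8 h9 h10 h12
  have t8 := part03_8 h0 h1 h2 h3 h4 h5 h6 h7 h8 h9 h10 h11 h12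
  have t9 := part03_9 h0 h1 h2 h3 h4 h5 h6 h7 h8 h9 h10 h11 h12
  have t10 := part03_10 h0 h1 h2 h3 h4
  have t11 := part03_11 h0 h1 h2 h3 h4 h5 h6
  have t12 := part03_12 h0 h1 h2 h3 h4 h5 h6
  have t13 := part03_13 h0 h1 h2 h3 h4 h5 h6
  have t14 := part03_14 h0 h1 h2 h3 h4 h5 h6
  have t15 := part03_15 h0 h1 h2 h3 h4 h5 h6
  have t16 := part03_16 h2 h3 h4 h5 h6
  have t17 := part03_17 h0 h1 h2 h3 h4 h5 h6
  have t18 := part03_18 h0 h1 h2 h3 h4 h5 h6
  have t19 := part03_19 h0 h1 h2 h3 h4 h5 h6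
  have t20 := part03_20 h0 h1 h2 h3 h4 h5 h6
  have t21 := part03_21 h0 h1 h2 h3 h4 h5 h6
  have t22 := part03_22 h0 h1 h2 h3 h4 h5 h6
  have t23 := part03_23 h0 h1 h2 h3 h4 h5 h6
  have t24 := part03_24 h2 h3 h4 h5 h6
  have t25 := part03_25 h0 h1 h2 h3 h4 h5 h6
  have t26 := part03_26 h2 h3 h4 h5 h6
  linarith only [t0, t1, t2, t3, t4, t5, t6, t7, t8, t9, t10, t11, t12, t13, t14, t15, t16, t17, t18, t19, t20, t21, t22, t23, t24, t25, t26]

end Vale.Agent.P038.K4
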