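import Mathlib

/-
P038: one corner of the polynomial inequality for K4-free graphs (exact nonnegativity certificate).
-/

namespace Vale.Agent.P038.K4

private theorem part04_0 {r p m n i e f c7 c8 c9 c10 c11 c12 : ℝ} (hr : 0 ≤ r) (hp : 0 ≤ p) (hm : 0 ≤ m) (hn : 0 ≤ n) (hi : 0 ≤ i) (he : 0 ≤ e) (hf : 0 ≤ f) (hc7 : 0 ≤ c7) (hc8 : 0 ≤ c8) (hc9 : 0 ≤ c9) (hc10 : 0 ≤ c10) (hc11 : 0 ≤ c11) (hc12 : 0 ≤ c12) :
    0 ≤ 259008 * i * c7 * (5 * r - 3 * p + 9 * m - 6 * n - 4 * i - e + 10 * f) ^ 2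
      + 1338489 * c7 * c10 * (-1 - p - 2 * m - 3 * n + 7 * i + 5 * e - 10 * f) ^ 2
      + 3 * f * (-2 + 3 * r + 2 * p + 10 * m - n - 2 * i + e + 9 * f) ^ 2
      + 215325009 * r * i * c11
      + 571782 * c7 * c10 * (1 - r + 6 * m - 10 * i + 7 * e + 3 * f) ^ 2
      + 141285 * p * m * (-3 + 15 * r - 5 * p + 3 * m + 5 * n - 4 * i + 3 * f) ^ 2
      + 11388 * e * f * (-4 + 8 * r - 8 * p - 9 * m - 10 * n + 5 * i - e) ^ 2
      + 69421830 * m * n * e * c10
      + 349929 * e * c8 * (-2 + 11 * r - 5 * p - m + 10 * n - 7 * i - 2 * f) ^ 2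
      + 53172321 * p * m * c7 * c8
      + 415011 * e * c9 * (1 + 7 * r - 4 * p - 10 * m + 7 * n + 2 * i - 9 * e - f) ^ 2
      + 49248 * p * c10 * (2 - 6 * r + p + 4 * m - 8 * n + i + 10 * e - f) ^ 2
      + 472497 * f * c10 * (1 - 9 * r + 3 * p - m + 10 * n - 3 * i + 5 * e + 7 * f) ^ 2
      + 291006 * f * (2 * p + 8 * m - 2 * n - 2 * i - 10 * e - 10 * f) ^ 2
      + 131091 * m * e * (-8 * r + 7 * p - 8 * m + 4 * n + 10 * i - 10 * e + 2 * f) ^ 2
      + 20592 * r * c10 * (7 + r - 2 * p - 10 * m + 4 * n - 7 * i) ^ 2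
      + 208140 * n * c10 * (3 * r + 4 * p - 2 * m - 3 * n - 2 * i - 10 * e + 7 * f) ^ 2
      + 331698 * c8 * c8 * (-3 + 3 * r + 4 * p - 7 * m + 10 * n - 2 * e - 4 * f) ^ 2
      + 58898097 * n * f * c11 * c12
      + 439755 * r * c10 * (3 + 6 * r - 7 * p - 10 * m + 5 * n - 3 * i - 10 * e + f) ^ 2 := by positivity

private theorem part04_1 {r p m n i e f c7 c8 c9 c10 c11 c12 : ℝ} (hp : 0 ≤ p) (hm : 0 ≤ m) (hn : 0 ≤ n) (hi : 0 ≤ i) (he : 0 ≤ e) (hf : 0 ≤ f) (hc7 : 0 ≤ c7) (hc8 : 0 ≤ c8) (hc9 : 0 ≤ c9) (hc10 : 0 ≤ c10) (hc11 : 0 ≤ c11) (hc12 : 0 ≤ c12) :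
    0 ≤ 12692913 * p * e * f * c8
      + 1244031 * f * c8 * (-6 - 7 * r + 10 * p + 3 * m + 6 * n + 3 * f) ^ 2
      + 34351827 * m * c10 * c12 * c12
      + 41250186 * p * p * c10 * c11
      + 220224 * i * c10 * (-3 - r + 3 * m + 8 * n + i + 10 * e - 5 * f) ^ 2
      + 179153448 * p * f * c10 * c12
      + 477933 * c7 * c10 * (-3 + 10 * r - 8 * p - 10 * m - 7 * n + 6 * i + e) ^ 2
      + 646623 * c8 * (-5 - 6 * r + 10 * p + 3 * m + n + 3 * f) ^ 2
      + 163593 * p * m * (-4 - 9 * r + 8 * p + 10 * n - i - 2 * f) ^ 2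
      + 504174 * f * c7 * (1 + 11 * r - 7 * p + 7 * m - 10 * i + e + 6 * f) ^ 2
      + 1381734 * n * e * (-r + 4 * p + 6 * m - 3 * n - 3 * i - 10 * e - 10 * f) ^ 2
      + 612723 * c7 * c7 * (-1 + 5 * r - 3 * p + 10 * m - 3 * n - 9 * i + e + 9 * f) ^ 2
      + 93183558 * i * c8 * c10
      + 314529 * p * c10 * (-6 + 15 * r - 5 * p + 7 * n - 2 * i + 3 * e) ^ 2
      + 774477 * i * f * (-5 + 10 * r + 5 * m - 2 * n + 6 * i + 5 * e) ^ 2
      + 164674932 * m * e * c9 * c11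
      + 100150509 * p * i * c8 * c12
      + 1280697 * m * c10 * (-4 + 4 * r + 6 * p - 7 * n + 3 * e - 3 * f) ^ 2
      + 58287 * f * c10 * (-5 * r - p + 5 * m - 10 * n + 9 * i + 4 * f) ^ 2
      + 137517 * p * c7 * (r - p + 10 * m - 4 * n - 4 * i + 6 * e + 2 * f) ^ 2 := by positivity

private theorem part04_2 {r p m n i e f c7 c8 c10 c11 c12 : ℝ} (hr : 0 ≤ r) (hp : 0 ≤ p) (hm : 0 ≤ m) (hn : 0 ≤ n) (hi : 0 ≤ i) (he : 0 ≤ e) (hf : 0 ≤ f) (hc7 : 0 ≤ c7) (hc8 : 0 ≤ c8) (hc10 : 0 ≤ c10) (hc11 : 0 ≤ c11) (hc12 : 0 ≤ c12) :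
    0 ≤ 45702183 * r * n * c11 * c12
      + 99376872 * c8 * c8 * c10
      + 186414 * m * c11 * (2 * r - 2 * p - 6 * m + n + 10 * i - 7 * e - 8 * f) ^ 2
      + 274890 * m * i * (2 + 17 * r - 10 * p + m - 7 * n - 5 * i + 2 * e + 7 * f) ^ 2
      + 119403873 * i * i * e * c11
      + 174522 * e * f * (4 - 9 * r + 2 * p - 4 * m + 3 * n - 2 * i + 5 * e - 10 * f) ^ 2
      + 107754 * i * c8 * (6 - 12 * r + 10 * p + 8 * m - n + 8 * f) ^ 2
      + 130134216 * e * c8 * c11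
      + 544164 * c7 * c8 * (-2 + 10 * r + 9 * m + e + 7 * f) ^ 2
      + 46805775 * p * p * i * c8
      + 757788 * i * e * (-1 - 14 * r + 9 * p + 10 * m - 7 * i + 5 * e + 5 * f) ^ 2
      + 1074417 * e * c8 * (3 + 2 * r - 2 * p - 2 * m - 10 * n - 3 * i - 2 * e + 4 * f) ^ 2
      + 320719176 * m * i * c8 * c8
      + 587757 * m * c11 * (-6 + 15 * r - 10 * p + 7 * m + n - 7 * i + 2 * e + 2 * f) ^ 2
      + 284550 * n * c11 * (1 - 5 * r - 5 * p - 8 * m + 8 * n - e - 2 * f) ^ 2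
      + 61888611 * m * e * c7 * c10
      + 43284627 * f * f * c11 * c11
      + 68538 * n * c7 * (1 + 10 * r - 6 * p + 8 * m - 2 * n - 8 * i - 2 * e + 10 * f) ^ 2
      + 109063512 * m * m * m * c11
      + 49464 * r * c8 * (3 - r - 2 * p - 2 * m - 10 * n - i + e + 6 * f) ^ 2 := by positivity

private theorem part04_3 {r p m n i e f c7 c8 c10 c11 c12 : ℝ} (hr : 0 ≤ r) (hp : 0 ≤ p) (hn : 0 ≤ n) (hi : 0 ≤ i) (he : 0 ≤ e) (hf : 0 ≤ f) (hc7 : 0 ≤ c7) (hc8 : 0 ≤ c8) (hc10 : 0 ≤ c10) (hc11 : 0 ≤ c11) (hc12 : 0 ≤ c12) :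
    0 ≤ 962595 * p * c11 * (r - 3 * m + n + 6 * i + e - 10 * f) ^ 2
      + 4208655 * n * i * e * c8
      + 57217533 * f * f * c8 * c10
      + 11908032 * p * e * e * c10
      + 477807 * c8 * (5 - 4 * r - 6 * p + 2 * m - 10 * n + 2 * f) ^ 2
      + 73333080 * n * e * c10
      + 44424 * c8 * c8 * (1 - 13 * r + 7 * p + 3 * m - 10 * n + 2 * i + 2 * e + f) ^ 2
      + 11074644 * p * p * c11 * c12
      + 138264 * p * e * (6 * r + 3 * p - m - 10 * n - 6 * i - 5 * e) ^ 2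
      + 69419559 * i * e * c10
      + 36514599 * e * e * c8 * c11
      + 46169253 * e * f * f * c10
      + 24934650 * e * f * c10
      + 70791510 * i * i * f * c11
      + 227208 * r * n * (2 - 16 * r + 6 * p + 2 * m - 6 * n + 2 * i + 3 * e - 2 * f) ^ 2
      + 1004109 * i * f * (-3 - 17 * r + 10 * p + 2 * m - 2 * n + 4 * i + 2 * f) ^ 2
      + 117771 * f * c10 * (10 + 5 * r + 5 * m + e + 2 * f) ^ 2
      + 294360 * c7 * c12 * (-1 - 7 * r + 4 * p + 2 * m - 10 * n + 9 * i + e + 2 * f) ^ 2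
      + 18147 * e * f * (1 - 14 * r + 10 * p + 2 * m + 3 * n + 2 * e + f) ^ 2
      + 950901 * e * c8 * (-6 + 5 * r + 5 * p + 10 * n + i + e) ^ 2 := by positivity

private theorem part04_4 {r p m n i e f c7 c8 c10 c11 c12 : ℝ} (hr : 0 ≤ r) (hp : 0 ≤ p) (hm : 0 ≤ m) (hn : 0 ≤ n) (hi : 0 ≤ i) (he : 0 ≤ e) (hf : 0 ≤ f) (hc7 : 0 ≤ c7) (hc8 : 0 ≤ c8) (hc10 : 0 ≤ c10) (hc11 : 0 ≤ c11) (hc12 : 0 ≤ c12) :
    0 ≤ 474273 * m * n * (-2 - 14 * r + 10 * p - 4 * m + 3 * n + 2 * i + 2 * e + f) ^ 2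
      + 250179 * n * e * (-1 - 8 * r + 5 * p - m + 10 * n - 7 * i - e) ^ 2
      + 114663243 * p * n * f * c11
      + 66289926 * i * c10 * c11
      + 1426110 * p * p * e * c8
      + 151448982 * n * n * e * c11
      + 137216007 * i * c11
      + 756378 * r * m * (4 - 7 * r - m - 10 * n + 4 * i - 2 * e) ^ 2
      + 6207 * (-5 + 12 * r - 3 * p - 2 * m + 10 * n - 3 * i - e - f + 14 * r * p + 8 * r * m + 3 * r * n + 3 * r * i + r * e + 7 * r * f - 6 * p * p - 3 * p * m + 2 * p * n - 3 * p * i - p * e - 2 * p * f + 3 * m * m + 3 * m * n - 4 * m * i + 4 * m * f + 5 * n * n - n * i + 3 * n * f + 2 * i * i - i * e - 3 * i * f - e * e + 3 * f * f) ^ 2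
      + 787632 * c7 * (r - p + 10 * m - 5 * n - 4 * i + 5 * e + 2 * f) ^ 2
      + 813369 * c11 * (r + 2 * p - 10 * n) ^ 2
      + 530898 * i * e * (-1 - r + 9 * m - 10 * n + 10 * e) ^ 2
      + 115992 * f * c10 * (-10 - 10 * r + 8 * p - 3 * m - 5 * n + 3 * i - 4 * e + 10 * f) ^ 2
      + 208655838 * m * n * f * c10
      + 47366160 * f * f * c8 * c11
      + 251418 * r * c11 * (-1 + 13 * r - 10 * p) ^ 2
      + 80935335 * p * i * e * c10
      + 223779 * n * n * (5 + 3 * r - 6 * p - 3 * m - 10 * n + 5 * i - 6 * e + 2 * f) ^ 2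
      + 44156133 * n * n * c11 * c12
      + 89532 * c8 * c11 * (3 * m - 10 * n + 8 * i + 7 * e - 4 * f) ^ 2 := by positivity

private theorem part04_5 {r p m n i e f c7 c8 c10 c11 c12 : ℝ} (hr : 0 ≤ r) (hp : 0 ≤ p) (hm : 0 ≤ m) (hn : 0 ≤ n) (hi : 0 ≤ i) (he : 0 ≤ e) (hf : 0 ≤ f) (hc7 : 0 ≤ c7) (hc8 : 0 ≤ c8) (hc10 : 0 ≤ c10) (hc11 : 0 ≤ c11) (hc12 : 0 ≤ c12) :
    0 ≤ 632856 * p * c10 * (1 + 3 * p - 2 * m - 5 * n - 10 * i - e + f) ^ 2
      + 352135677 * r * n * i * c8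
      + 361365 * f * c11 * (-2 - 5 * r + p + 5 * m + 4 * n + 5 * i + e - 10 * f) ^ 2
      + 327460227 * r * i * i * c8
      + 186228 * e * c10 * (9 - 9 * r + 6 * p - 2 * m - n + 4 * i - 10 * e + 7 * f) ^ 2
      + 353097 * e * c12 * (-9 + r + 9 * p + 9 * m + 9 * n + 7 * f) ^ 2
      + 116891211 * m * m * c7 * c8
      + 32937 * e * c12 * (-5 * r + 4 * p + 2 * m - 9 * n + 10 * i + 2 * e) ^ 2
      + 2943 * e * (2 + 16 * r - 10 * p + 3 * n - 7 * i) ^ 2
      + 419280 * e * c10 * (10 - r + 2 * p + 5 * m + n - i + 3 * e + 2 * f) ^ 2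
      + 360357 * p * c11 * (-10 * r + 10 * p + m - 5 * n + 2 * i + e) ^ 2
      + 53199 * e * (-1 + r - p + 10 * m - 9 * n - 2 * i + 10 * e) ^ 2
      + 324165 * r * c10 * (2 - 4 * r + 2 * p + m - 2 * n - 8 * i + 2 * e + 10 * f) ^ 2
      + 104928 * n * e * (1 + 7 * r - 5 * p - 10 * m + 5 * i + e - 10 * f) ^ 2
      + 289833 * p * p * f * c11
      + 215181000 * m * c8 * c8 * c10
      + 45267 * c7 * c7 * (6 * r - 4 * p + 9 * m - n - 10 * i + 6 * e + 4 * f) ^ 2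
      + 12522 * e * e * (2 + 2 * r - p - 10 * m + 9 * n + i - 10 * e) ^ 2
      + 424110 * i * c8 * (-11 * r + 10 * p + 7 * m + 4 * n + 2 * i + 7 * e + 2 * f) ^ 2
      + 945261 * p * c10 * (-1 + 6 * r - 4 * p + m + 5 * n - 10 * i + 4 * e) ^ 2 := by positivity

private theorem part04_6 {r p m n i e f c7 c8 c10 c11 : ℝ} (hr : 0 ≤ r) (hp : 0 ≤ p) (hm : 0 ≤ m) (hn : 0 ≤ n) (hi : 0 ≤ i) (he : 0 ≤ e) (hf : 0 ≤ f) (hc7 : 0 ≤ c7) (hc8 : 0 ≤ c8) (hc10 : 0 ≤ c10) (hc11 : 0 ≤ c11) :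
    0 ≤ 349045707 * m * n * e * c8
      + 89299680 * i * f * c8 * c10
      + 758337 * p * c8 * (-3 - 8 * r + 10 * p + 2 * m - n + e + f) ^ 2
      + 277176 * c11 * (2 * p - 10 * m + 5 * n - 7 * i - 9 * f) ^ 2
      + 5987943 * m * i * c11
      + 234324 * m * c8 * (-5 - 5 * r + 8 * p + 10 * n + 2 * i - f) ^ 2
      + 761811 * m * c10 * (-6 + 3 * r + 3 * p + 5 * m - 2 * n + 10 * i - 2 * e + 2 * f) ^ 2
      + 371607 * p * f * (4 - 4 * r - p - 10 * n + 4 * i + e - f) ^ 2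
      + 1122783 * m * n * c10
      + 994920 * c11 * (-2 + 6 * r + 4 * p + 2 * n - i - f) ^ 2
      + 353502 * e * f * (-4 - 17 * r + 10 * p + m + 2 * i + e) ^ 2
      + 337576746 * m * m * c7 * c10
      + 428994 * e * f * (2 + 14 * r - 8 * p + 10 * m - 4 * n - 8 * i + 3 * e + 7 * f) ^ 2
      + 10296 * i * c11 * (-p + n - 10 * e + 8 * f) ^ 2
      + 85049421 * r * n * c7 * c8
      + 620820 * m * n * (-5 - 7 * r + 8 * p + 3 * m + 10 * n - 3 * i + e) ^ 2
      + 143088 * p * c7 * (-1 + 18 * r - 8 * p - 5 * m + 4 * n + 4 * i - 9 * e + 3 * f) ^ 2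
      + 41110011 * p * m * c10 * c11
      + 224414556 * m * e * c8 * c8
      + 18602460 * p * c10 * c11 := by positivity

private theorem part04_7 {r p m n i e f c7 c8 c9 c10 c11 c12 : ℝ} (hr : 0 ≤ r) (hp : 0 ≤ p) (hm : 0 ≤ m) (hn : 0 ≤ n) (hi : 0 ≤ i) (he : 0 ≤ e) (hf : 0 ≤ f) (hc7 : 0 ≤ c7) (hc8 : 0 ≤ c8) (hc9 : 0 ≤ c9) (hc10 : 0 ≤ c10) (hc11 : 0 ≤ c11) (hc12 : 0 ≤ c12) :
    0 ≤ 6105339 * c8 * c8 * c8 * c11
      + 22524504 * n * i * c11
      + 27347202 * n * f * c11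
      + 63266025 * e * e * e * c11
      + 318453 * c8 * c8 * (5 + 8 * r - 10 * p - 7 * n) ^ 2
      + 205449 * e * e * (10 * m - 10 * e - 10 * f) ^ 2
      + 205311 * e * (-2 - 14 * r + 10 * p + 10 * m + 3 * n - 7 * i + 6 * e + 4 * f) ^ 2
      + 1299 * n * i * (-1 - 11 * r + 7 * p - 4 * m + 10 * n - i - 3 * e - 4 * f) ^ 2
      + 837690 * p * f * (4 + 12 * r - 10 * p + 2 * m - 10 * n + 2 * f) ^ 2
      + 56181 * m * i * (-2 - 16 * r + 10 * p + 5 * m - 8 * n + 6 * i + 5 * e) ^ 2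
      + 62406 * e * c12 * (2 + 9 * r - 6 * p - 7 * m + 10 * n - 5 * i - 8 * e + f) ^ 2
      + 88086111 * p * p * e * c10
      + 30669240 * i * e * c10 * c10
      + 12927 * c9 * c11 * (1 + 8 * r - p + 10 * m - 10 * n + 3 * i + e) ^ 2
      + 359010 * i * c12 * (-2 - 17 * r + 10 * p + 9 * m - 6 * n + i + 9 * e) ^ 2
      + 143289 * c7 * (-1 - 3 * r + 2 * p + 9 * m + n - 10 * i + 6 * e + 3 * f) ^ 2
      + 89095125 * r * m * f * c10
      + 90558 * c9 * c10 * (-r - 2 * p - m + 8 * i - 10 * f) ^ 2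
      + 436578 * c8 * c11 * (-1 - 6 * r + p - 9 * m + 10 * n - i + e + f) ^ 2
      + 93117591 * m * n * i * c8 := by positivity

private theorem part04_8 {r p m n i e f c7 c8 c9 c10 c11 : ℝ} (hr : 0 ≤ r) (hp : 0 ≤ p) (hm : 0 ≤ m) (hn : 0 ≤ n) (hi : 0 ≤ i) (he : 0 ≤ e) (hf : 0 ≤ f) (hc7 : 0 ≤ c7) (hc8 : 0 ≤ c8) (hc9 : 0 ≤ c9) (hc10 : 0 ≤ c10) (hc11 : 0 ≤ c11) :
    0 ≤ 54467049 * m * f * c9 * c10
      + 382101 * r * c7 * (-1 - 14 * r + 8 * p + 8 * m - 10 * n + 5 * i + 7 * e + f) ^ 2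
      + 605985 * r * p * (4 - 11 * r + 2 * p + 2 * m - 10 * n + 5 * i + e - 3 * f) ^ 2
      + 343560 * f * c11 * (10 + 4 * r - 8 * p + 4 * m - 9 * n - 6 * i - 2 * e - 9 * f) ^ 2
      + 428361 * e * (-1 - 8 * r + 5 * p + 2 * m - 10 * n + 10 * i + 4 * e - 2 * f) ^ 2
      + 1638891 * f * c7 * (-1 - 7 * r + 4 * p + 10 * m - 6 * n - 2 * i + 8 * e + f) ^ 2
      + 2424540 * f * c11
      + 1157484 * c9 * c10 * (-6 + 4 * r + 4 * p + 2 * m + 10 * n + 2 * i) ^ 2
      + 136173108 * f * c8 * c10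
      + 837198 * m * c7 * (2 + 16 * r - 10 * p - 6 * m + n - 9 * e + 3 * f) ^ 2
      + 80886798 * r * m * c7 * c8
      + 240517404 * r * e * f * c11
      + 14059674 * n * i * c8
      + 44017935 * f * f * f * c10
      + 529299 * c7 * c9 * (-2 + 2 * r + p + 10 * m - 7 * i + 2 * e + 8 * f) ^ 2
      + 1054749 * f * c7 * (-r + 3 * m + 7 * n - 10 * i - e + 4 * f) ^ 2
      + 225360 * n * c11 * (-1 + r - p - 4 * n + 10 * e - 7 * f) ^ 2
      + 1778196 * c8 * c10 * (2 + 6 * r - 7 * p - m + 3 * n - 10 * i + f) ^ 2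
      + 366834 * m * c7 * (2 * m + 8 * n - 10 * i + 2 * e) ^ 2
      + 487830 * c10 * c11 * (1 - 2 * p - 2 * m - 2 * n + 10 * i + 7 * e - 6 * f) ^ 2 := by positivity

private theorem part04_9 {r p m n i e f c7 c8 c9 c10 c11 c12 : ℝ} (hr : 0 ≤ r) (hp : 0 ≤ p) (hm : 0 ≤ m) (hn : 0 ≤ n) (hi : 0 ≤ i) (he : 0 ≤ e) (hf : 0 ≤ f) (hc7 : 0 ≤ c7) (hc8 : 0 ≤ c8) (hc9 : 0 ≤ c9) (hc10 : 0 ≤ c10) (hc11 : 0 ≤ c11) (hc12 : 0 ≤ c12) :
    0 ≤ 2541 * e * (5 + 2 * r - 8 * p + 3 * m - 10 * n - 7 * i + 3 * e) ^ 2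
      + 165936435 * f * c7 * c11
      + 858975 * p * c10 * (-1 + 15 * r - 10 * p + 5 * m - 5 * i) ^ 2
      + 141024294 * r * i * e * c11
      + 298782 * p * e * (1 + 15 * r - 10 * p - 2 * m + 3 * n - 6 * i - 2 * e) ^ 2
      + 5865642 * m * c11 * c12
      + 500847393 * i * c8 * c11
      + 18839295 * m * i * c9 * c11
      + 158825022 * r * p * f * c10
      + 2451006 * f * c9 * (-5 + 10 * r - p + 2 * m + 10 * n - 4 * i + 2 * f) ^ 2
      + 33643218 * e * c7 * c11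
      + 481521 * p * c9 * (3 - 12 * r + 3 * p + 2 * m - 10 * n + 3 * i + 2 * e) ^ 2
      + 1037496 * c10 * (-5 + 4 * r + 4 * p + m + 10 * n + 2 * i) ^ 2
      + 41577231 * m * m * i * c8
      + 444537 * f * f * (3 + 12 * r - 9 * p + 3 * m - 10 * n + i + 3 * f) ^ 2
      + 369834 * f * c11 * (8 + 15 * r - 10 * p + 4 * m + 3 * n - 2 * i) ^ 2
      + 30177243 * n * e * c10 * c12
      + 560847 * n * c8 * (-5 + 5 * p + 10 * n + f) ^ 2
      + 134202522 * e * e * f * c9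
      + 2124 * c9 * c10 * (10 + 4 * m + n - 6 * i + 5 * e + 4 * f) ^ 2 := by positivity

private theorem part04_10 {r p m n i e f c7 c8 c9 c10 c11 c12 : ℝ} (hr : 0 ≤ r) (hp : 0 ≤ p) (hm : 0 ≤ m) (hn : 0 ≤ n) (hi : 0 ≤ i) (he : 0 ≤ e) (hf : 0 ≤ f) (hc7 : 0 ≤ c7) (hc8 : 0 ≤ c8) (hc9 : 0 ≤ c9) (hc10 : 0 ≤ c10) (hc11 : 0 ≤ c11) (hc12 : 0 ≤ c12) :
    0 ≤ 312645 * c7 * c8 * (-r + p + 3 * m + 4 * n - 10 * i + 8 * e - 9 * f) ^ 2
      + 39614103 * r * c7 * c8 * c8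
      + 16576929 * i * e * c11 * c12
      + 11689812 * c7 * c8 * c9
      + 45700488 * i * i * i * c8
      + 12897 * f * (-3 + 16 * r - 6 * p + 2 * m + 7 * n - 6 * i + 2 * f) ^ 2
      + 1304682 * c7 * c7 * c11
      + 10611111 * p * c11 * c11
      + 524670 * n * c7 * (-1 - r + 10 * m - 6 * n - 3 * i + 5 * e + 4 * f) ^ 2
      + 424470 * m * c11 * (2 + p - m - 2 * n - 2 * i - 4 * e + 10 * f) ^ 2
      + 605865 * r * (-4 + 5 * r + p + m + 10 * n - 4 * i + 2 * e - f) ^ 2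
      + 38863308 * i * f * c10
      + 88047147 * m * m * n * c11
      + 51383721 * p * i * c11 * c11
      + 1123986 * f * f * (2 * p - 10 * m - 2 * n - 2 * i + 8 * e + 8 * f) ^ 2
      + 98946930 * p * f * c10 * c10
      + 50298225 * e * e * f * c10
      + 70245 * m * c10 * (-2 + r + 7 * p + m - n - 7 * i - 10 * f) ^ 2
      + 454323 * e * f * (3 - 4 * r - 2 * p - 6 * m - 5 * n - 10 * e + 2 * f) ^ 2
      + 44730 * n * c10 := by positivity

private theorem part04_11 {r p m n i e f c7 c8 c9 c10 c11 c12 : ℝ} (hr : 0 ≤ r) (hp : 0 ≤ p) (hm : 0 ≤ m) (hn : 0 ≤ n) (hi : 0 ≤ i) (he : 0 ≤ e) (hf : 0 ≤ f) (hc7 : 0 ≤ c7) (hc8 : 0 ≤ c8) (hc9 : 0 ≤ c9) (hc10 : 0 ≤ c10) (hc11 : 0 ≤ c11) (hc12 : 0 ≤ c12) :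
    0 ≤ 531540 * r * e * (-2 * p - 8 * m + 2 * n + 2 * i + 10 * e - f) ^ 2
      + 336156 * f * c10 * (-6 + 16 * r - 10 * p + 5 * m - 10 * n + i - 3 * e + 7 * f) ^ 2
      + 162429729 * p * f * c7 * c8
      + 124261080 * p * m * c7 * c10
      + 250827 * m * e * (1 + 13 * r - 7 * p - 4 * m + 10 * n - 8 * i - 5 * e + 2 * f) ^ 2
      + 158811 * c7 * c9 * (15 * r - 10 * p + 2 * m + 2 * n - 2 * i - 3 * e + 6 * f) ^ 2
      + 702549 * f * f * (7 * p - m - 7 * n - 7 * i + 10 * e - 6 * f) ^ 2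
      + 99645360 * r * n * c10 * c12
      + 5552889 * r * e * c8
      + 211623885 * n * n * i * c8
      + 83372436 * r * n * c11
      + 414480 * r * n * (4 + 9 * r - 8 * p - m - 10 * n + 4 * i - 4 * e + 3 * f) ^ 2
      + 72480708 * n * c7 * c8
      + 36874110 * n * i * i * c8
      + 168879 * m * n * (3 + 5 * r - 6 * p + m - 10 * n + 3 * i - 2 * e + 3 * f) ^ 2
      + 306366 * p * i * (1 + 9 * r - 6 * p + 7 * n - 10 * i + f) ^ 2
      + 1004514 * m * c8 * (-r - 7 * p + m + 7 * n - 10 * i - 2 * e + 7 * f) ^ 2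
      + 1106541 * e * c8 * (-2 + r + 7 * p - 4 * m - 4 * n + 10 * i - e + 5 * f) ^ 2
      + 48576501 * f * f * c7 * c8
      + 31968 * c10 * (-5 + 14 * r - 6 * p - 2 * m + 10 * n - 9 * i + f) ^ 2 := by positivity

private theorem part04_12 {r p m n i e f c7 c8 c10 c11 c12 : ℝ} (hr : 0 ≤ r) (hp : 0 ≤ p) (hm : 0 ≤ m) (hn : 0 ≤ n) (hi : 0 ≤ i) (he : 0 ≤ e) (hf : 0 ≤ f) (hc7 : 0 ≤ c7) (hc8 : 0 ≤ c8) (hc10 : 0 ≤ c10) (hc11 : 0 ≤ c11) (hc12 : 0 ≤ c12) :
    0 ≤ 129549 * m * i * (-1 + 20 * r - 10 * p + 2 * m + 2 * n - 2 * i - 2 * e + 4 * f) ^ 2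
      + 23505 * c11 * c12 * (3 * r - p - 3 * m + 10 * i + 2 * e - 3 * f) ^ 2
      + 1249602 * c8 * (4 + 3 * r - 10 * p + 3 * m - 4 * n - i + 2 * f) ^ 2
      + 70096659 * e * e * c8 * c8
      + 397608 * c10 * (-9 * r + 8 * p + 8 * m - 8 * n + 2 * i + 10 * e - f) ^ 2
      + 448917 * n * c10 * (4 - 19 * r + 10 * p + 3 * n + i - 9 * e + 2 * f) ^ 2
      + 13590822 * f * c7 * c11 * c11
      + 33984552 * c8 * c10 * c12
      + 96813 * i * c10 * (-r - 9 * p + 9 * n + 10 * i - 7 * e + f) ^ 2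
      + 1300746 * i * c8 * (-4 + 7 * r + 3 * p - m + 4 * e - 2 * f) ^ 2
      + 43167 * e * c8 * (-3 + 14 * r - 4 * p + 10 * m - 4 * n + 10 * e) ^ 2
      + 321357 * c8 * c8 * (-7 + 2 * r + 8 * p + 9 * m + 9 * f) ^ 2
      + 71181063 * r * i * e * c8
      + 272223 * r * e * (-2 - 14 * r + 9 * p + 5 * m + 9 * n - 10 * i + 5 * e) ^ 2
      + 1576656 * r * c7 * c8
      + 45835875 * n * n * i * c11
      + 695028 * c8 * (-9 * r + p + 10 * m - n - 8 * i - e - 2 * f) ^ 2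
      + 322515 * p * n * (4 + 4 * r - 6 * p - m - 10 * n + 4 * i - 4 * e + 3 * f) ^ 2
      + 24728328 * i * i * c11
      + 110742 * e * c11 * (8 + 16 * r - 10 * p + 5 * m + 3 * n - 2 * i + e) ^ 2 := by positivity

private theorem part04_13 {r p m n i e f c7 c8 c9 c10 c11 c12 : ℝ} (hr : 0 ≤ r) (hp : 0 ≤ p) (hm : 0 ≤ m) (hn : 0 ≤ n) (hi : 0 ≤ i) (he : 0 ≤ e) (hf : 0 ≤ f) (hc7 : 0 ≤ c7) (hc8 : 0 ≤ c8) (hc9 : 0 ≤ c9) (hc10 : 0 ≤ c10) (hc11 : 0 ≤ c11) (hc12 : 0 ≤ c12) :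
    0 ≤ 2624730 * m * c10 * (-10 + 8 * r + p + 10 * m + 2 * n + 2 * i + 3 * e + f) ^ 2
      + 119712 * e * c7 * (-5 * m + 6 * e - 10 * f) ^ 2
      + 355515 * f * c8 * (2 - 16 * r + 6 * p + 2 * m - 9 * n + 5 * i + 3 * f) ^ 2
      + 558834 * c7 * c9 * (5 * r - 3 * p + 10 * m + 3 * n - 9 * i + 3 * e + f) ^ 2
      + 138464412 * r * r * c8 * c11
      + 2310306 * m * f * (-5 + 13 * r - 3 * p + 2 * m + 10 * n - 5 * i + 2 * f) ^ 2
      + 245288133 * r * e * c9 * c10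
      + 281543190 * i * e * c8
      + 47315436 * e * c8 * c12
      + 38772462 * p * p * e * c11
      + 577011 * f * c8 * (5 + 7 * r - 9 * p + m - 10 * n - 2 * i + f) ^ 2
      + 79275780 * p * p * c8 * c10
      + 66483 * f * c11 * (2 + 3 * r - 5 * p + 10 * m - 9 * n + 8 * i - 7 * e + 5 * f) ^ 2
      + 129223275 * f * c7 * c10
      + 637488 * r * i * (2 + 13 * r - 8 * p - 2 * m + 5 * n - 10 * i - 2 * e + 3 * f) ^ 2
      + 495996 * e * e * (6 * r - 5 * p + 9 * m - 3 * n - 10 * i + 9 * e) ^ 2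
      + 440040 * n * e * (1 - 7 * r + 5 * p - 10 * m + 4 * n + 8 * i - 10 * e) ^ 2
      + 602502 * p * f * (-3 + 16 * r - 6 * p + 3 * m + 7 * n - 7 * i + 3 * f) ^ 2
      + 155616 * f * c7 * (3 + 16 * r - 10 * p - 7 * m + 2 * n + i - 2 * e - 5 * f) ^ 2
      + 78736791 * p * m * c11 * c12 := by positivity

private theorem part04_14 {r p m n i e f c7 c8 c9 c10 c11 c12 : ℝ} (hr : 0 ≤ r) (hp : 0 ≤ p) (hm : 0 ≤ m) (hn : 0 ≤ n) (hi : 0 ≤ i) (he : 0 ≤ e) (hf : 0 ≤ f) (hc7 : 0 ≤ c7) (hc8 : 0 ≤ c8) (hc9 : 0 ≤ c9) (hc10 : 0 ≤ c10) (hc11 : 0 ≤ c11) (hc12 : 0 ≤ c12) :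
    0 ≤ 32126157 * p * n * c11 * c12
      + 19608810 * i * c10 * c12 * c12
      + 7215 * n * c11 * (2 + 13 * r - 10 * p + m - 2 * n + e) ^ 2
      + 43894827 * c7 * c7 * c7 * c10
      + 296604 * m * f * (3 + 12 * r - 9 * p + 3 * m - 10 * n + i + 3 * f) ^ 2
      + 459804 * m * e * (-3 + 16 * r - 6 * p + 4 * m - 6 * n + 7 * i - 5 * e + 9 * f) ^ 2
      + 28262427 * f * c7 * c8
      + 349023 * i * e * (1 + 11 * r - 7 * p + 3 * m + 4 * n - 10 * i + 2 * e + f) ^ 2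
      + 1707126 * c7 * (p - 10 * m - n - i + 9 * e + 9 * f) ^ 2
      + 342114 * p * e * (-1 + 14 * r - 7 * p + 4 * m + 6 * n - 10 * i + e + 3 * f) ^ 2
      + 452193 * r * c8 * (-6 - 7 * r + 10 * p + 3 * m + 6 * n - e + 3 * f) ^ 2
      + 913668 * n * c9 * (-4 + 5 * r + p + m + 10 * n - 5 * i + 2 * e) ^ 2
      + 1041894 * e * f * (-4 * r + 3 * p + 6 * m + 3 * n - 10 * i + 2 * e + 5 * f) ^ 2
      + 3202185 * c8 * c8 * (-10 * i - e) ^ 2
      + 519381 * r * c11 * (-13 * r + 3 * p - 2 * m - 4 * n + 7 * i - 4 * e + 6 * f) ^ 2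
      + 75383271 * e * c8 * c10
      + 218547 * c8 * (-8 * r + 7 * p + 5 * m - 10 * n - 3 * i + 5 * e) ^ 2
      + 149236368 * p * e * f * c11
      + 155175 * p * p * (17 * r - 7 * p - 6 * m + 2 * n - i - 7 * e + 3 * f) ^ 2
      + 47332209 * e * c11 * c12 := by positivity

private theorem part04_15 {r p m n i e f c7 c8 c9 c10 c11 : ℝ} (hr : 0 ≤ r) (hp : 0 ≤ p) (hm : 0 ≤ m) (hn : 0 ≤ n) (hi : 0 ≤ i) (he : 0 ≤ e) (hf : 0 ≤ f) (hc7 : 0 ≤ c7) (hc8 : 0 ≤ c8) (hc9 : 0 ≤ c9) (hc10 : 0 ≤ c10) (hc11 : 0 ≤ c11) :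
    0 ≤ 442245 * r * c8 * (-1 + 14 * r - 8 * p - 4 * m + 10 * n - 10 * i - 5 * e + f) ^ 2
      + 38146269 * i * f * c11
      + 23865420 * e * f * c8
      + 42858 * c9 * c11 * (-2 - 5 * r + 10 * p + 3 * m + 5 * n + 3 * f) ^ 2
      + 1123032 * n * e * (-2 - 16 * r + 10 * p + 5 * m - 3 * n + 3 * i + 5 * e - f) ^ 2
      + 286128 * e * f * (1 - 2 * r + 3 * m - 4 * n + 10 * e - 9 * f) ^ 2
      + 237609 * n * i * (-1 - 7 * r + 4 * p + 2 * m - 10 * n + 9 * i - e + 4 * f) ^ 2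
      + 69797175 * r * i * c9 * c11
      + 210504 * e * f * (-1 - 17 * r + 10 * p + 4 * m - 8 * n + 7 * i + 3 * e + f) ^ 2
      + 326358219 * i * i * f * c8
      + 189081 * c8 * c11 * (14 * r - 10 * p) ^ 2
      + 206706996 * i * c8 * c8
      + 2295 * e * c11 * (10 + r + 2 * m + 6 * n + 6 * i - 7 * e + 8 * f) ^ 2
      + 79411833 * m * e * c8 * c9
      + 82545 * r * e * (17 * r - 10 * p + 7 * m - 4 * n - 6 * i + 5 * e + 2 * f) ^ 2
      + 6960687 * r * e * c8 * c8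
      + 143950812 * r * n * e * c11
      + 2478171 * p * c8 * (p - n - 10 * i + e - f) ^ 2
      + 29501073 * i * c7 * c8 * c10
      + 1779 * i * c9 * (-1 - 4 * r + 3 * p + 2 * m - 10 * n + 9 * i + 2 * f) ^ 2 := by positivity

private theorem part04_16 {r p m n i e f c7 c8 c11 : ℝ} (hr : 0 ≤ r) (hp : 0 ≤ p) (hm : 0 ≤ m) (hn : 0 ≤ n) (hi : 0 ≤ i) (he : 0 ≤ e) (hf : 0 ≤ f) (hc7 : 0 ≤ c7) (hc8 : 0 ≤ c8) (hc11 : 0 ≤ c11) :
    0 ≤ 243018363 * r * n * c8 * c11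
      + 230967 * f * c7 * (-5 * r + 2 * p + 10 * m - 9 * n - 2 * i + 3 * e + 8 * f) ^ 2
      + 391311 * m * f * (-6 + 14 * r - 4 * p + 9 * m + 3 * n - 7 * i + 9 * f) ^ 2
      + 11559 * c7 * (-1 + 3 * r - p + 10 * m - 3 * n - 5 * i + 10 * f) ^ 2
      + 438327 * i * f * (1 + 10 * r - 6 * p + 8 * n - 10 * i) ^ 2
      + 34611 * f * f * (3 - 15 * r + 5 * p - 2 * m - 7 * n + 5 * i - 2 * f) ^ 2
      + 3497 * r * n * n
      + 2483 * r * r * i
      + 3407 * r * p * p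
      + 2723 * r * m
      + 2999 * r * m * m
      + 2090 * r * n * e
      + 2939 * r * n * f
      + 2878 * r * n
      + 2896 * r * e
      + 2719 * r * f
      + 2954 * r * r
      + 2521 * r * p * m
      + 4303 * r * m * e
      + 3704 * r * m * f := by positivity

private theorem part04_17 {r p m n i e f : ℝ} (hr : 0 ≤ r) (hp : 0 ≤ p) (hm : 0 ≤ m) (hn : 0 ≤ n) (hi : 0 ≤ i) (he : 0 ≤ e) (hf : 0 ≤ f) :
    0 ≤ 3428 * r * r * m
      + 2714 * n * n
      + 3243 * r * i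
      + 2158 * p * p
      + 3224 * m
      + 2703 * m * m
      + 3490 * n * e
      + 2809 * n * f
      + 3057 * n
      + 2845 * e
      + 3132 * f
      + 2583 * p * m
      + 3363 * m * e
      + 2631 * m * f
      + 2820 * m * n * n
      + 3905 * r * m * i
      + 3960 * p * p * m
      + 3435 * m * m * m
      + 1587 * m * n * e
      + 2796 * m * n * f := by positivity

private theorem part04_18 {r p m n i e f : ℝ} (hr : 0 ≤ r) (hp : 0 ≤ p) (hm : 0 ≤ m) (hn : 0 ≤ n) (hi : 0 ≤ i) (he : 0 ≤ e) (hf : 0 ≤ f) :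
    0 ≤ 3060 * m * n
      + 3024 * p * m * m
      + 2767 * m * m * e
      + 3243 * m * m * f
      + 2700 * r * m * n * n
      + 1515 * r * r * m * i
      + 2706 * r * p * p * m
      + 2598 * r * m * m * m
      + 4296 * r * m * n * e
      + 2283 * r * m * n * f
      + 3327 * r * m * n
      + 3000 * r * p * m * m
      + 2604 * r * m * m * e
      + 3654 * r * m * m * f
      + 3756 * r * r * m * m
      + 3522 * p
      + 2622 * p * n
      + 2971 * i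
      + 3072 * p * i
      + 3240 * p * e := by positivity

private theorem part04_19 {p n i e f : ℝ} (hp : 0 ≤ p) (hn : 0 ≤ n) (hi : 0 ≤ i) (he : 0 ≤ e) (hf : 0 ≤ f) :
    0 ≤ 2550 * p * f
      + 2929 * n * i
      + 3044 * i * i
      + 3058 * i * e
      + 3010 * i * f
      + 2984 * e * e
      + 3151 * e * f
      + 2876 * f * f
      + 3232 * p * n * n
      + 2810 * p * n * i
      + 2483 * p * n * e
      + 3026 * p * n * f
      + 2665 * p * i * i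
      + 2390 * p * i * e
      + 3020 * p * i * f
      + 2923 * p * e * e
      + 3278 * p * e * f
      + 3031 * p * f * f
      + 2919
      + 3697 * p * p * p := by positivity

private theorem part04_20 {r p m n i e f : ℝ} (hr : 0 ≤ r) (hp : 0 ≤ p) (hm : 0 ≤ m) (hn : 0 ≤ n) (hi : 0 ≤ i) (he : 0 ≤ e) (hf : 0 ≤ f) :
    0 ≤ 3245 * p * p * n
      + 2819 * p * p * i
      + 2669 * p * p * e
      + 3494 * p * p * f
      + 2787 * m * i
      + 2101 * r * r * e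
      + 2911 * m * m * i
      + 3411 * r * r * r * i
      + 3618 * r * r * p * i
      + 3435 * r * p * m * i
      + 2874 * r * m * m * i
      + 2511 * r * r * n * i
      + 4167 * r * m * n * i
      + 2520 * r * r * i * i
      + 2715 * r * m * i * i
      + 2334 * r * r * i * e
      + 2286 * r * m * i * e
      + 2937 * r * r * i * f
      + 2412 * r * m * i * f
      + 2340 * r * p * p * i := by positivity

private theorem part04_21 {r p m n i e f : ℝ} (hr : 0 ≤ r) (hp : 0 ≤ p) (hm : 0 ≤ m) (hn : 0 ≤ n) (hi : 0 ≤ i) (he : 0 ≤ e) (hf : 0 ≤ f) :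
    0 ≤ 2994 * p * p * m * i
      + 3069 * p * m * m * i
      + 3945 * r * p * n * i
      + 3363 * p * m * n * i
      + 2820 * r * p * i * i
      + 3000 * p * m * i * i
      + 1956 * r * p * i * e
      + 3795 * p * m * i * e
      + 1935 * r * p * i * f
      + 3936 * p * m * i * f
      + 2349 * m * m * m * i
      + 3471 * m * m * n * i
      + 3657 * m * m * i * i
      + 3444 * m * m * i * e
      + 3228 * m * m * i * f
      + 1758 * r * n * n * i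
      + 3744 * m * n * n * i
      + 3288 * r * n * i * i
      + 2559 * m * n * i * i
      + 1974 * r * n * i * e := by positivity

private theorem part04_22 {r p m n i e f : ℝ} (hr : 0 ≤ r) (hp : 0 ≤ p) (hm : 0 ≤ m) (hn : 0 ≤ n) (hi : 0 ≤ i) (he : 0 ≤ e) (hf : 0 ≤ f) :
    0 ≤ 3390 * m * n * i * e
      + 2517 * r * n * i * f
      + 3756 * m * n * i * f
      + 3249 * r * i * i * i
      + 2385 * m * i * i * i
      + 3459 * r * i * i * e
      + 3486 * m * i * i * e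
      + 3096 * r * i * i * f
      + 3318 * m * i * i * f
      + 2817 * r * i * e * e
      + 2655 * m * i * e * e
      + 1839 * r * i * e * f
      + 3378 * m * i * e * f
      + 3228 * r * i * f * f
      + 3093 * m * i * f * f
      + 4173 * r * p * e
      + 3279 * r * p * f
      + 1614 * p * m * e
      + 3318 * p * m * f
      + 3408 * m * m * n := by positivity

private theorem part04_23 {r p m i e f : ℝ} (hr : 0 ≤ r) (hp : 0 ≤ p) (hm : 0 ≤ m) (hi : 0 ≤ i) (he : 0 ≤ e) (hf : 0 ≤ f) :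
    0 ≤ 4311 * r * i * e
      + 3393 * r * i * f
      + 1986 * m * i * e
      + 1818 * m * i * f
      + 3354 * r * e * e
      + 2892 * r * e * f
      + 3456 * m * e * e
      + 2184 * m * e * f
      + 3633 * r * f * f
      + 2853 * m * f * f
      + 2019 * r * p * p * e
      + 2064 * r * p * p * f
      + 2832 * p * p * m * m
      + 3132 * p * p * m * e
      + 2619 * p * p * m * f
      + 3324 * r * p * m * e
      + 3567 * r * p * m * f
      + 3231 * p * m * m * m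
      + 2922 * p * m * m * e
      + 2565 * p * m * m * f := by positivity

private theorem part04_24 {r p m n e f : ℝ} (hr : 0 ≤ r) (hp : 0 ≤ p) (hm : 0 ≤ m) (hn : 0 ≤ n) (he : 0 ≤ e) (hf : 0 ≤ f) :
    0 ≤ 2508 * r * p * m * n
      + 3669 * r * p * n * e
      + 5013 * r * p * n * f
      + 3369 * p * m * m * n
      + 4326 * p * m * n * e
      + 3699 * p * m * n * f
      + 2382 * r * p * e * e
      + 2703 * r * p * e * f
      + 3015 * p * m * e * e
      + 3480 * p * m * e * f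
      + 3189 * r * p * f * f
      + 2592 * p * m * f * f
      + 2802 * m * m * m * m
      + 3078 * m * m * m * e
      + 2514 * m * m * m * f
      + 2394 * r * m * m * n
      + 2985 * m * m * m * n
      + 2916 * m * m * n * e
      + 2850 * m * m * n * f
      + 2328 * r * m * e * e := by positivity

private theorem part04_25 {r m n e f : ℝ} (hr : 0 ≤ r) (hm : 0 ≤ m) (hn : 0 ≤ n) (he : 0 ≤ e) (hf : 0 ≤ f) :
    0 ≤ 3657 * r * m * e * f
      + 3024 * m * m * e * e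
      + 3126 * m * m * e * f
      + 3834 * r * m * f * f
      + 3249 * m * m * f * f
      + 3864 * r * n * n * e
      + 2556 * r * n * n * f
      + 2886 * m * m * n * n
      + 3447 * m * n * n * e
      + 3018 * m * n * n * f
      + 2133 * r * n * e * e
      + 2607 * r * n * e * f
      + 3246 * m * n * e * e
      + 3591 * m * n * e * f
      + 2697 * r * n * f * f
      + 2691 * m * n * f * f
      + 3165 * r * e * e * e
      + 3201 * r * e * e * f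
      + 3096 * m * e * e * e
      + 257625171 * m * e * e * f := by positivity

private theorem part04_26 {r p m n i e f : ℝ} (hr : 0 ≤ r) (hp : 0 ≤ p) (hm : 0 ≤ m) (hn : 0 ≤ n) (hi : 0 ≤ i) (he : 0 ≤ e) (hf : 0 ≤ f) :
    0 ≤ 3120 * r * f * f * f
      + 2328 * m * f * f * f
      + 3531 * r * r * f
      + 3249 * n * n * f
      + 2754 * n * i * f
      + 2340 * n * e * f
      + 3189 * n * f * f
      + 2802 * i * i * f
      + 7773753 * i * e * f
      + 2748 * i * f * f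
      + 3057 * e * e * f
      + 3255 * e * f * f
      + 3024 * f * f * f
      + 3030 * r * p * i
      + 3282 * r * n * i
      + 2973 * r * i * i
      + 2310 * r * r * r * m
      + 3036 * r * r * r * e
      + 3048 * r * r * r * f
      + 3309 * r * r * m * e := by positivity

private theorem part04_27 {r p m n i e f : ℝ} (hr : 0 ≤ r) (hp : 0 ≤ p) (hm : 0 ≤ m) (hn : 0 ≤ n) (hi : 0 ≤ i) (he : 0 ≤ e) (hf : 0 ≤ f) :
    0 ≤ 1647 * r * r * m * f
      + 3408 * r * r * e * e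
      + 3216 * r * r * e * f
      + 2148 * r * r * f * f
      + 2805 * r * e * f * f
      + 2607 * m * e * f * f
      + 2637 * p * m * n
      + 3162 * p * m * i
      + 3435 * r * r * p * m
      + 2769 * p * p * p * m
      + 2646 * p * p * m * n
      + 3786 * p * m * n * n
      + 2889 * p * p * e * f
      + 3465 * p * n * e * f
      + 3939 * p * i * e * f
      + 2961 * p * e * e * f
      + 16561113 * n * n * e * f
      + 2622 * n * i * e * f
      + 3129 * n * e * e * f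
      + 2586 * i * i * e * f := by positivity

private theorem part04_28 {r p n i e f : ℝ} (hr : 0 ≤ r) (hp : 0 ≤ p) (hn : 0 ≤ n) (hi : 0 ≤ i) (he : 0 ≤ e) (hf : 0 ≤ f) :
    0 ≤ 3027 * i * e * e * f
      + 2805 * e * e * e * f
      + 3024 * r * r * p * e
      + 3219 * r * r * n * e
      + 3303 * p * p * p * e
      + 3144 * p * p * n * e
      + 3903 * p * p * i * e
      + 2253 * n * n * e
      + 3054 * p * n * n * e
      + 3516 * n * i * e
      + 3303 * p * n * i * e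
      + 2640 * i * i * e
      + 2877 * p * i * i * e
      + 3246 * p * e * f * f
      + 2757 * n * e * e
      + 3000 * i * e * e
      + 3123 * p * n * e * e
      + 3276 * p * i * e * e
      + 3486 * n * n * n * e
      + 2025 * n * n * i * e := by positivity

private theorem part04_29 {r p n i e f : ℝ} (hr : 0 ≤ r) (hp : 0 ≤ p) (hn : 0 ≤ n) (hi : 0 ≤ i) (he : 0 ≤ e) (hf : 0 ≤ f) :
    0 ≤ 3150 * n * i * i * e
      + 2796 * n * n * e * e
      + 3489 * n * i * e * e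
      + 2928 * i * i * i * e
      + 2835 * i * i * e * e
      + 3096 * e * e * e
      + 3471 * n * e * e * e
      + 2859 * i * e * e * e
      + 2691 * n * e * f * f
      + 181775181 * i * e * f * f
      + 3765 * r * r * p * f
      + 2925 * p * p * p * f
      + 2301 * p * p * n * f
      + 3549 * p * p * i * f
      + 3210 * p * p * e * e
      + 3027 * p * p * f * f
      + 2883 * p * n * n * f
      + 2733 * p * n * i * f
      + 3075 * p * n * f * f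
      + 3222 * p * i * i * f := by positivity

private theorem part04_30 {r p m n i e f : ℝ} (hr : 0 ≤ r) (hp : 0 ≤ p) (hm : 0 ≤ m) (hn : 0 ≤ n) (hi : 0 ≤ i) (he : 0 ≤ e) (hf : 0 ≤ f) :
    0 ≤ 2907 * p * i * f * f
      + 2934 * p * e * e * e
      + 2928 * p * f * f * f
      + 3165 * n * n * f * f
      + 3396 * n * i * f * f
      + 3129 * n * f * f * f
      + 3186 * i * i * f * f
      + 3114 * i * f * f * f
      + 3327 * e * e * f * f
      + 2991 * e * f * f * f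
      + 3228 * f * f * f * f
      + 3306 * r * r * m * n
      + 2547 * r * r * n * f
      + 2874 * m * n * n * n
      + 3078 * n * n * n * f
      + 3507 * n * n * i * f
      + 3099 * n * i * i * f
      + 2985 * r
      + 2529 * r * p
      + 3330 * r * r * r := by positivity

private theorem part04_31 {r p m n i f : ℝ} (hr : 0 ≤ r) (hp : 0 ≤ p) (hm : 0 ≤ m) (hn : 0 ≤ n) (hi : 0 ≤ i) (hf : 0 ≤ f) :
    0 ≤ 3153 * r * r * p
      + 3546 * r * r * n
      + 3618 * r * p * n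
      + 3042 * r * r * r * r
      + 3090 * r * r * r * p
      + 3114 * r * r * p * p
      + 2307 * r * p * p * p
      + 2958 * r * r * r * n
      + 2877 * r * r * p * n
      + 2889 * r * p * p * n
      + 3069 * p * p * p * p
      + 2568 * p * p * p * n
      + 3345 * r * r * n * n
      + 2979 * r * p * n * n
      + 3246 * p * p * n * n
      + 1617 * m * n * i
      + 3306 * m * i * i
      + 3120 * i * i * i * f
      + 2910 * p * p * n * i
      + 2910 * r * n * n * n := by positivity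

private theorem part04_32 {p n i e : ℝ} (hp : 0 ≤ p) (hn : 0 ≤ n) (hi : 0 ≤ i) (he : 0 ≤ e) :
    0 ≤ 3165 * p * p * p * i
      + 2946 * n * n * i
      + 3177 * p * n * n * i
      + 3183 * n * n * n
      + 2982 * p * n * n * n
      + 3129 * n * n * n * n
      + 2835 * n * n * n * i
      + 3360 * p * n * i * i
      + 3366 * p * p * i * i
      + 2973 * p * i * i * i
      + 2931 * n * i * i
      + 3204 * i * i * i
      + 3036 * n * n * i * i
      + 2733 * n * i * i * i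
      + 2928 * i * i * i * i
      + 2889 * e * e * e * e := by positivity

theorem leaf04 {r p m n i e f : ℝ} (h0 : 0 ≤ r) (h1 : 0 ≤ p) (h2 : 0 ≤ m) (h3 : 0 ≤ n) (h4 : 0 ≤ i) (h5 : 0 ≤ e) (h6 : 0 ≤ f) (h7 : 0 ≤ r - m) (h8 : 0 ≤ 1 - r - p) (h9 : 0 ≤ 1 - m - n - i) (h10 : 0 ≤ m - e - f) (h11 : 0 ≤ p - n - i - e - f) (h12 : 0 ≤ 1 - m - 2 * n) :
    0 ≤ 75000000 - 348000000 * p + 192500000 * m - 120000000 * n + 212500000 * i - 87500000 * e - 120000000 * f + 95000000 * r * r - 475000000 * r * m + 190000000 * r * n - 327000000 * r * i + 163000000 * r * e + 190000000 * r * f + 568000000 * p * p - 300000000 * p * m + 330000000 * p * n + 330000000 * p * i + 330000000 * p * e + 330000000 * p * f + 626250000 * m * m - 585000000 * m * n + 120000000 * m * i - 165000000 * m * e - 285000000 * m * f + 23750000 * n * n - 552500000 * n * i - 252500000 * n * e - 252500000 * n * f - 276250000 * i * i - 552500000 * i * e - 552500000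 * i * f - 276250000 * e * e - 552500000 * e * f - 276250000 * f * f + 485000000 * r * r * m - 10000000 * r * r * i - 200000000 * r * r * e - 190000000 * r * p * p + 190000000 * r * p * m - 793750000 * r * m * m + 675000000 * r * m * n - 985000000 * r * m * i + 85000000 * r * m * e + 485000000 * r * m * f - 190000000 * r * n * n - 190000000 * r * n * e - 190000000 * r * n * f - 200000000 * p * p * p + 585000000 * p * p * m - 400000000 * p * p * n - 400000000 * p * p * i - 400000000 * p * p * e - 400000000 * p * p * f - 585000000 * p * m * m + 148750000 * p * n * n + 297500000 * p * n * i + 297500000 * p * n * e + 297500000 * p * n * f + 148750000 * p * i * i + 297500000 * p * i * e + 297500000 * p * i * f + 148750000 * p * e * e + 297500000 * p * e * f + 148750000 * p * f * f - 1170000000 * m * m * m + 220000000 * m * m * i + 805000000 * m * m * e + 585000000 * m * m * f + 585000000 * m * n * n + 585000000 * m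 * n * e + 585000000 * m * n * f - 195000000 * r * r * m * m + 675000000 * r * r * m * i - 675000000 * r * p * p * m + 1635000000 * r * p * m * m + 1350000000 * r * m * m * m - 675000000 * r * m * m * e - 675000000 * r * m * m * f - 675000000 * r * m * n * n - 675000000 * r * m * n * e - 675000000 * r * m * n * f := by
  have t0 := part04_0 h0 h1 h2 h3 h4 h5 h6 h7 h8 h9 h10 h11 h12
  have t1 := part04_1 (r := r) h1 h2 h3 h4 h5 h6 h7 h8 h9 h10 h11 h12
  have t2 := part04_2 h0 h1 h2 h3 h4 h5 h6 h7 h8 h10 h11 h12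
  have t3 := part04_3 (m := m) h0 h1 h3 h4 h5 h6 h7 h8 h10 h11 h12
  have t4 := part04_4 h0 h1 h2 h3 h4 h5 h6 h7 h8 h10 h11 h12
  have t5 := part04_5 h0 h1 h2 h3 h4 h5 h6 h7 h8 h10 h11 h12
  have t6 := part04_6 h0 h1 h2 h3 h4 h5 h6 h7 h8 h10 h11
  have t7 := part04_7 h0 h1 h2 h3 h4 h5 h6 h7 h8 h9 h10 h11 h12
  have t8 := part04_8 h0 h1 h2 h3 h4 h5 h6 h7 h8 h9 h10 h11
  have t9 := part04_9 h0 h1 h2 h3 h4 h5 h6 h7 h8 h9 h10 h11 h12
  have t10 := part04_10 h0 h1 h2 h3 h4 h5 h6 h7 h8 h9 h10 h11 h12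
  have t11 := part04_11 h0 h1 h2 h3 h4 h5 h6 h7 h8 h9 h10 h11 h12
  have t12 := part04_12 h0 h1 h2 h3 h4 h5 h6 h7 h8 h10 h11 h12
  have t13 := part04_13 h0 h1 h2 h3 h4 h5 h6 h7 h8 h9 h10 h11 h12
  have t14 := part04_14 h0 h1 h2 h3 h4 h5 h6 h7 h8 h9 h10 h11 h12
  have t15 := part04_15 h0 h1 h2 h3 h4 h5 h6 h7 h8 h9 h10 h11
  have t16 := part04_16 h0 h1 h2 h3 h4 h5 h6 h7 h8 h11
  have t17 := part04_17 h0 h1 h2 h3 h4 h5 h6
  have t18 := part04_18 h0 h1 h2 h3 h4 h5 h6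
  have t19 := part04_19 h1 h3 h4 h5 h6
  have t20 := part04_20 h0 h1 h2 h3 h4 h5 h6
  have t21 := part04_21 h0 h1 h2 h3 h4 h5 h6
  have t22 := part04_22 h0 h1 h2 h3 h4 h5 h6
  have t23 := part04_23 h0 h1 h2 h4 h5 h6
  have t24 := part04_24 h0 h1 h2 h3 h5 h6
  have t25 := part04_25 h0 h2 h3 h5 h6
  have t26 := part04_26 h0 h1 h2 h3 h4 h5 h6
  have t27 := part04_27 h0 h1 h2 h3 h4 h5 h6
  have t28 := part04_28 h0 h1 h3 h4 h5 h6
  have t29 := part04_29 h0 h1 h3 h4 h5 h6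
  have t30 := part04_30 h0 h1 h2 h3 h4 h5 h6
  have t31 := part04_31 h0 h1 h2 h3 h4 h6
  have t32 := part04_32 h1 h3 h4 h5
  linarith only [t0, t1, t2, t3, t4, t5, t6, t7, t8, t9, t10, t11, t12, t13, t14, t15, t16, t17, t18, t19, t20, t21, t22, t23, t24, t25, t26, t27, t28, t29, t30, t31, t32]

end Vale.Agent.P038.K4
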