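import Mathlib

/-
P038: one corner of the polynomial inequality for K4-free graphs (exact nonnegativity certificate).
-/

namespace Vale.Agent.P038.K4

private theorem part05_0 {r p m n i e f c7 c8 c9 c10 c11 c12 : ℝ} (hr : 0 ≤ r) (hp : 0 ≤ p) (hm : 0 ≤ m) (hn : 0 ≤ n) (hi : 0 ≤ i) (he : 0 ≤ e) (hf : 0 ≤ f) (hc7 : 0 ≤ c7) (hc8 : 0 ≤ c8) (hc9 : 0 ≤ c9) (hc10 : 0 ≤ c10) (hc11 : 0 ≤ c11) (hc12 : 0 ≤ c12) :
    0 ≤ 94406733 * r * i * c11
      + 456762 * i * i * (-4 + r + 3 * p + 4 * m - 3 * n + 10 * i) ^ 2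
      + 431712 * m * m * e * c7
      + 199570350 * p * f * c8
      + 427378734 * e * c7 * c7
      + 86317689 * r * i * i * c12
      + 157467 * n * (-3 + 14 * r - 10 * p + 5 * m - n - 2 * i) ^ 2
      + 99572661 * n * i * c7 * c7
      + 27002574 * p * m * m * c11
      + 19080714 * e * c8 * c10
      + 1365981 * r * p * (6 + 2 * r - 10 * p - 8 * m - n + i - 3 * e) ^ 2
      + 30933915 * m * i * f * c12
      + 92898 * c7 * c9 * (-7 + 9 * r - 5 * p + 6 * m - 10 * n + 6 * i - e + f) ^ 2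
      + 154960602 * p * i * c8
      + 113194323 * m * i * i * c8
      + 342824598 * r * r * c7 * c8
      + 363057546 * e * c11
      + 7080996 * r * i * i * c9
      + 127704 * r * m * (-2 * r + 2 * m - e + 10 * f) ^ 2
      + 916299 * c8 * (8 + r - 10 * p - 9 * m - n + 4 * i - e) ^ 2 := by positivity

private theorem part05_1 {r p m n i e f c7 c8 c9 c10 c11 c12 : ℝ} (hr : 0 ≤ r) (hp : 0 ≤ p) (hm : 0 ≤ m) (hn : 0 ≤ n) (hi : 0 ≤ i) (he : 0 ≤ e) (hf : 0 ≤ f) (hc7 : 0 ≤ c7) (hc8 : 0 ≤ c8) (hc9 : 0 ≤ c9) (hc10 : 0 ≤ c10) (hc11 : 0 ≤ c11) (hc12 : 0 ≤ c12) :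
    0 ≤ 7468917 * n * c7 * c10
      + 1341249 * r * c10 * (-8 + 7 * r - 2 * p + 9 * m + n + 10 * i + 4 * e + f) ^ 2
      + 18188919 * p * c8 * c11
      + 14832966 * n * n * f * c12
      + 337523514 * r * n * c7
      + 184612599 * e * c8
      + 266095206 * f * c11
      + 1421073 * e * e * f * c7
      + 68941128 * n * c7 * c12
      + 205016823 * p * e * c8
      + 28623444 * m * n * n * c9
      + 229635 * c11 * c12 * (1 + 7 * r - 10 * p - 5 * m + 5 * n + 6 * i - 3 * e - f) ^ 2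
      + 31889994 * e * e * e * c10
      + 20557653 * n * i * i * c11
      + 19461381 * p * m * f * c8
      + 426744966 * r * c7 * c11
      + 74418474 * p * c8 * c12 * c12
      + 390264 * n * i * (-6 + 5 * r - 3 * p + 10 * m - 8 * n + 8 * i - e + 2 * f) ^ 2
      + 11129463 * p * n * c7
      + 93703749 * i * c8 * c12 := by positivity

private theorem part05_2 {r p m n i e f c7 c8 c10 c11 c12 : ℝ} (hr : 0 ≤ r) (hp : 0 ≤ p) (hm : 0 ≤ m) (hn : 0 ≤ n) (hi : 0 ≤ i) (he : 0 ≤ e) (hf : 0 ≤ f) (hc7 : 0 ≤ c7) (hc8 : 0 ≤ c8) (hc10 : 0 ≤ c10) (hc11 : 0 ≤ c11) (hc12 : 0 ≤ c12) :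
    0 ≤ 123837003 * r * e * c8
      + 83978337 * p * m * i * c8
      + 50161773 * r * n * c7 * c7
      + 22733235 * e * e * c7
      + 88035 * i * (-10 + 3 * r + 4 * p + 7 * m + 3 * n + 9 * i) ^ 2
      + 276998328 * p * m * n * c7
      + 41954190 * p * i * i * c8
      + 214515 * r * r * (e + 10 * f) ^ 2
      + 598092 * i * i * (-3 - 7 * r + 4 * p + 10 * m - 7 * n - 4 * i + 4 * e + 2 * f) ^ 2
      + 713433 * m * c8 * (-5 + 12 * r - 10 * p + 2 * m - 6 * i) ^ 2
      + 9821790 * r * c10 * c10 * c11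
      + 22247571 * m * i * i * c12
      + 34290234 * c8 * c12 * c12
      + 437820 * m * n * (4 - 2 * r + p + 10 * n - 8 * i - 4 * e) ^ 2
      + 11252862 * i * e * e * c10
      + 302238 * c7
      + 67987770 * i * i * i * c11
      + 134842068 * m * m * i * c7
      + 28970217 * p * f * f * c8
      + 504405 * r * n * (-4 + 19 * r - 10 * p + 9 * m - n - 2 * i) ^ 2 := by positivity

private theorem part05_3 {r p m n i e f c7 c8 c9 c10 c12 : ℝ} (hr : 0 ≤ r) (hp : 0 ≤ p) (hm : 0 ≤ m) (hn : 0 ≤ n) (hi : 0 ≤ i) (he : 0 ≤ e) (hf : 0 ≤ f) (hc7 : 0 ≤ c7) (hc8 : 0 ≤ c8) (hc9 : 0 ≤ c9) (hc10 : 0 ≤ c10) (hc12 : 0 ≤ c12) :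
    0 ≤ 47550 * c12 * (3 - 13 * r + 10 * p - 3 * m + 7 * i) ^ 2
      + 1473354 * r * c7
      + 75687 * e * (8 - r - 7 * p - 8 * m - 5 * n - 10 * e) ^ 2
      + 137250759 * r * f * c8 * c9
      + 65907948 * r * p * f * c7
      + 285090 * c10 * (4 - 14 * r + 10 * p - 4 * m + 6 * i) ^ 2
      + 625818 * m * e * (3 * r + 7 * p - 3 * m + n - 2 * i - 2 * e - f) ^ 2
      + 31114050 * r * m * i * c7
      + 49107171 * c8 * c8 * c12
      + 305347248 * i * c7 * c7
      + 1754820 * p * m * (1 - 15 * r + 10 * p - 5 * m + 5 * i) ^ 2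
      + 17958 * r * i * (-6 + 13 * r - 10 * p + 3 * m - 7 * i) ^ 2
      + 178050 * (-5 - 8 * r + 10 * p + 2 * m + 2 * n + i - 2 * r * r + 18 * r * p + 6 * r * m + 6 * r * n - 4 * r * i - 8 * p * p + 2 * p * m - 3 * p * n + 3 * p * i + 8 * m * m + 3 * m * n - m * i + 2 * i * i) ^ 2
      + 1393110 * p * n * (1 - 8 * r + 2 * p + 6 * m + 5 * n - 10 * i + e + 2 * f) ^ 2
      + 16138590 * p * i * e * c10
      + 7561395 * i * i * f * c7
      + 42584565 * p * p * e * c12
      + 146214 * m * c12 * (-6 + 13 * r - 10 * p + 3 * m - 6 * i) ^ 2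
      + 500843103 * p * c7 * c8
      + 266598 * c7 * (6 - 7 * r + p + 9 * n - 10 * i - e - f) ^ 2 := by positivity

private theorem part05_4 {r p m n i e f c7 c8 c11 c12 : ℝ} (hr : 0 ≤ r) (hp : 0 ≤ p) (hm : 0 ≤ m) (hn : 0 ≤ n) (hi : 0 ≤ i) (he : 0 ≤ e) (hf : 0 ≤ f) (hc7 : 0 ≤ c7) (hc8 : 0 ≤ c8) (hc11 : 0 ≤ c11) (hc12 : 0 ≤ c12) :
    0 ≤ 84534018 * p * p * i * c8
      + 10441371 * p * i * e * c11
      + 21956151 * p * e * c7
      + 39188895 * p * i * c12 * c12
      + 754290 * p * c8 * (1 + 10 * r - 10 * p - 9 * m - 3 * n + i + 2 * e + 6 * f) ^ 2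
      + 167769 * m * c12 * (3 + 2 * r - 7 * p - 5 * m + 10 * n + 3 * i - e) ^ 2
      + 250700826 * m * m * n * c8
      + 16470 * r * n * (3 + 15 * r - 10 * p + 3 * m + n - 5 * i - e) ^ 2
      + 51637503 * i * i * i * c8
      + 9190623 * m * e * e * c7
      + 90983976 * p * m * e * c12
      + 124179273 * p * p * f * c8
      + 66858 * r * r * (-3 + 15 * r - 10 * p + 5 * m - 5 * i) ^ 2
      + 346803 * r * c7 * (1 + 15 * r - 10 * p + n - 5 * i - e) ^ 2
      + 76176 * r * p * (-10 * f) ^ 2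
      + 5785968 * e * c7 * c7 * c12
      + 44791338 * i * i * e * c7
      + 100151607 * c7 * c7 * c7
      + 61035357 * m * i * e * c12
      + 1072629 * m * m * (-5 - 3 * r + 10 * p + 7 * m + 3 * n - i) ^ 2 := by positivity

private theorem part05_5 {r p m n i e f c7 c8 c9 c10 c11 c12 : ℝ} (hr : 0 ≤ r) (hp : 0 ≤ p) (hm : 0 ≤ m) (hn : 0 ≤ n) (hi : 0 ≤ i) (he : 0 ≤ e) (hf : 0 ≤ f) (hc7 : 0 ≤ c7) (hc8 : 0 ≤ c8) (hc9 : 0 ≤ c9) (hc10 : 0 ≤ c10) (hc11 : 0 ≤ c11) (hc12 : 0 ≤ c12) :
    0 ≤ 4181199 * i * i * f * c12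
      + 77301 * r * (-10 * f) ^ 2
      + 236179722 * c7 * c7 * c8 * c8
      + 71189187 * p * p * e * c8
      + 432810 * c8 * c10 * (5 - 12 * r + 10 * p - 2 * m + 6 * i) ^ 2
      + 127163457 * m * m * c7 * c9
      + 2748 * i * c7 * (r - p - n + i + 10 * e - f) ^ 2
      + 57117543 * p * p * f * c12
      + 5313717 * p * f * f * c10
      + 455883 * c8 * c8 * (-6 - 17 * r + 10 * p - 6 * m + 3 * n - 5 * i + 2 * e + 3 * f) ^ 2
      + 42298956 * m * m * i * c11
      + 182852793 * m * c7 * c7 * c7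
      + 95727 * m * m * (3 - 15 * r + 10 * p - 5 * m + 5 * i) ^ 2
      + 43287 * e * c11 * (9 + 16 * r - 6 * p + 10 * m + 6 * n + 9 * i + 10 * e + 5 * f) ^ 2
      + 211761 * m * e * (-3 + 17 * r - 10 * p + 7 * m - 5 * n + e) ^ 2
      + 10526838 * i * i * c7
      + 1005990 * e * e * (-10 - 4 * r + p - m - n + 2 * i + 6 * e - f) ^ 2
      + 299997 * e * f * (2 + 16 * r - 10 * p + 8 * m - 3 * n - 6 * i + 2 * e + 2 * f) ^ 2
      + 18473685 * p * p * c11 * c11
      + 17721741 * p * n * c12 * c12 := by positivity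

private theorem part05_6 {r p m n i e f c7 c8 c9 c10 c11 c12 : ℝ} (hr : 0 ≤ r) (hp : 0 ≤ p) (hm : 0 ≤ m) (hn : 0 ≤ n) (hi : 0 ≤ i) (he : 0 ≤ e) (hf : 0 ≤ f) (hc7 : 0 ≤ c7) (hc8 : 0 ≤ c8) (hc9 : 0 ≤ c9) (hc10 : 0 ≤ c10) (hc11 : 0 ≤ c11) (hc12 : 0 ≤ c12) :
    0 ≤ 16478523 * i * e * c12
      + 44700621 * p * p * m * c11
      + 3155589 * c8 * c8 * c8
      + 675174 * n * c8 * (3 - 15 * r + 10 * p - 5 * m + 2 * n) ^ 2
      + 19778733 * p * n * f * c12
      + 12507192 * c7 * c9 * c9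
      + 98064 * p * (-2 - 3 * r + 10 * p + 5 * m - n - 8 * i - 9 * e - 9 * f) ^ 2
      + 3928038 * r * n * n * c8
      + 26005968 * p * i * i * c11
      + 32931219 * r * i * i * c7
      + 49753104 * p * e * f * c8
      + 5435937 * r * i * c12 * c12
      + 207294 * r * e * (-3 + 17 * r - 10 * p + 7 * m - 5 * n + 2 * e) ^ 2
      + 25880946 * p * i * f * c10
      + 91197066 * p * f * c7
      + 50302728 * i * f * c11
      + 69918105 * i * f * c8
      + 157799886 * m * f * c9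
      + 109050 * c8 * c8 * (-2 + 14 * r - 10 * p + 4 * m - 3 * n) ^ 2
      + 51793728 * p * p * c12 * c12 := by positivity

private theorem part05_7 {r p m n i e f c7 c8 c9 c11 c12 : ℝ} (hr : 0 ≤ r) (hp : 0 ≤ p) (hm : 0 ≤ m) (hn : 0 ≤ n) (hi : 0 ≤ i) (he : 0 ≤ e) (hf : 0 ≤ f) (hc7 : 0 ≤ c7) (hc8 : 0 ≤ c8) (hc9 : 0 ≤ c9) (hc11 : 0 ≤ c11) (hc12 : 0 ≤ c12) :
    0 ≤ 84348774 * f * c8
      + 66461088 * f * c7
      + 382167 * r * c11 * (-8 + 17 * r - 7 * p + 10 * m + 2 * n) ^ 2
      + 68835822 * f * c8 * c12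
      + 29034 * i * (3 - 13 * r + 10 * p - 3 * m + 7 * i) ^ 2
      + 57707079 * p * e * e * c8
      + 76104615 * p * i * e * c8
      + 17132709 * r * c12 * c12 * c12
      + 762831 * i * c11 * (-2 + 2 * p + 7 * m - 10 * n + i - e + f) ^ 2
      + 13377366 * n * i * c12
      + 530934 * m * c7 * (7 + 14 * r - 10 * p - 4 * m + 3 * n + 2 * i - 3 * e + 2 * f) ^ 2
      + 21771174 * r * i * f * c12
      + 148135299 * n * c7 * c8 * c12
      + 70015206 * e * c8 * c12
      + 31557 * f * c11 * (9 + 16 * r - 6 * p + 10 * m + 6 * n + 8 * i + 5 * e + 10 * f) ^ 2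
      + 364899 * r * n * (-e + 10 * f) ^ 2
      + 70501659 * r * p * m * c11
      + 23724 * n * (-10 * f) ^ 2
      + 128245152 * r * r * n * c11
      + 19344 * c8 * c9 * (-7 + 13 * r - 10 * p + 3 * m - 4 * n + 2 * e) ^ 2 := by positivity

private theorem part05_8 {r p m n i e f c7 c8 c9 c10 c11 c12 : ℝ} (hr : 0 ≤ r) (hp : 0 ≤ p) (hm : 0 ≤ m) (hn : 0 ≤ n) (hi : 0 ≤ i) (he : 0 ≤ e) (hf : 0 ≤ f) (hc7 : 0 ≤ c7) (hc8 : 0 ≤ c8) (hc9 : 0 ≤ c9) (hc10 : 0 ≤ c10) (hc11 : 0 ≤ c11) (hc12 : 0 ≤ c12) :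
    0 ≤ 253116 * r * e * (5 * r - p - 5 * m + n + 2 * i + e - 10 * f) ^ 2
      + 132514929 * p * i * c8 * c8
      + 219861483 * r * e * c11
      + 119025942 * i * c7 * c7 * c8
      + 11160753 * p * p * p * c8
      + 9685572 * n * c11
      + 10029135 * n * n * e * c12
      + 7763913 * n * e * c12
      + 12963975 * i * i * c9 * c9
      + 100378461 * m * i * c8 * c9
      + 266838414 * i * c11
      + 263847 * f * (-2 - 13 * r + 3 * p + 2 * m - n + 6 * i + 9 * e + 2 * f) ^ 2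
      + 12561261 * f * c10
      + 2054301 * c7 * (-1 + 2 * r - 3 * p + 10 * m - 2 * n - i + f) ^ 2
      + 721988055 * p * m * m * c7
      + 35545521 * p * e * f * c12
      + 10887 * i * c11 * (10 + 8 * r - 4 * p + 4 * m + 8 * n - 4 * i + e - 5 * f) ^ 2
      + 75675939 * p * c11 * c11
      + 15945606 * e * e * e * c7
      + 9027702 * p * f * f * c7 := by positivity

private theorem part05_9 {r p m n i e f c7 c8 c9 c10 c11 c12 : ℝ} (hr : 0 ≤ r) (hp : 0 ≤ p) (hm : 0 ≤ m) (hn : 0 ≤ n) (hi : 0 ≤ i) (he : 0 ≤ e) (hf : 0 ≤ f) (hc7 : 0 ≤ c7) (hc8 : 0 ≤ c8) (hc9 : 0 ≤ c9) (hc10 : 0 ≤ c10) (hc11 : 0 ≤ c11) (hc12 : 0 ≤ c12) :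
    0 ≤ 298875 * n * c12 * (-9 + 14 * r - 9 * p + 10 * m - 5 * n - i + 4 * e + 4 * f) ^ 2
      + 14031 * p * c11 * (-1 + 4 * p + 8 * m + 2 * n + 6 * i + 10 * e + 10 * f) ^ 2
      + 6310257 * m * i * c12 * c12
      + 58766865 * p * i * e * c7
      + 90298902 * m * m * c11
      + 10172283 * p * f * f * c12
      + 30347622 * p * n * e * c12
      + 88026786 * p * p * c7 * c12
      + 63481584 * m * c7 * c8
      + 102029958 * m * e * c8 * c9
      + 19102005 * r * n * c8 * c9
      + 26110977 * e * e * c10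
      + 285498 * p * e * (5 - 7 * p - 8 * m - 4 * n - 10 * e) ^ 2
      + 16035603 * r * p * e * c12
      + 530160 * n * c7 * (-7 + 8 * r - 6 * p + 5 * m - 7 * n + 10 * i - e + f) ^ 2
      + 188979 * i * f * (10 + 6 * r + p - 7 * m + 3 * n - 5 * i + 7 * e - 3 * f) ^ 2
      + 421935 * i * c7 * (-1 - 15 * r + 10 * p - 5 * m - n + 6 * i) ^ 2
      + 326241 * c11 * (-4 + r + 3 * p + 6 * m - 10 * n - 3 * i + e) ^ 2
      + 47587884 * r * e * c8 * c8
      + 220440 * c8 * c9 * (-3 - 18 * r + 10 * p - 8 * m + 6 * n - 5 * i + f) ^ 2 := by positivity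

private theorem part05_10 {r p m n i e f c7 c8 c9 c10 c11 c12 : ℝ} (hr : 0 ≤ r) (hp : 0 ≤ p) (hm : 0 ≤ m) (hn : 0 ≤ n) (hi : 0 ≤ i) (he : 0 ≤ e) (hf : 0 ≤ f) (hc7 : 0 ≤ c7) (hc8 : 0 ≤ c8) (hc9 : 0 ≤ c9) (hc10 : 0 ≤ c10) (hc11 : 0 ≤ c11) (hc12 : 0 ≤ c12) :
    0 ≤ 52834695 * r * p * f * c12
      + 21370500 * n * c12 * c12
      + 39897 * p * i * (3 * p - 3 * n - 3 * i + 10 * e - 6 * f) ^ 2
      + 3652917 * p * i * i * c9
      + 61826448 * p * p * c8 * c12
      + 30844239 * m * e * f * c7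
      + 65419968 * p * m * e * c10
      + 14097471 * e * e * c12
      + 229275 * i * f * (8 - 17 * r + 10 * p + 7 * m - 3 * n - 2 * i + 2 * e + 4 * f) ^ 2
      + 33986130 * p * m * f * c12
      + 48744531 * p * e * e * c10
      + 58603155 * f * c12
      + 3137742 * i * i * e * c10
      + 6183750 * n * f * c12
      + 43663809 * p * n * i * c8
      + 988851 * c7 * c8 * (-1 + 9 * r - 6 * p + 10 * m - 2 * n - 6 * i + f) ^ 2
      + 154424718 * r * m * e * c7
      + 28632555 * p * e * e * c12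
      + 4989600 * p * i * e * c12
      + 42261459 * i * c11 * c12 := by positivity

private theorem part05_11 {r p m n i e f c7 c8 c9 c12 : ℝ} (hr : 0 ≤ r) (hp : 0 ≤ p) (hm : 0 ≤ m) (hn : 0 ≤ n) (hi : 0 ≤ i) (he : 0 ≤ e) (hf : 0 ≤ f) (hc7 : 0 ≤ c7) (hc8 : 0 ≤ c8) (hc9 : 0 ≤ c9) (hc12 : 0 ≤ c12) :
    0 ≤ 2565072 * m * c7 * c12
      + 351162 * c8 * (-6 + 12 * r - 10 * p + 2 * m - n - 6 * i) ^ 2
      + 511365 * r * e * (-10 + 9 * r - 4 * p - 2 * m - 3 * n + 4 * i - 2 * e + 6 * f) ^ 2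
      + 60766569 * r * c8 * c8 * c9
      + 54472713 * f * c7 * c7 * c7
      + 154058121 * m * m * n * c7
      + 57195 * f * c8 * (-10 + 10 * r - 6 * p + 2 * m - 9 * n + 3 * i + 3 * e - 2 * f) ^ 2
      + 33501045 * m * e * c9
      + 90291000 * p * i * f * c8
      + 60171318 * r * c8 * c8 * c8
      + 311869191 * f * c7 * c7
      + 127656 * p * (-3 + 13 * r - 10 * p + 3 * m - 7 * i) ^ 2
      + 2960 * r * n * n
      + 2957 * r * r * i
      + 2765 * r * p * p
      + 2971 * r * n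
      + 3890 * r * r
      + 4203 * r * m
      + 4075 * r * p * m
      + 2516 * r * m * n := by positivity

private theorem part05_12 {r p m n i : ℝ} (hr : 0 ≤ r) (hp : 0 ≤ p) (hm : 0 ≤ m) (hn : 0 ≤ n) (hi : 0 ≤ i) :
    0 ≤ 1457 * r * r * m
      + 1972 * r * m * m
      + 3128 * n * n
      + 2706 * r * i
      + 2836 * p * p
      + 2945 * n
      + 2773 * m
      + 2562 * p * m
      + 3045 * m * n
      + 3390 * m * m
      + 2808 * m * n * n
      + 3092 * r * m * i
      + 2514 * p * p * m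
      + 3282 * p * m * m
      + 2904 * m * m * n
      + 2949 * m * m * m
      + 3102 * r * m * n * n
      + 3660 * r * r * m * i
      + 2526 * r * p * p * m
      + 2769 * r * p * m * m := by positivity

private theorem part05_13 {r p m n i e f : ℝ} (hr : 0 ≤ r) (hp : 0 ≤ p) (hm : 0 ≤ m) (hn : 0 ≤ n) (hi : 0 ≤ i) (he : 0 ≤ e) (hf : 0 ≤ f) :
    0 ≤ 2997 * r * m * m * n
      + 3633 * r * r * m * m
      + 3090 * r * m * m * m
      + 3288 * p
      + 2931 * p * n
      + 3172 * i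
      + 3252 * p * i
      + 3016 * e
      + 3033 * p * e
      + 2970 * f
      + 3093 * p * f
      + 2569 * n * i
      + 3124 * n * e
      + 2887 * n * f
      + 2687 * i * i
      + 172982173 * i * e
      + 2947 * i * f
      + 3011 * e * e
      + 116169691 * e * f
      + 2903 * f * f := by positivity

private theorem part05_14 {r p m n i e f : ℝ} (hr : 0 ≤ r) (hp : 0 ≤ p) (hm : 0 ≤ m) (hn : 0 ≤ n) (hi : 0 ≤ i) (he : 0 ≤ e) (hf : 0 ≤ f) :
    0 ≤ 2965 * p * n * n
      + 3341 * p * n * i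
      + 3497684 * p * n * e
      + 25988117 * p * n * f
      + 3643 * p * i * i
      + 52449251 * p * i * e
      + 3353 * p * i * f
      + 2842 * p * e * e
      + 18670193 * p * e * f
      + 3256 * p * f * f
      + 3034
      + 3103 * p * p * p
      + 2411 * p * p * n
      + 2540 * p * p * i
      + 3050 * p * p * e
      + 3095 * p * p * f
      + 17268378 * r * e
      + 2619 * m * i
      + 3003 * m * e
      + 3352 * r * r * e := by positivity

private theorem part05_15 {r p m n i e f : ℝ} (hr : 0 ≤ r) (hp : 0 ≤ p) (hm : 0 ≤ m) (hn : 0 ≤ n) (hi : 0 ≤ i) (he : 0 ≤ e) (hf : 0 ≤ f) :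
    0 ≤ 3254 * r * m * e
      + 2665 * m * m * i
      + 15623026 * m * m * e
      + 2676 * p * m * m * m
      + 2760 * p * m * m * n
      + 3540 * r * p * i
      + 2928 * r * n * i
      + 2379 * r * i * i
      + 2694 * r * i * e
      + 2541 * r * i * f
      + 2820 * m * i * i
      + 2916 * n * i * i
      + 3243 * i * i * i
      + 2859 * r * r * i * i
      + 3261 * r * p * i * i
      + 3261 * r * m * i * i
      + 3012 * r * n * i * i
      + 3117 * r * i * i * i
      + 2898 * p * p * i * i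
      + 2697 * p * m * i * i := by positivity

private theorem part05_16 {r p m n i e f : ℝ} (hr : 0 ≤ r) (hp : 0 ≤ p) (hm : 0 ≤ m) (hn : 0 ≤ n) (hi : 0 ≤ i) (he : 0 ≤ e) (hf : 0 ≤ f) :
    0 ≤ 2694 * p * n * i * i
      + 2970 * p * i * i * i
      + 2994 * m * m * i * i
      + 2799 * m * n * i * i
      + 3120 * m * i * i * i
      + 41664414 * n * n * i * i
      + 3060 * n * i * i * i
      + 2946 * i * i * i * i
      + 3021 * r * m * m * e
      + 3036 * m * m * m * e
      + 2667 * r * p * f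
      + 3150 * r * r * n
      + 3918 * r * p * n
      + 3462 * p * m * n
      + 3810 * m * n * i
      + 3081 * n * n * n
      + 2736 * n * n * i
      + 3210 * r * r * n * i
      + 2349 * r * m * n * i
      + 2466 * m * m * n * i := by positivity

private theorem part05_17 {r p m n i e f : ℝ} (hr : 0 ≤ r) (hp : 0 ≤ p) (hm : 0 ≤ m) (hn : 0 ≤ n) (hi : 0 ≤ i) (he : 0 ≤ e) (hf : 0 ≤ f) :
    0 ≤ 3153 * p * p * m * m
      + 3471 * p * m * m * i
      + 2940 * p * m * m * e
      + 3018 * p * m * m * f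
      + 3297 * r * e * e
      + 210463425 * r * e * f
      + 2661 * p * m * e
      + 2724 * r * p
      + 3225 * r * r * p
      + 2412 * r * p * e
      + 3090 * r * r * r * p
      + 2199 * r * r * p * p
      + 2976 * r * r * p * m
      + 3132 * r * r * p * n
      + 3057 * r * r * p * i
      + 3282 * r * r * p * e
      + 3444 * r * p * p * p
      + 2964 * r * p * p * n
      + 2304 * r * p * p * i
      + 3174 * r * p * p * e := by positivity

private theorem part05_18 {r p m n i e f : ℝ} (hr : 0 ≤ r) (hp : 0 ≤ p) (hm : 0 ≤ m) (hn : 0 ≤ n) (hi : 0 ≤ i) (he : 0 ≤ e) (hf : 0 ≤ f) :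
    0 ≤ 2361 * r * p * m * n
      + 3156 * r * p * m * i
      + 2664 * r * p * m * e
      + 2202 * r * p * n * n
      + 2670 * r * p * n * i
      + 2592 * r * p * n * e
      + 2832 * r * p * i * e
      + 2700 * r * p * e * e
      + 2574 * m * i * f
      + 106946706 * m * m * i * f
      + 2730 * m * n * i * f
      + 2595 * r
      + 3216 * p * m * i
      + 3150 * r * n * e
      + 68084181 * m * n * e
      + 3012 * m * i * e
      + 3003 * r * f
      + 3321 * r * m * f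
      + 3126 * r * n * f
      + 2997 * m * f := by positivity

private theorem part05_19 {r m n i e f : ℝ} (hr : 0 ≤ r) (hm : 0 ≤ m) (hn : 0 ≤ n) (hi : 0 ≤ i) (he : 0 ≤ e) (hf : 0 ≤ f) :
    0 ≤ 35637510 * m * m * f
      + 48468927 * m * n * f
      + 2307 * r * r * r
      + 3267 * r * r * r * m
      + 2796 * r * r * r * n
      + 3123 * r * r * r * i
      + 2943 * r * r * m * n
      + 3372 * r * m * m * i
      + 3063 * r * r * n * n
      + 2832 * r * r * m * e
      + 235003320 * r * r * n * e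
      + 222913758 * r * r * i * e
      + 3060 * r * m * n * e
      + 57601398 * r * m * i * e
      + 3471 * r * r * f
      + 279958203 * r * r * m * f
      + 2643 * r * r * n * f
      + 63415860 * r * r * i * f
      + 2748 * r * m * m * f
      + 77137212 * r * m * n * f := by positivity

private theorem part05_20 {r p m n i e f : ℝ} (hr : 0 ≤ r) (hp : 0 ≤ p) (hm : 0 ≤ m) (hn : 0 ≤ n) (hi : 0 ≤ i) (he : 0 ≤ e) (hf : 0 ≤ f) :
    0 ≤ 306865530 * r * m * i * f
      + 3456 * p * p * m * n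
      + 2508 * p * p * m * i
      + 2739 * p * m * n * n
      + 3405 * p * m * n * i
      + 2802 * p * m * n * e
      + 2691 * p * m * i * e
      + 3156 * r * p * m * f
      + 2919 * r * p * n * f
      + 3621 * r * p * i * f
      + 2961 * p * m * f
      + 2979 * p * m * n * f
      + 2754 * p * m * i * f
      + 2907 * m * m * m * m
      + 2889 * m * m * m * n
      + 3108 * m * m * m * i
      + 3099 * m * m * n * n
      + 35898168 * m * m * n * e
      + 139446888 * m * m * i * e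
      + 39122118 * m * m * m * f := by positivity

private theorem part05_21 {r m n i e f : ℝ} (hr : 0 ≤ r) (hm : 0 ≤ m) (hn : 0 ≤ n) (hi : 0 ≤ i) (he : 0 ≤ e) (hf : 0 ≤ f) :
    0 ≤ 37185342 * m * m * n * f
      + 2877 * r * n * n * n
      + 2889 * r * n * n * i
      + 2784 * m * n * n * n
      + 3282 * m * n * n * i
      + 50009874 * r * n * n * e
      + 56590212 * r * n * i * e
      + 89381427 * m * n * n * e
      + 3114 * m * n * i * e
      + 57709536 * r * n * n * f
      + 2676 * r * n * i * f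
      + 63846801 * m * n * n * f
      + 108825594 * r * i * i * e
      + 3072 * m * i * i * e
      + 133827252 * r * i * i * f
      + 3096 * m * i * i * f
      + 50126496 * r * m * e * e
      + 50563407 * r * n * e * e
      + 166620336 * r * i * e * e
      + 3090 * m * e * e := by positivity

private theorem part05_22 {r m n i e f : ℝ} (hr : 0 ≤ r) (hm : 0 ≤ m) (hn : 0 ≤ n) (hi : 0 ≤ i) (he : 0 ≤ e) (hf : 0 ≤ f) :
    0 ≤ 3090 * m * m * e * e
      + 6054657 * m * n * e * e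
      + 3123 * m * i * e * e
      + 3327 * r * m * e * f
      + 142475424 * r * n * e * f
      + 229385682 * r * i * e * f
      + 8971956 * m * e * f
      + 3111 * m * m * e * f
      + 30243438 * m * n * e * f
      + 68148984 * m * i * e * f
      + 2772 * r * f * f
      + 2694 * r * m * f * f
      + 2670 * r * n * f * f
      + 91120656 * r * i * f * f
      + 10405752 * m * f * f
      + 2890188 * m * m * f * f
      + 12791517 * m * n * f * f
      + 3263991 * m * i * f * f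
      + 3213 * r * r * r * r
      + 2643 * r * r * r * e := by positivity

private theorem part05_23 {r p m n i e f : ℝ} (hr : 0 ≤ r) (hp : 0 ≤ p) (hm : 0 ≤ m) (hn : 0 ≤ n) (hi : 0 ≤ i) (he : 0 ≤ e) (hf : 0 ≤ f) :
    0 ≤ 129388995 * r * r * r * f
      + 3660 * r * r * p * f
      + 69492714 * r * r * e * e
      + 3246 * r * r * e * f
      + 2682 * r * r * f * f
      + 190046310 * r * p * p * f
      + 100956144 * r * p * e * f
      + 3222 * r * p * f * f
      + 74347776 * r * e * e * e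
      + 76663260 * r * e * e * f
      + 3003 * r * e * f * f
      + 21490059 * r * f * f * f
      + 2793 * n * n * f
      + 2934 * n * n * n * f
      + 3192 * m * e * e * f
      + 3033 * n * n * e
      + 2934 * n * i * e
      + 43674570 * n * i * f
      + 3180 * n * e * e
      + 6034602 * n * e * f := by positivity

private theorem part05_24 {p m n i e f : ℝ} (hp : 0 ≤ p) (hm : 0 ≤ m) (hn : 0 ≤ n) (hi : 0 ≤ i) (he : 0 ≤ e) (hf : 0 ≤ f) :
    0 ≤ 2649 * n * f * f
      + 3471 * p * p * p * m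
      + 3054 * p * p * p * n
      + 3624 * p * p * n * n
      + 3303 * p * p * n * i
      + 3204 * p * p * m * e
      + 3048 * p * p * n * e
      + 63694209 * p * p * m * f
      + 3054 * p * p * n * f
      + 3012 * p * n * n * n
      + 2823 * p * n * n * i
      + 2748 * p * n * n * e
      + 2889 * p * n * n * f
      + 2799 * p * n * i * e
      + 91135284 * p * n * i * f
      + 2775 * p * m * e * e
      + 2790 * p * n * e * e
      + 129444051 * p * m * e * f
      + 2904 * p * n * e * f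
      + 3072 * p * m * f * f := by positivity

private theorem part05_25 {p m n i e f : ℝ} (hp : 0 ≤ p) (hm : 0 ≤ m) (hn : 0 ≤ n) (hi : 0 ≤ i) (he : 0 ≤ e) (hf : 0 ≤ f) :
    0 ≤ 3132 * p * n * f * f
      + 3462000 * n * n * n * n
      + 18942522 * n * n * n * i
      + 2952 * n * n * n * e
      + 90373404 * n * n * i * e
      + 51507714 * n * n * i * f
      + 24955452 * n * n * e * e
      + 39228231 * n * n * e * f
      + 18620322 * n * n * f * f
      + 98089395 * i * i * f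
      + 3063 * n * i * i * f
      + 50558844 * i * e * e
      + 49899612 * n * i * e * e
      + 3396 * i * e * f
      + 21148884 * n * i * e * f
      + 45100779 * i * f * f
      + 9167994 * n * i * f * f
      + 149445693 * e * e * e
      + 3144 * m * e * e * e
      + 17461590 * n * e * e * e := by positivity

private theorem part05_26 {p m n i e f : ℝ} (hp : 0 ≤ p) (hm : 0 ≤ m) (hn : 0 ≤ n) (hi : 0 ≤ i) (he : 0 ≤ e) (hf : 0 ≤ f) :
    0 ≤ 3225 * e * e * f
      + 9501639 * n * e * e * f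
      + 2811537 * e * f * f
      + 1962633 * m * e * f * f
      + 12900429 * n * e * f * f
      + 4625727 * f * f * f
      + 6081765 * m * f * f * f
      + 6483270 * n * f * f * f
      + 3054 * e * e * e * e
      + 52208211 * e * e * e * f
      + 66340938 * n * i * i * e
      + 47536605 * i * i * e
      + 2694 * p * i * i * e
      + 15264075 * p * i * i * f
      + 89957226 * i * i * i * e
      + 76833480 * i * i * i * f
      + 3177 * i * i * e * e
      + 8491245 * i * i * e * f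
      + 5671578 * i * i * f * f
      + 3180 * i * e * e * e := by positivity

private theorem part05_27 {p i e f : ℝ} (hp : 0 ≤ p) (hi : 0 ≤ i) (he : 0 ≤ e) (hf : 0 ≤ f) :
    0 ≤ 30768540 * i * e * e * f
      + 39562977 * p * p * f * f
      + 3072 * p * p * p * p
      + 3378 * p * p * p * i
      + 2511 * p * i * e * e
      + 2769 * p * i * e * f
      + 2946 * p * p * i * e
      + 2919 * p * p * p * e
      + 2847 * p * p * p * f
      + 2877 * p * p * i * f
      + 5923464 * p * p * e * e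
      + 3162 * p * p * e * f
      + 8321202 * p * e * f * f
      + 3057 * p * f * f * f
      + 2811 * p * e * e * e
      + 52677741 * p * e * e * f
      + 26576505 * i * e * f * f
      + 5949534 * e * e * f * f
      + 6193587 * e * f * f * f
      + 2934 * p * i * f * f := by positivity

private theorem part05_28 {i f : ℝ} (hi : 0 ≤ i) (hf : 0 ≤ f) :
    0 ≤ 3870615 * i * f * f * f
      + 3155700 * f * f * f * f := by positivity

theorem leaf05 {r p m n i e f : ℝ} (h0 : 0 ≤ r) (h1 : 0 ≤ p) (h2 : 0 ≤ m) (h3 : 0 ≤ n) (h4 : 0 ≤ i) (h5 : 0 ≤ e) (h6 : 0 ≤ f) (h7 : 0 ≤ r - m) (h8 : 0 ≤ 1 - r - p) (h9 : 0 ≤ 1 - m - n - i) (h10 : 0 ≤ m - e - f) (h11 : 0 ≤ p - n - i - e - f) (h12 : 0 ≤ 1 - m - 2 * n) :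
    0 ≤ 182500000 - 348000000 * p - 215000000 * m - 227500000 * n + 212500000 * i + 212500000 * e + 180000000 * f + 95000000 * r * r - 285000000 * r * m + 190000000 * r * n - 327000000 * r * i - 27000000 * r * e + 568000000 * p * p - 300000000 * p * m + 330000000 * p * n + 330000000 * p * i + 330000000 * p * e + 330000000 * p * f + 341250000 * m * m - 285000000 * m * n + 120000000 * m * i + 120000000 * m * e + 23750000 * n * n - 552500000 * n * i - 552500000 * n * e - 552500000 * n * f - 276250000 * i * i - 552500000 * i * e - 552500000 * i * f - 276250000 * e * e - 552500000 * e * f - 276250000 * f * f + 485000000 * r * r * m - 10000000 * r * r * i - 200000000 * r * r * e - 190000000 * r * p * p + 190000000 * r * p * m - 308750000 * r * m * m + 485000000 * r * m * n - 985000000 * r * m * i - 400000000 * r * m * e - 190000000 * r * n * n - 200000000 * p * p * p + 585000000 * p * p * m - 400000000 * p * p * n - 400000000 * p * p * i - 400000000 * p * p * e -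 400000000 * p * p * f - 105000000 * p * m * m + 148750000 * p * n * n + 297500000 * p * n * i + 297500000 * p * n * e + 297500000 * p * n * f + 148750000 * p * i * i + 297500000 * p * i * e + 297500000 * p * i * f + 148750000 * p * e * e + 297500000 * p * e * f + 148750000 * p * f * f - 585000000 * m * m * m + 585000000 * m * m * n + 220000000 * m * m * i + 220000000 * m * m * e + 585000000 * m * n * n - 195000000 * r * r * m * m + 675000000 * r * r * m * i - 675000000 * r * p * p * m + 1635000000 * r * p * m * m + 675000000 * r * m * m * m - 675000000 * r * m * m * n - 675000000 * r * m * n * n - 480000000 * p * m * m * m - 480000000 * p * m * m * n := by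
  have t0 := part05_0 h0 h1 h2 h3 h4 h5 h6 h7 h8 h9 h10 h11 h12
  have t1 := part05_1 h0 h1 h2 h3 h4 h5 h6 h7 h8 h9 h10 h11 h12
  have t2 := part05_2 h0 h1 h2 h3 h4 h5 h6 h7 h8 h10 h11 h12
  have t3 := part05_3 h0 h1 h2 h3 h4 h5 h6 h7 h8 h9 h10 h12
  have t4 := part05_4 h0 h1 h2 h3 h4 h5 h6 h7 h8 h11 h12
  have t5 := part05_5 h0 h1 h2 h3 h4 h5 h6 h7 h8 h9 h10 h11 h12
  have t6 := part05_6 h0 h1 h2 h3 h4 h5 h6 h7 h8 h9 h10 h11 h12
  have t7 := part05_7 h0 h1 h2 h3 h4 h5 h6 h7 h8 h9 h11 h12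
  have t8 := part05_8 h0 h1 h2 h3 h4 h5 h6 h7 h8 h9 h10 h11 h12
  have t9 := part05_9 h0 h1 h2 h3 h4 h5 h6 h7 h8 h9 h10 h11 h12
  have t10 := part05_10 h0 h1 h2 h3 h4 h5 h6 h7 h8 h9 h10 h11 h12
  have t11 := part05_11 h0 h1 h2 h3 h4 h5 h6 h7 h8 h9 h12
  have t12 := part05_12 h0 h1 h2 h3 h4
  have t13 := part05_13 h0 h1 h2 h3 h4 h5 h6
  have t14 := part05_14 h0 h1 h2 h3 h4 h5 h6
  have t15 := part05_15 h0 h1 h2 h3 h4 h5 h6
  have t16 := part05_16 h0 h1 h2 h3 h4 h5 h6
  have t17 := part05_17 h0 h1 h2 h3 h4 h5 h6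
  have t18 := part05_18 h0 h1 h2 h3 h4 h5 h6
  have t19 := part05_19 h0 h2 h3 h4 h5 h6
  have t20 := part05_20 h0 h1 h2 h3 h4 h5 h6
  have t21 := part05_21 h0 h2 h3 h4 h5 h6
  have t22 := part05_22 h0 h2 h3 h4 h5 h6
  have t23 := part05_23 h0 h1 h2 h3 h4 h5 h6
  have t24 := part05_24 h1 h2 h3 h4 h5 h6
  have t25 := part05_25 h1 h2 h3 h4 h5 h6
  have t26 := part05_26 h1 h2 h3 h4 h5 h6
  have t27 := part05_27 h1 h4 h5 h6
  have t28 := part05_28 h4 h6
  linarith only [t0, t1, t2, t3, t4, t5, t6, t7, t8, t9, t10, t11, t12, t13, t14, t15, t16, t17, t18, t19, t20, t21, t22, t23, t24, t25, t26, t27, t28]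

end Vale.Agent.P038.K4
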