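import Mathlib

/-
P038: one corner of the polynomial inequality for K4-free graphs (exact nonnegativity certificate).
-/

namespace Vale.Agent.P038.K4

private theorem part06_0 {r p m n i e f c7 c8 c9 c10 c11 : ℝ} (hr : 0 ≤ r) (hp : 0 ≤ p) (hm : 0 ≤ m) (hn : 0 ≤ n) (hi : 0 ≤ i) (he : 0 ≤ e) (hf : 0 ≤ f) (hc7 : 0 ≤ c7) (hc8 : 0 ≤ c8) (hc9 : 0 ≤ c9) (hc10 : 0 ≤ c10) (hc11 : 0 ≤ c11) :
    0 ≤ 110397 * n * e * (-2 - 17 * r + 10 * p + 9 * m - 7 * n + 7 * i + 8 * e - 4 * f) ^ 2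
      + 177558 * i * (1 + 12 * r - 7 * p - 7 * m + 10 * n - 6 * i - 9 * e + 3 * f) ^ 2
      + 1557 * c7 * c7 * c7
      + 642567 * p * p * (2 + 3 * r + p - 10 * m - 8 * n - 3 * i + 2 * e + 5 * f) ^ 2
      + 548124 * r * c11 * (-e + 10 * f) ^ 2
      + 172893 * n * c11 * (2 + 9 * r - 10 * p - m + 6 * n) ^ 2
      + 453615 * e * c7 * (-8 * r + 5 * p + m + 10 * n - 8 * i + f) ^ 2
      + 400449 * n * c8 * (5 - 6 * p - 7 * m - 10 * n + 2 * e + 7 * f) ^ 2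
      + 6693033 * p * i * c8 * c8
      + 638859 * c8 * c10 * (10 * e - 2 * f) ^ 2
      + 83547 * i * c11 * (-9 - 11 * r + 4 * p - 3 * m - 7 * n + 10 * i + 3 * e + 3 * f) ^ 2
      + 499524 * n * e * (4 + 2 * r - 5 * p - m - 10 * n + 7 * i - 6 * e + f) ^ 2
      + 110928 * f * c10 * (-3 + 15 * r - 10 * p - n - 4 * i) ^ 2
      + 188354871 * i * c8 * c8
      + 251370 * i * f * (-1 - 16 * r + 10 * p - 6 * m - n + 7 * i - f) ^ 2
      + 11565 * c10 * (-1 - 13 * r + 10 * p - m - n + 3 * i - 10 * e + 2 * f) ^ 2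
      + 221070 * c7 * c9 * (-6 - 4 * r + 10 * p + 10 * m - n - 4 * i - e - f) ^ 2
      + 2284614 * m * c8 * (-4 + 10 * p - 2 * m + n + 2 * i - 3 * f) ^ 2
      + 168187896 * i * c11
      + 410514 * i * c10 * (2 - 15 * r + 10 * p - m + 6 * n - 4 * i - 2 * e + 2 * f) ^ 2 := by positivity

private theorem part06_1 {r p m n i e f c7 c8 c10 c11 : ℝ} (hr : 0 ≤ r) (hp : 0 ≤ p) (hm : 0 ≤ m) (hn : 0 ≤ n) (hi : 0 ≤ i) (he : 0 ≤ e) (hf : 0 ≤ f) (hc7 : 0 ≤ c7) (hc8 : 0 ≤ c8) (hc10 : 0 ≤ c10) (hc11 : 0 ≤ c11) :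
    0 ≤ 519534 * r * e * (2 - r - 2 * p - 6 * m + 5 * e - 10 * f) ^ 2
      + 92654064 * p * f * c7 * c11
      + 157507776 * i * i * c8
      + 70501785 * m * c7 * c11
      + 434505 * r * c8 * (3 - 8 * r - 2 * p - 5 * n + 3 * f) ^ 2
      + 462408 * e * c8 * (-3 - 4 * r + 2 * p + 4 * m - n + 10 * i + 3 * e + 3 * f) ^ 2
      + 639396 * m * f * (20 * r - 10 * p - m - 4 * n - 2 * i - e + 7 * f) ^ 2
      + 482163 * p * e * (6 + 6 * r - 8 * p + 6 * m - 9 * n - 10 * i + 3 * e + 6 * f) ^ 2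
      + 246961845 * r * r * f * c11
      + 1527579 * n * f * c10
      + 33536049 * m * i * f * c10
      + 275652 * m * i * (-4 + 14 * r - 4 * p + 4 * m + 3 * n + 4 * f) ^ 2
      + 283842 * i * e * (-2 * r + p + 2 * m + 8 * n - 10 * i + 2 * e) ^ 2
      + 488361 * i * c8 * (-4 - 6 * r + 9 * p + 10 * m + 7 * n - 7 * i + 9 * e - 4 * f) ^ 2
      + 104650437 * e * e * c8 * c8
      + 472749 * c8 * (5 + 2 * r - 10 * p - 4 * m - 6 * n + 3 * e + 6 * f) ^ 2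
      + 420108 * c7 * c11 * (-9 * n - e + 10 * f) ^ 2
      + 971229 * r * e * (2 - 10 * r + 6 * p - 9 * m - 10 * n + 6 * i + 3 * e + 4 * f) ^ 2
      + 9076419 * m * i * c11
      + 98331 * c7 * c8 * (p + m + 7 * n + 7 * i - 10 * f) ^ 2 := by positivity

private theorem part06_2 {r p m n i e f c7 c8 c9 c10 c11 : ℝ} (hr : 0 ≤ r) (hp : 0 ≤ p) (hm : 0 ≤ m) (hn : 0 ≤ n) (hi : 0 ≤ i) (he : 0 ≤ e) (hf : 0 ≤ f) (hc7 : 0 ≤ c7) (hc8 : 0 ≤ c8) (hc9 : 0 ≤ c9) (hc10 : 0 ≤ c10) (hc11 : 0 ≤ c11) :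
    0 ≤ 19435497 * n * i * c8
      + 13854 * p * c11 * (2 * r - 2 * m - i + 8 * e - 10 * f) ^ 2
      + 144462 * p * c11 * (10 * i - 5 * f) ^ 2
      + 783951 * r * c10 * (-2 - r + 5 * p + 4 * m - 5 * n - i + 10 * e) ^ 2
      + 287431680 * m * i * c8 * c8
      + 1334205 * e * f * (1 + 3 * r - 7 * p - m + 10 * i - e - f) ^ 2
      + 44629659 * f * f * c10 * c10
      + 289566 * e * f * (15 * r - 10 * p + 3 * m - 5 * n - 3 * i + 3 * e) ^ 2
      + 175750425 * m * m * i * c11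
      + 218541 * n * e * (2 + 11 * r - 8 * p + 3 * m - 10 * n + 2 * i + 3 * f) ^ 2
      + 799266 * f * f * (2 * r + 7 * p + m - 7 * n - 7 * i - 10 * e - 10 * f) ^ 2
      + 1876458 * e * c8 * (-3 - 5 * r + 9 * m + 10 * n + i - 4 * e) ^ 2
      + 39939 * e * c9 * (1 + 3 * r - 2 * p - 9 * m - 4 * n + 10 * i - 6 * e) ^ 2
      + 188531574 * m * f * c8 * c10
      + 243192 * i * c10 * (9 - 8 * r - 2 * p - 4 * m - 9 * n - 8 * i + 10 * e - 4 * f) ^ 2
      + 206380911 * m * n * c7 * c11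
      + 2280891 * f * c8 * (-5 + 5 * p + 2 * m + 10 * n - f) ^ 2
      + 52410 * p * e * (3 + 5 * r - 2 * p - 10 * m - 4 * n - 4 * i + 7 * e + 2 * f) ^ 2
      + 481503 * c8 * c10 * (3 - r - 3 * p - 3 * m - 10 * n + 2 * i + e + 5 * f) ^ 2
      + 28644099 * e * c10 * c10 * c10 := by positivity

private theorem part06_3 {r p m n i e f c7 c8 c9 c10 c11 c12 : ℝ} (hr : 0 ≤ r) (hp : 0 ≤ p) (hm : 0 ≤ m) (hn : 0 ≤ n) (hi : 0 ≤ i) (he : 0 ≤ e) (hf : 0 ≤ f) (hc7 : 0 ≤ c7) (hc8 : 0 ≤ c8) (hc9 : 0 ≤ c9) (hc10 : 0 ≤ c10) (hc11 : 0 ≤ c11) (hc12 : 0 ≤ c12) :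
    0 ≤ 58250373 * n * c7 * c11
      + 237465 * e * c9 * (3 + 15 * r - 10 * p - m - 10 * i - 5 * e + 10 * f) ^ 2
      + 269118 * n * (-11 * r + p + 9 * m + n + 6 * i + 4 * e - 3 * f) ^ 2
      + 47826234 * e * e * f * c12
      + 122859075 * e * c8 * c10
      + 602973 * c8 * c9 * (4 + 6 * r - 10 * p - 2 * m - 6 * n + 8 * f) ^ 2
      + 1133382 * c8 * c8 * (-4 + r + 9 * p + n - 2 * f) ^ 2
      + 660645 * c7 * c11 * (1 + 4 * r - 10 * p + 4 * m) ^ 2
      + 289955049 * i * i * f * c8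
      + 189429 * f * c10 * (-7 + 4 * r + 6 * p + 7 * m + n + 3 * i + 10 * f) ^ 2
      + 57870 * n * c11 * (1 - 3 * r - 3 * p - m + 10 * n) ^ 2
      + 3069552 * p * m * (4 - 10 * r - 5 * m - 7 * n + 5 * i + 5 * e + 4 * f) ^ 2
      + 14213652 * e * f * c7
      + 92760 * m * c7 * (-1 + 5 * r - 3 * p + 10 * m - 2 * n - 2 * i + 3 * f) ^ 2
      + 126466212 * e * c8 * c12
      + 636516 * e * c10 * (2 + 12 * r - 7 * p + 4 * n - 10 * i - e + f) ^ 2
      + 443691 * i * c10 * (-3 * p + 3 * n + 3 * i + 2 * e - 10 * f) ^ 2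
      + 328221 * e * c11 * (-10 - 9 * r + 5 * p + n - 9 * i + 6 * e - 5 * f) ^ 2
      + 150774 * i * (4 - r - p - 10 * m - 8 * n + i + 4 * f) ^ 2
      + 65670636 * r * r * c7 * c11 := by positivity

private theorem part06_4 {r p m n i e f c7 c8 c9 c10 c11 c12 : ℝ} (hp : 0 ≤ p) (hm : 0 ≤ m) (hn : 0 ≤ n) (hi : 0 ≤ i) (he : 0 ≤ e) (hf : 0 ≤ f) (hc7 : 0 ≤ c7) (hc8 : 0 ≤ c8) (hc9 : 0 ≤ c9) (hc10 : 0 ≤ c10) (hc11 : 0 ≤ c11) (hc12 : 0 ≤ c12) :
    0 ≤ 192126 * f * c10 * (-4 * r + 2 * p - 2 * n - 2 * i - 4 * e + 10 * f) ^ 2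
      + 7564692 * c9 * c10 * (-4 + 5 * r + 5 * p + 2 * m + 4 * n - 4 * i + f) ^ 2
      + 371745 * n * (6 + r - 9 * p - 7 * m - 10 * n + 8 * i + e + 9 * f) ^ 2
      + 667305 * c10 * c11 * (-10 * e + 4 * f) ^ 2
      + 9462 * n * e * (1 + 16 * r - 10 * p + 4 * m + 4 * n - 9 * i + 2 * e - f) ^ 2
      + 51615381 * e * e * c11 * c12
      + 15710538 * m * e * c7 * c8
      + 127181568 * p * p * e * c11
      + 116171523 * m * f * c7 * c11
      + 289725 * c9 * c11 * (7 * e - 10 * f) ^ 2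
      + 303015 * p * c10 * (-1 - 12 * r + 10 * p - 3 * m - 2 * n + i + e + 2 * f) ^ 2
      + 863502 * e * c10 * (-15 * r + 10 * p - m + 3 * n - 3 * i + e + 3 * f) ^ 2
      + 108877911 * p * c7 * c8 * c11
      + 666732 * p * i * (-2 - 3 * r + p + 10 * m + 2 * i - 3 * f) ^ 2
      + 109940472 * n * f * c11
      + 107235339 * n * f * c10 * c10
      + 133714707 * i * c7 * c8
      + 287307 * i * c12 * (3 + 6 * r - 3 * p - 5 * m - 10 * n - 5 * i + 6 * e + 9 * f) ^ 2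
      + 13004643 * e * c9 * c9 * c10
      + 463968 * e * c10 * (4 - 6 * r + 4 * p + 3 * m - 10 * n - 5 * i - 5 * e + 5 * f) ^ 2 := by positivity

private theorem part06_5 {r p m n i e f c7 c8 c9 c10 c11 c12 : ℝ} (hr : 0 ≤ r) (hp : 0 ≤ p) (hm : 0 ≤ m) (hn : 0 ≤ n) (hi : 0 ≤ i) (he : 0 ≤ e) (hf : 0 ≤ f) (hc7 : 0 ≤ c7) (hc8 : 0 ≤ c8) (hc9 : 0 ≤ c9) (hc10 : 0 ≤ c10) (hc11 : 0 ≤ c11) (hc12 : 0 ≤ c12) :
    0 ≤ 30810021 * m * m * c7 * c11
      + 402579 * n * c11 * (2 * r - 2 * m + 10 * i - 10 * e - 2 * f) ^ 2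
      + 23334180 * i * i * c10 * c11
      + 393657 * n * f * (3 + 14 * r - 10 * p + m - 8 * n - e + 3 * f) ^ 2
      + 670830 * m * i * (-6 + 13 * r - 3 * p + 9 * m + 3 * n + 4 * i) ^ 2
      + 110715 * m * m * (2 - 19 * r + 10 * p - 6 * m - 5 * n + 2 * i + 4 * e - f) ^ 2
      + 216357774 * m * m * c7 * c8
      + 125676 * e * c8 * (1 + 4 * r - 4 * p - 5 * m + n - 10 * i - 3 * e + 4 * f) ^ 2
      + 101865 * f * c11 * (2 + r - p + m - 3 * n - 2 * i + 10 * e + 2 * f) ^ 2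
      + 225480 * c11 * (2 - 6 * p - 4 * m + 10 * n) ^ 2
      + 693234 * i * i * (2 + 5 * r - 3 * p - 10 * m + n - 2 * i - 4 * e + 4 * f) ^ 2
      + 165711 * m * c8 * (3 - 4 * r - p - 4 * m - 10 * n + 6 * i + 10 * f) ^ 2
      + 421956 * n * f * (-4 + 13 * r - 3 * p - 4 * m + 10 * n - 6 * i - 2 * e + 5 * f) ^ 2
      + 1227519 * e * c7 * (1 + 2 * r - p - 10 * m + 2 * i - 2 * e) ^ 2
      + 139666113 * i * f * c8 * c10
      + 309345 * c11 * (-4 * i - 3 * e + 10 * f) ^ 2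
      + 35850636 * r * p * i * c11
      + 305298 * f * f * (1 + 18 * r - 10 * p + m - 7 * n - i + 6 * f) ^ 2
      + 427899 * c9 * c12 * (3 - 5 * r - 5 * p + m - 2 * n + 5 * i + 4 * e + 4 * f) ^ 2
      + 63 * p * i * (1 + 16 * r - 10 * p + 2 * m - n - 5 * i - 2 * e + 4 * f) ^ 2 := by positivity

private theorem part06_6 {r p m n i e f c7 c8 c10 c11 c12 : ℝ} (hr : 0 ≤ r) (hp : 0 ≤ p) (hm : 0 ≤ m) (hn : 0 ≤ n) (hi : 0 ≤ i) (he : 0 ≤ e) (hf : 0 ≤ f) (hc7 : 0 ≤ c7) (hc8 : 0 ≤ c8) (hc10 : 0 ≤ c10) (hc11 : 0 ≤ c11) (hc12 : 0 ≤ c12) :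
    0 ≤ 1528848 * c7 * c8 * (-5 + 13 * r - 3 * p + 10 * m - n + 3 * f) ^ 2
      + 886998 * r * c8 * (1 + 5 * r - 6 * p + m + n - 10 * i - e + 2 * f) ^ 2
      + 13911 * e * c11 * (-6 + 15 * r - 10 * p - 2 * m + n + 3 * i - e + 3 * f) ^ 2
      + 39167334 * e * c7 * c8
      + 51 * c7 * (2 + 12 * r - 7 * p + 4 * m + 10 * n - 10 * i + 2 * f) ^ 2
      + 444117 * c8 * (2 - 10 * r + 4 * p - 2 * m - 10 * n + 3 * i + e + 7 * f) ^ 2
      + 200484 * n * c7 * (1 - r - p + m - 10 * n + 6 * i + e) ^ 2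
      + 18687 * p * e * (-14 * r + 9 * p - 7 * m - 4 * n + 10 * i - 2 * e + f) ^ 2
      + 55602 * p * c8 * (-2 - 9 * r + 10 * p + m - 2 * n + i - 2 * f) ^ 2
      + 3202395 * e * f * f * c12
      + 316395 * f * c11 * (-9 - 5 * r - 6 * m + 10 * i + 3 * e + 7 * f) ^ 2
      + 592521 * r * i * (5 - 3 * r - p - 10 * m - 5 * n - 3 * e + 3 * f) ^ 2
      + 7662 * i * c10 * (2 * p - 2 * n - 2 * i + 10 * e - 2 * f) ^ 2
      + 31549227 * i * c11 * c12
      + 29331771 * p * m * e * c11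
      + 18907278 * r * e * c11 * c12
      + 489435 * n * c10 * (3 - 8 * r - 2 * p - m - 6 * n + 7 * i + 8 * e - 5 * f) ^ 2
      + 1628205 * m * f * (-5 + 10 * r - 4 * m + 10 * n - 6 * i + 6 * f) ^ 2
      + 109206519 * r * f * c11 * c12
      + 688020 * p * c7 * (-1 - 13 * r + 8 * p + 10 * m - 6 * n + 2 * i + 4 * e - 3 * f) ^ 2 := by positivity

private theorem part06_7 {r p m n i e f c7 c8 c10 c11 c12 : ℝ} (hr : 0 ≤ r) (hp : 0 ≤ p) (hm : 0 ≤ m) (hn : 0 ≤ n) (hi : 0 ≤ i) (he : 0 ≤ e) (hf : 0 ≤ f) (hc7 : 0 ≤ c7) (hc8 : 0 ≤ c8) (hc10 : 0 ≤ c10) (hc11 : 0 ≤ c11) (hc12 : 0 ≤ c12) :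
    0 ≤ 216732 * n * c7 * (-3 - 6 * r + 3 * p + 9 * m + 10 * n - 2 * e - 8 * f) ^ 2
      + 48973248 * m * e * c11
      + 122568 * c7 * c7 * (-2 * r + p - 3 * m - 6 * n + 7 * i + 6 * e - 10 * f) ^ 2
      + 1071384 * n * e * (-2 + 2 * r - 3 * p + 10 * m + 5 * n + 5 * i - 5 * e + 2 * f) ^ 2
      + 675927 * i * c10 * (-6 - r + 4 * p + 10 * m - 4 * n + 7 * i + 2 * e + 2 * f) ^ 2
      + 1170480 * f * c7 * (3 + 9 * r - 5 * p - 10 * m - 3 * n + i + 3 * e - 2 * f) ^ 2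
      + 2985 * c7 * c7
      + 115534149 * p * n * e * c11
      + 40429110 * n * i * c11 * c12
      + 950289 * e * e * (-2 * r + 2 * p - 3 * m + 10 * n - 6 * i - 5 * e + 2 * f) ^ 2
      + 459528 * r * c11 * (-10 * e + f) ^ 2
      + 277071 * r * e * (5 - 8 * r - 9 * m + 6 * n - 6 * i + 2 * e - 10 * f) ^ 2
      + 380259 * n * c8 * (-10 * i - e) ^ 2
      + 68961399 * n * i * f * c11
      + 323652 * e * e * (2 - 2 * r + 2 * p - 9 * m - 5 * n - 2 * i + 10 * e) ^ 2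
      + 209504154 * f * c7 * c8
      + 117405 * c7 * c7 * (7 * r - 5 * p + 10 * m + n - 7 * i - e + 5 * f) ^ 2
      + 322695 * i * c10 * c10
      + 984 * c8 * c11 * (-17 * r + 10 * p - 7 * m + 8 * n) ^ 2
      + 2571837 * p * c7 * (-1 - 2 * r + p + 10 * m - 5 * n + 2 * e + f) ^ 2 := by positivity

private theorem part06_8 {r p m n i e f c7 c8 c10 c11 c12 : ℝ} (hr : 0 ≤ r) (hp : 0 ≤ p) (hm : 0 ≤ m) (hn : 0 ≤ n) (hi : 0 ≤ i) (he : 0 ≤ e) (hf : 0 ≤ f) (hc7 : 0 ≤ c7) (hc8 : 0 ≤ c8) (hc10 : 0 ≤ c10) (hc11 : 0 ≤ c11) (hc12 : 0 ≤ c12) :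
    0 ≤ 100780599 * r * e * c8 * c8
      + 537432 * m * c7 * (2 + 11 * r - 6 * p - 10 * m + 8 * n - 6 * i + f) ^ 2
      + 119670 * e * (-2 - 16 * r + 10 * p + 6 * m - 7 * n + 5 * i + 6 * e) ^ 2
      + 2571909 * i * c8 * (-1 - 4 * r - p + 10 * m - 2 * n + 2 * i - 2 * e - 3 * f) ^ 2
      + 607857 * e * f * (-3 + 8 * r - 6 * p + 6 * m - 10 * n + 6 * f) ^ 2
      + 533580 * i * e * (6 - 6 * r - 4 * p + 2 * m - 2 * n - 2 * i - 4 * e) ^ 2
      + 226522449 * r * n * c7 * c8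
      + 563991 * i * c8 * (6 - 11 * r + 10 * p - 4 * m - 2 * n - 2 * i + e + 10 * f) ^ 2
      + 266196 * p * i * (2 - 2 * r + 2 * p - 10 * m - 6 * n + i + 3 * e + 3 * f) ^ 2
      + 12825 * c8 * c8 * (-5 + 5 * r + 5 * p + 10 * m - 2 * n + 5 * f) ^ 2
      + 139809 * f * c10 * (r - 3 * p - m + 3 * n + 4 * i - 10 * e + 4 * f) ^ 2
      + 1634124 * m * c11 * (4 - 8 * r + p - 10 * m - 6 * n) ^ 2
      + 1240794 * p * c8 * (6 + 4 * r - 10 * p - 10 * m - 6 * n + 5 * f) ^ 2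
      + 28243665 * n * i * c8 * c12
      + 386670 * n * c8 * (4 - 9 * r - p - 10 * m - 3 * n + 9 * e + 5 * f) ^ 2
      + 696096 * i * (3 - 2 * r + p - 10 * m - 5 * n + 2 * e + 3 * f) ^ 2
      + 637992 * f * c7 * (-2 + 6 * r - 3 * m + 10 * n - 3 * i) ^ 2
      + 92661693 * e * c8 * c11
      + 12981843 * p * i * c11 * c11
      + 115099518 * p * m * i * c11 := by positivity

private theorem part06_9 {r p m n i e f c7 c8 c9 c10 c11 c12 : ℝ} (hr : 0 ≤ r) (hp : 0 ≤ p) (hm : 0 ≤ m) (hn : 0 ≤ n) (hi : 0 ≤ i) (he : 0 ≤ e) (hf : 0 ≤ f) (hc7 : 0 ≤ c7) (hc8 : 0 ≤ c8) (hc9 : 0 ≤ c9) (hc10 : 0 ≤ c10) (hc11 : 0 ≤ c11) (hc12 : 0 ≤ c12) :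
    0 ≤ 503115 * e * e * (-6 * m - 3 * n + 10 * i - 7 * e) ^ 2
      + 144015 * e * c11 * (-1 - m + 3 * n - 10 * i - 9 * e + 7 * f) ^ 2
      + 329586 * m * c11 * (2 + 8 * r - 10 * p + 3 * m - 2 * n) ^ 2
      + 346128 * r * i * (1 + 18 * r - 10 * p - m + 4 * n - 8 * i - 3 * e + 5 * f) ^ 2
      + 38701311 * i * c10 * c11
      + 106565442 * f * c8 * c11 * c12
      + 115485 * c7 * c8 * (1 + 6 * r - 4 * p + 10 * m - n - 6 * i - 2 * e + 2 * f) ^ 2
      + 166596 * m * f * (3 + 14 * r - 10 * p + 4 * m - 8 * n + 2 * e) ^ 2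
      + 45486 * n * c12 * (2 + 11 * r - 10 * p + m - n - 2 * i + 4 * e + 4 * f) ^ 2
      + 3710982 * r * e * (2 + 4 * r - 2 * p - 10 * m - n - 2 * i + 2 * e + f) ^ 2
      + 71403 * c7 * c8 * (-1 + 8 * r - 6 * p + 6 * m - 10 * n + f) ^ 2
      + 122724120 * f * c7 * c8 * c10
      + 1486500 * m * e * (6 - 6 * r - 4 * p - m - 2 * n - 2 * i - e - 2 * f) ^ 2
      + 1445907 * f * c9 * (-4 + 9 * r - p - 4 * m + 10 * n - 5 * i - 2 * e + 4 * f) ^ 2
      + 453429 * c8 * c12 * (6 - 10 * p - 8 * m - n + 2 * f) ^ 2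
      + 1565817 * m * f * (-4 + 13 * r - 3 * p + 5 * m + 10 * n - i + 3 * e - 5 * f) ^ 2
      + 424482 * c7 * c7 * (-4 + 18 * r - 10 * p + 2 * m + 8 * n + 2 * i + 4 * e + 8 * f) ^ 2
      + 1028676 * c10 * (2 + 9 * r - 10 * p - m + 5 * n - 2 * i - 2 * e + 5 * f) ^ 2
      + 1179297 * p * i * (3 + r - p - 10 * m - 5 * n - e + 5 * f) ^ 2
      + 7933542 * m * m * e * c10 := by positivity

private theorem part06_10 {r p m n i e f c7 c8 c9 c10 c11 c12 : ℝ} (hr : 0 ≤ r) (hp : 0 ≤ p) (hm : 0 ≤ m) (hn : 0 ≤ n) (hi : 0 ≤ i) (he : 0 ≤ e) (hf : 0 ≤ f) (hc7 : 0 ≤ c7) (hc8 : 0 ≤ c8) (hc9 : 0 ≤ c9) (hc10 : 0 ≤ c10) (hc11 : 0 ≤ c11) (hc12 : 0 ≤ c12) :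
    0 ≤ 36303 * n * c9 * (2 + 3 * r - 10 * p + 9 * m - 3 * n + 5 * i + 7 * e + 5 * f) ^ 2
      + 450006 * r * i * (-3 + 13 * r - 3 * p - 2 * m - n + 3 * e + 7 * f) ^ 2
      + 13359240 * n * f * c11 * c12
      + 893940 * m * n * (-1 - 13 * r + 10 * p - m - i + e - 4 * f) ^ 2
      + 21081 * r * (1 - 6 * r - 4 * p + 9 * m + n + 6 * i + 5 * e) ^ 2
      + 646164 * m * e * (3 + r - 2 * p - 10 * m + 2 * n - 6 * i + e - 2 * f) ^ 2
      + 135696 * c7 * c8 * (3 - 4 * r - 3 * p + m + 10 * n - 5 * i - 2 * e - 4 * f) ^ 2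
      + 204948063 * i * i * c8 * c10
      + 360936 * c8 * c11 * (3 * i - 10 * e + 3 * f) ^ 2
      + 35572098 * c7 * c7 * c8 * c8
      + 6528054 * n * c7 * c11 * c12
      + 104020488 * p * p * f * c11
      + 302103 * i * c10 * (-1 + 8 * r - 3 * p - 6 * m + 4 * i - 10 * e - 4 * f) ^ 2
      + 107673 * n * i * (2 + 16 * r - 10 * p + 3 * m + 6 * n - 9 * i) ^ 2
      + 202326 * c8 * c9 * (10 * i - e) ^ 2
      + 2094 * c8 * (-2 + 4 * r - 2 * p + 3 * m + 10 * n - 5 * i - 5 * f) ^ 2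
      + 998247 * p * e * (2 + 16 * r - 10 * p - 4 * m + 3 * n - 3 * i - 4 * e) ^ 2
      + 95984463 * f * c7 * c11
      + 13155573 * f * f * c10
      + 6210 * f * c7 * (6 * r - 4 * p + 10 * m - 2 * n - 10 * i + 9 * f) ^ 2 := by positivity

private theorem part06_11 {r p m n i e f c7 c8 c9 c10 c11 : ℝ} (hr : 0 ≤ r) (hp : 0 ≤ p) (hm : 0 ≤ m) (hn : 0 ≤ n) (hi : 0 ≤ i) (he : 0 ≤ e) (hf : 0 ≤ f) (hc7 : 0 ≤ c7) (hc8 : 0 ≤ c8) (hc9 : 0 ≤ c9) (hc10 : 0 ≤ c10) (hc11 : 0 ≤ c11) :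
    0 ≤ 13478427 * r * c7 * c9 * c11
      + 57089988 * f * f * f * c11
      + 536904 * e * f * (-r - 6 * m - 4 * n + 10 * i - 6 * e) ^ 2
      + 85153605 * m * n * e * c11
      + 302061 * e * c11 * (-2 + 6 * r - 4 * p - m + 4 * n - 9 * i + e + 10 * f) ^ 2
      + 1257510 * c7 * c10 * (-1 + 2 * r - 2 * p + 10 * m - 4 * n + i + e) ^ 2
      + 2770449 * r * c10 * (-6 + 2 * r + 7 * p + 10 * m + 5 * n - 3 * i) ^ 2
      + 690039 * m * c10 * (-4 - 2 * r + 10 * p + 5 * m - 9 * n - i + e + 2 * f) ^ 2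
      + 28029051 * r * e * c7 * c8
      + 19148739 * m * m * f * c10
      + 357501 * e * c8 * (-1 - r + 4 * p - 3 * m - n + 10 * i - 6 * e) ^ 2
      + 3446565 * r * n * i * c11
      + 334092 * c8 * c8 * (-10 * i + 3 * e) ^ 2
      + 31179 * e * c7 * (-2 + 5 * r - 4 * p + 7 * m - 7 * n + 8 * i + 4 * e - 10 * f) ^ 2
      + 502095 * i * c10 * (-3 + 18 * r - 8 * p + 8 * m - 3 * n - 4 * i + 9 * e) ^ 2
      + 231447 * p * i * (-11 * r + 7 * p - 2 * m - 10 * n + 7 * i + 4 * e + 2 * f) ^ 2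
      + 782469 * e * f * (-2 - 7 * r + 4 * p + 5 * m - 10 * n + 6 * i + 5 * e) ^ 2
      + 219579678 * f * c8 * c11
      + 77810898 * r * i * c8 * c9
      + 278066148 * i * c8 * c11 := by positivity

private theorem part06_12 {r p m n i e f c7 c8 c9 c10 c11 c12 : ℝ} (hr : 0 ≤ r) (hp : 0 ≤ p) (hn : 0 ≤ n) (hi : 0 ≤ i) (he : 0 ≤ e) (hf : 0 ≤ f) (hc7 : 0 ≤ c7) (hc8 : 0 ≤ c8) (hc9 : 0 ≤ c9) (hc10 : 0 ≤ c10) (hc11 : 0 ≤ c11) (hc12 : 0 ≤ c12) :
    0 ≤ 548421 * p * c7 * (-2 + 4 * r - 2 * p + 9 * m + 10 * n - 6 * i - 4 * e - 5 * f) ^ 2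
      + 152215212 * p * n * c7 * c11
      + 289872 * p * e * (-5 - 7 * r + 7 * p + 10 * m + 4 * n - 5 * i + 10 * e - 2 * f) ^ 2
      + 77739 * p * f * (-4 - 13 * r + 10 * p - 2 * m + 8 * n - 2 * e + f) ^ 2
      + 26793 * i * c11 * (10 + 13 * r - 7 * p + 5 * n + 7 * i + 4 * e + 4 * f) ^ 2
      + 33567 * c11 * (4 - 7 * r + p - 10 * m - 7 * n) ^ 2
      + 245574 * n * c7 * (-2 - 15 * r + 9 * p + 9 * m - 10 * n + 8 * i + 3 * e + 2 * f) ^ 2
      + 145682421 * i * e * c8 * c12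
      + 100905 * r * f * (2 + 16 * r - 10 * p + 4 * m - 5 * n - i + 4 * e - f) ^ 2
      + 19341 * e * f * (-9 - 13 * r + 6 * p - 10 * m + 3 * n + 2 * i - 4 * e - 2 * f) ^ 2
      + 509667 * c7 * c9 * (-2 - r + 2 * p + 10 * m - 5 * n - i + 2 * e + 2 * f) ^ 2
      + 27084 * r * c9 * (3 - 7 * r + 2 * p - 6 * m - 10 * n + 4 * i + 4 * e + 5 * f) ^ 2
      + 436776 * i * e * (-2 - 15 * r + 9 * p + 10 * m + 4 * n + e - f) ^ 2
      + 2540841 * n * c10 * (-2 - 10 * r + 10 * p - m + 4 * n) ^ 2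
      + 2031336 * r * c7 * (-1 + 6 * r - 4 * p + 10 * m + 3 * n - 6 * i - 2 * e + 3 * f) ^ 2
      + 838977 * f * c10 * (2 * r + 6 * p - 2 * m - 10 * n + 5 * i - e - 6 * f) ^ 2
      + 1336320 * f * c10 * (2 - 6 * r + 4 * p - 10 * m + 4 * n - e - f) ^ 2
      + 280242 * r * i * (5 - 14 * r + 4 * p - 10 * m - 8 * n + 3 * i) ^ 2
      + 209694 * f * (-4 + 12 * r - 2 * p - 5 * m + 10 * n - 6 * i - 2 * e + 6 * f) ^ 2
      + 2109861 * c10 * c11 * (-2 - 8 * r + 10 * p - 3 * m + 2 * n) ^ 2 := by positivity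

private theorem part06_13 {r p m n i e f c7 c8 c9 c10 c11 c12 : ℝ} (hr : 0 ≤ r) (hm : 0 ≤ m) (hn : 0 ≤ n) (hi : 0 ≤ i) (he : 0 ≤ e) (hf : 0 ≤ f) (hc7 : 0 ≤ c7) (hc8 : 0 ≤ c8) (hc9 : 0 ≤ c9) (hc10 : 0 ≤ c10) (hc11 : 0 ≤ c11) (hc12 : 0 ≤ c12) :
    0 ≤ 2133162 * e * c8 * (-5 + 8 * r + p - m + 10 * n + i - f) ^ 2
      + 56310 * i * c8 * (-4 + 14 * r - 10 * p + 3 * m - 3 * n - 6 * i + 8 * f) ^ 2
      + 70902 * m * c11 * (1 + 8 * r - 10 * p + 3 * m + 9 * n - e) ^ 2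
      + 1115799 * c7 * c8 * (4 + 4 * r - 10 * p - 7 * m) ^ 2
      + 90474 * f * c7 * (1 + 12 * r - 8 * p + 6 * m + 6 * n - 10 * i + 5 * e - 3 * f) ^ 2
      + 14493 * n * n * (5 - r - 4 * p - 7 * m - 10 * n + 6 * i - 5 * e + 5 * f) ^ 2
      + 1405557 * c8 * (-3 - 3 * r + 10 * p - m - 2 * n + i - 2 * f) ^ 2
      + 48751071 * n * f * c10 * c12
      + 369678 * c8 * c8 * (-15 * r + 10 * p - 5 * m - 2 * n - e - 2 * f) ^ 2
      + 471573 * f * c7 * (3 + 12 * r - 10 * p - 7 * n + 7 * i - 10 * e + f) ^ 2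
      + 217173978 * r * f * c7 * c8
      + 36960 * e * (1 + 6 * r - 3 * p + m + 2 * n - 10 * i + 2 * e + 6 * f) ^ 2
      + 40966248 * e * e * f * c8
      + 74241 * c9 * (2 - 4 * r - 6 * p + 7 * m - 2 * n + 6 * i + 6 * e + 3 * f) ^ 2
      + 67955934 * e * c11 * c12
      + 535278 * i * c8 * (1 + 10 * r - 3 * p - 10 * m + 2 * n - 3 * i + 8 * e - f) ^ 2
      + 169632 * c8 * c9 * (1 - 16 * r + 10 * p - 6 * m - 4 * n - e - f) ^ 2
      + 1508697 * m * n * (-3 + 3 * r + 6 * m + 10 * n - i - 5 * e - 7 * f) ^ 2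
      + 68004615 * i * f * c7 * c11
      + 550425 * e * c8 * (6 + 3 * r - 8 * p + 2 * m - 10 * n + 6 * i - 8 * e + 2 * f) ^ 2 := by positivity

private theorem part06_14 {r p m n i e f c7 c8 c9 c10 c11 c12 : ℝ} (hp : 0 ≤ p) (hm : 0 ≤ m) (hn : 0 ≤ n) (hi : 0 ≤ i) (he : 0 ≤ e) (hf : 0 ≤ f) (hc7 : 0 ≤ c7) (hc8 : 0 ≤ c8) (hc9 : 0 ≤ c9) (hc10 : 0 ≤ c10) (hc11 : 0 ≤ c11) (hc12 : 0 ≤ c12) :
    0 ≤ 1273191 * e * c10 * (-1 - r + 10 * m - n - 4 * i + 8 * e - 2 * f) ^ 2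
      + 2322642 * p * e * c10 * c11
      + 24613128 * n * c7 * c8
      + 91826157 * e * f * c11
      + 299660007 * i * f * c8 * c9
      + 6220416 * p * i * c8 * c12
      + 53090568 * n * f * f * c11
      + 984342 * p * f * (1 + 19 * r - 10 * p - 5 * n - i + e + 4 * f) ^ 2
      + 14328 * c7 * c10 * (1 - 15 * r + 10 * p - 8 * m + 4 * n + i - 3 * e + 4 * f) ^ 2
      + 26995986 * e * f * f * c8
      + 69109248 * n * e * f * c8
      + 80874 * f * c11 * (10 - 2 * r + 4 * p + 2 * m + 5 * n - i + 4 * f) ^ 2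
      + 225628707 * m * f * c7 * c8
      + 736485 * m * c11 * (-e + 10 * f) ^ 2
      + 395760 * p * e * (2 - 9 * r + p + 3 * m - 9 * n + 8 * i + 3 * e - 10 * f) ^ 2
      + 1438638 * c11 * (3 + 6 * r - 10 * p - 4 * m + 4 * n) ^ 2
      + 189654 * n * c8 * (-14 * r + 10 * p - 7 * m - n - 3 * e - 2 * f) ^ 2
      + 483933 * e * c11 * (-10 + 5 * m - 6 * n + i - e - f) ^ 2
      + 953748 * m * c10 * (5 - r - 9 * p - 4 * m - 4 * n + 5 * i) ^ 2
      + 443913 * n * e * (3 + 10 * r - 8 * p - 2 * n - 10 * i + e + 5 * f) ^ 2 := by positivity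

private theorem part06_15 {r p m n i e f c7 c8 c9 c10 c11 c12 : ℝ} (hr : 0 ≤ r) (hp : 0 ≤ p) (hm : 0 ≤ m) (hn : 0 ≤ n) (hi : 0 ≤ i) (he : 0 ≤ e) (hf : 0 ≤ f) (hc7 : 0 ≤ c7) (hc8 : 0 ≤ c8) (hc9 : 0 ≤ c9) (hc10 : 0 ≤ c10) (hc11 : 0 ≤ c11) (hc12 : 0 ≤ c12) :
    0 ≤ 41115 * c9 * c11 * (-10 * i + 9 * e - 5 * f) ^ 2
      + 1364439 * p * c8 * (-10 * i - 7 * e) ^ 2
      + 13944882 * i * i * i * c11
      + 151719 * f * c7 * (2 - 4 * r - p - 9 * m - i + 10 * f) ^ 2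
      + 1177818 * m * c10 * (-6 + 2 * r + 8 * p + 9 * m + 5 * n - i) ^ 2
      + 605904 * r * c10 * (-3 - 5 * r + 5 * p + 10 * m + 3 * e) ^ 2
      + 197349 * m * i * (-2 + 5 * r - 4 * p + 7 * m + 10 * n - i - 7 * e - 4 * f) ^ 2
      + 20622 * c7 * (-1 + 3 * r - 3 * p + 10 * m + 10 * n - 5 * i - 4 * e - 4 * f) ^ 2
      + 67119 * r * c11 * (3 + 5 * r - 10 * p - 3 * m + 3 * n) ^ 2
      + 138151437 * n * n * e * c11
      + 226815222 * i * e * c8
      + 18511248 * m * e * c9 * c11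
      + 261450 * n * c8 * (2 - 3 * r + p - 4 * m - 10 * n + 3 * e + 8 * f) ^ 2
      + 25117878 * m * f * c10
      + 43723524 * e * f * c8
      + 24182430 * f * c10 * c10
      + 112573236 * r * e * c8 * c10
      + 37767 * c11 * c12 * (-4 + 7 * r + p + 4 * m + 10 * n - 2 * i) ^ 2
      + 39778521 * i * f * c10
      + 1117362 * p * f * (-4 + 11 * r - 2 * p - 3 * m + 10 * n - 6 * i - e + 4 * f) ^ 2 := by positivity

private theorem part06_16 {r p m n i e f c7 c8 c9 c11 : ℝ} (hr : 0 ≤ r) (hp : 0 ≤ p) (hm : 0 ≤ m) (hn : 0 ≤ n) (hi : 0 ≤ i) (hc7 : 0 ≤ c7) (hc8 : 0 ≤ c8) (hc9 : 0 ≤ c9) (hc11 : 0 ≤ c11) :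
    0 ≤ 167253 * c9 * c11 * (10 * i - e) ^ 2
      + 224946 * c11 * (-3 - 7 * r + 10 * p + 4 * n) ^ 2
      + 321741 * n * c7 * (5 * r - 3 * p + 10 * m - 9 * i - e + 9 * f) ^ 2
      + 122619477 * m * n * i * c11
      + 61748691 * c7 * c7 * c8
      + 3311 * r * n * n
      + 3191 * r * r * i
      + 3191 * r * p * p
      + 3169 * r * n
      + 2909 * r * r
      + 2712 * r * m
      + 3262 * r * p * m
      + 4271 * r * m * n
      + 3224 * r * r * m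
      + 3316 * r * m * m
      + 2984 * n * n
      + 2907 * r * i
      + 2857 * p * p
      + 3000 * n
      + 2079 * p * m := by positivity

private theorem part06_17 {r p m n i e : ℝ} (hr : 0 ≤ r) (hp : 0 ≤ p) (hm : 0 ≤ m) (hn : 0 ≤ n) (hi : 0 ≤ i) (he : 0 ≤ e) :
    0 ≤ 2676 * m * n
      + 2820 * m * m
      + 2652 * m * n * n
      + 3023 * r * m * i
      + 4353 * p * p * m
      + 3483 * p * m * m
      + 3018 * m * m * n
      + 2754 * m * m * m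
      + 2484 * r * m * n * n
      + 3186 * r * r * m * i
      + 2556 * r * p * p * m
      + 2250 * r * p * m * m
      + 2376 * r * m * m * n
      + 3210 * r * r * m * m
      + 3153 * r * m * m * m
      + 3072 * p
      + 2925 * p * n
      + 3040 * i
      + 2880 * p * i
      + 3057 * e := by positivity

private theorem part06_18 {p n i e f : ℝ} (hp : 0 ≤ p) (hn : 0 ≤ n) (hi : 0 ≤ i) (he : 0 ≤ e) (hf : 0 ≤ f) :
    0 ≤ 2901 * p * e
      + 3083 * f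
      + 3048 * p * f
      + 2872 * n * i
      + 2884 * n * e
      + 2635 * n * f
      + 2987 * i * i
      + 3019 * i * e
      + 2974 * i * f
      + 3236 * e * e
      + 1603126 * e * f
      + 2813 * f * f
      + 3280 * p * n * n
      + 3086 * p * n * i
      + 3419 * p * n * e
      + 3470 * p * n * f
      + 2482 * p * i * i
      + 3521 * p * i * e
      + 2444 * p * i * f
      + 2428 * p * e * e := by positivity

private theorem part06_19 {r p m n i e f : ℝ} (hr : 0 ≤ r) (hp : 0 ≤ p) (hm : 0 ≤ m) (hn : 0 ≤ n) (hi : 0 ≤ i) (he : 0 ≤ e) (hf : 0 ≤ f) :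
    0 ≤ 3551 * p * e * f
      + 2674 * p * f * f
      + 2982
      + 3094 * p * p * p
      + 3134 * p * p * n
      + 3233 * p * p * i
      + 2846 * p * p * e
      + 3257 * p * p * f
      + 2871 * r * e
      + 3300 * m * i
      + 2895 * m * e
      + 2866 * r * r * e
      + 3578 * r * m * e
      + 3079 * m * m * i
      + 3220 * m * m * e
      + 3387 * p * m * m * m
      + 2556 * p * m * m * e
      + 3000 * p * m * m * f
      + 2196 * r * n * e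
      + 3009 * m * n * e := by positivity

private theorem part06_20 {r p m n i e f : ℝ} (hr : 0 ≤ r) (hp : 0 ≤ p) (hm : 0 ≤ m) (hn : 0 ≤ n) (hi : 0 ≤ i) (he : 0 ≤ e) (hf : 0 ≤ f) :
    0 ≤ 3315 * n * n * e
      + 2355 * n * i * e
      + 179952 * n * e * e
      + 2913 * n * e * f
      + 3408 * r * r * n * e
      + 3510 * r * p * n * e
      + 3564 * r * m * n * e
      + 2685 * r * n * n * e
      + 3099 * r * n * i * e
      + 3552 * r * n * e * e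
      + 3060 * r * n * e * f
      + 2970 * p * p * n * e
      + 2658 * p * m * n * e
      + 2958 * p * n * n * e
      + 3021 * p * n * i * e
      + 2541 * p * n * e * e
      + 2559 * p * n * e * f
      + 2640 * m * m * n * e
      + 2637 * m * n * n * e
      + 2796 * m * n * i * e := by positivity

private theorem part06_21 {r p m n i e f : ℝ} (hr : 0 ≤ r) (hp : 0 ≤ p) (hm : 0 ≤ m) (hn : 0 ≤ n) (hi : 0 ≤ i) (he : 0 ≤ e) (hf : 0 ≤ f) :
    0 ≤ 2643 * m * n * e * e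
      + 3714 * m * n * e * f
      + 3009 * n * n * n * e
      + 2850 * n * n * i * e
      + 3408 * n * n * e * e
      + 3216 * n * n * e * f
      + 3414 * n * i * i * e
      + 3174 * n * i * e * e
      + 3171 * n * i * e * f
      + 2859 * n * e * e * e
      + 3480 * n * e * e * f
      + 3252 * n * e * f * f
      + 2334 * r * p * i
      + 3411 * r * n * i
      + 3258 * r * i * i
      + 3138 * r * i * e
      + 2793 * r * i * f
      + 2493 * p * m * i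
      + 2853 * m * n * i
      + 2571 * m * i * i := by positivity

private theorem part06_22 {r p m n i e f : ℝ} (hr : 0 ≤ r) (hp : 0 ≤ p) (hm : 0 ≤ m) (hn : 0 ≤ n) (hi : 0 ≤ i) (he : 0 ≤ e) (hf : 0 ≤ f) :
    0 ≤ 2646 * m * i * e
      + 2631 * m * i * f
      + 3330 * n * n * i
      + 3150 * n * i * i
      + 3564 * n * i * f
      + 3507 * i * i * i
      + 3639 * i * i * e
      + 4320 * i * i * f
      + 2475 * i * e * e
      + 2967 * i * e * f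
      + 3810 * i * f * f
      + 3444 * r * r * r
      + 3090 * r * r * p * p
      + 2751 * r * p * p * p
      + 3294 * r * p * p * n
      + 3390 * r * p * p * i
      + 3783 * r * p * p * e
      + 3720 * r * p * p * f
      + 3066 * p * p * p * p
      + 2196 * p * p * p * m := by positivity

private theorem part06_23 {r p m n i e f : ℝ} (hr : 0 ≤ r) (hp : 0 ≤ p) (hm : 0 ≤ m) (hn : 0 ≤ n) (hi : 0 ≤ i) (he : 0 ≤ e) (hf : 0 ≤ f) :
    0 ≤ 2844 * p * p * p * n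
      + 2793 * p * p * p * i
      + 2715 * p * p * p * e
      + 2535 * p * p * p * f
      + 3162 * p * p * m * m
      + 2790 * p * p * m * n
      + 3660 * p * p * m * i
      + 3351 * p * p * m * e
      + 3978 * p * p * m * f
      + 2604 * p * p * n * n
      + 3177 * p * p * n * i
      + 2706 * p * p * n * f
      + 3336 * p * p * i * i
      + 2778 * p * p * i * e
      + 2787 * p * p * i * f
      + 3597 * p * p * e * e
      + 2760 * p * p * e * f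
      + 3060 * p * p * f * f
      + 2679 * r * p * e * e
      + 3207 * r * i * e * e := by positivity

private theorem part06_24 {r p m n i e f : ℝ} (hr : 0 ≤ r) (hp : 0 ≤ p) (hm : 0 ≤ m) (hn : 0 ≤ n) (hi : 0 ≤ i) (he : 0 ≤ e) (hf : 0 ≤ f) :
    0 ≤ 2898 * r * e * e * e
      + 2655 * r * e * e * f
      + 3228 * r * p * e * f
      + 4734 * r * i * e * f
      + 3432 * r * e * f * f
      + 3288 * r * p * f * f
      + 3384 * r * n * f * f
      + 3840 * r * i * f * f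
      + 3060 * r * f * f * f
      + 2412 * r * p * n
      + 1947 * r * n * f
      + 3870 * p * m * n
      + 2844 * m * n * f
      + 3042 * n * n * n
      + 3324 * n * n * f
      + 3036 * r * r * p * n
      + 3558 * r * r * n * n
      + 3396 * r * r * n * i
      + 3456 * r * r * n * f
      + 2907 * r * p * n * n := by positivity

private theorem part06_25 {r p m n i f : ℝ} (hr : 0 ≤ r) (hp : 0 ≤ p) (hm : 0 ≤ m) (hn : 0 ≤ n) (hi : 0 ≤ i) (hf : 0 ≤ f) :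
    0 ≤ 2361 * r * p * n * i
      + 4602 * r * p * n * f
      + 1380 * r * p * m * n
      + 3162 * r * m * n * i
      + 3438 * r * m * n * f
      + 2292 * r * n * n * n
      + 2781 * r * n * n * i
      + 3021 * r * n * n * f
      + 3120 * p * m * n * n
      + 3432 * p * m * n * i
      + 2898 * p * m * n * f
      + 3042 * p * n * n * n
      + 2808 * p * n * n * i
      + 2841 * p * n * n * f
      + 2307 * p * m * m * n
      + 3030 * m * m * n * n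
      + 2700 * m * m * n * i
      + 3048 * m * m * n * f
      + 2940 * m * n * n * n
      + 2922 * m * n * n * i := by positivity

private theorem part06_26 {r p m n i e f : ℝ} (hr : 0 ≤ r) (hp : 0 ≤ p) (hm : 0 ≤ m) (hn : 0 ≤ n) (hi : 0 ≤ i) (he : 0 ≤ e) (hf : 0 ≤ f) :
    0 ≤ 2724 * m * n * n * f
      + 2955 * n * n * n * n
      + 3141 * n * n * n * i
      + 2757 * n * n * n * f
      + 2712 * r * r * r * e
      + 3009 * r * r * m * e
      + 2859 * r * r * p * e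
      + 2622 * r * p * m * e
      + 2619 * r * m * m * e
      + 3450 * r * r * i * e
      + 3348 * r * m * i * e
      + 2676 * r * r * e * f
      + 3372 * r * m * e * f
      + 2766 * r * p * i * e
      + 3144 * p * m * i * e
      + 2847 * p * m * e * f
      + 2919 * m * m * m * e
      + 3192 * m * m * i * e
      + 2706 * m * m * e * f
      + 2211 * r * i * i * e := by positivity

private theorem part06_27 {r p m n i e f : ℝ} (hr : 0 ≤ r) (hp : 0 ≤ p) (hm : 0 ≤ m) (hn : 0 ≤ n) (hi : 0 ≤ i) (he : 0 ≤ e) (hf : 0 ≤ f) :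
    0 ≤ 2730 * m * i * i * e
      + 3042 * m * i * e * f
      + 3204 * m * e * f * f
      + 2973 * n * f * f
      + 2736 * p * n * f * f
      + 3312 * r * r * p * i
      + 2757 * m * e * e
      + 3255 * e * e * e
      + 42001755 * e * e * f
      + 2703 * r * m * e * e
      + 3156 * p * m * e * e
      + 2709 * p * e * e * e
      + 2745 * p * e * e * f
      + 2307 * m * e * f
      + 2817 * e * f * f
      + 3342 * p * e * f * f
      + 2901 * m * f * f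
      + 3072 * f * f * f
      + 2814 * r * m * f * f
      + 2319 * p * m * f * f := by positivity

private theorem part06_28 {r p m n i e f : ℝ} (hr : 0 ≤ r) (hp : 0 ≤ p) (hm : 0 ≤ m) (hn : 0 ≤ n) (hi : 0 ≤ i) (he : 0 ≤ e) (hf : 0 ≤ f) :
    0 ≤ 3264 * p * f * f * f
      + 3693 * r * r * i * i
      + 3252 * r * r * i * f
      + 2403 * r * p * i * i
      + 2733 * r * p * i * f
      + 3048 * r * p * m * i
      + 2820 * r * m * i * i
      + 3549 * r * m * i * f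
      + 2871 * r * n * i * i
      + 3159 * r * n * i * f
      + 3354 * r * i * i * i
      + 3351 * r * i * i * f
      + 2889 * p * m * i * i
      + 2691 * p * m * i * f
      + 3078 * p * n * i * i
      + 2724 * p * n * i * f
      + 3135 * p * i * i * i
      + 2763 * p * i * i * e
      + 3000 * p * i * i * f
      + 3396 * p * i * e * e := by positivity

private theorem part06_29 {p m n i e f : ℝ} (hp : 0 ≤ p) (hm : 0 ≤ m) (hn : 0 ≤ n) (hi : 0 ≤ i) (he : 0 ≤ e) (hf : 0 ≤ f) :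
    0 ≤ 2829 * p * i * e * f
      + 2796 * p * i * f * f
      + 3294 * p * m * m * i
      + 3636 * m * m * i * i
      + 2430 * m * m * i * f
      + 2805 * m * n * i * i
      + 3288 * m * n * i * f
      + 3018 * m * i * i * i
      + 2676 * m * i * i * f
      + 3417 * m * i * e * e
      + 3144 * m * i * f * f
      + 3147 * n * n * i * i
      + 2352 * n * n * i * f
      + 2931 * n * i * i * i
      + 2703 * n * i * i * f
      + 2475 * n * i * f * f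
      + 2703 * i * i * i * i
      + 2955 * i * i * i * e
      + 2208 * i * i * i * f
      + 3375 * i * i * e * e := by positivity

private theorem part06_30 {r p m n i e f : ℝ} (hr : 0 ≤ r) (hp : 0 ≤ p) (hm : 0 ≤ m) (hn : 0 ≤ n) (hi : 0 ≤ i) (he : 0 ≤ e) (hf : 0 ≤ f) :
    0 ≤ 2451 * i * i * e * f
      + 2508 * i * i * f * f
      + 2748 * i * e * e * e
      + 2856 * i * e * e * f
      + 2538 * i * e * f * f
      + 2517 * i * f * f * f
      + 3048 * m * f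
      + 3417 * r * m * f
      + 1842 * r * e * f
      + 2991 * r * f * f
      + 2898 * p * m * f
      + 3942 * r * r * m * f
      + 2370 * r * r * f * f
      + 1536 * r * p * m * f
      + 3078 * n * n * f * f
      + 3225 * m
      + 2607 * r * f
      + 3438 * r * r * f
      + 3240 * r * p * e
      + 3333 * r * p * f := by positivity

private theorem part06_31 {r p m n i e f : ℝ} (hr : 0 ≤ r) (hp : 0 ≤ p) (hm : 0 ≤ m) (hn : 0 ≤ n) (hi : 0 ≤ i) (he : 0 ≤ e) (hf : 0 ≤ f) :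
    0 ≤ 2871 * r * e * e
      + 3126 * p * m * e
      + 3084 * m * m * f
      + 3000 * r
      + 3519 * r * r * n
      + 3126 * r * p
      + 3177 * r * r * r * m
      + 2274 * r * r * r * n
      + 2244 * r * r * r * i
      + 2892 * r * r * m * n
      + 2517 * r * r * p
      + 3021 * r * r * p * m
      + 2145 * r * m * m * i
      + 2370 * r * m * m * f
      + 2880 * m * m * m * m
      + 2928 * m * m * m * n
      + 3099 * m * m * m * i
      + 2898 * m * m * m * f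
      + 3231 * m * m * e * e
      + 3303 * m * m * f * f := by positivity

private theorem part06_32 {r p m n e f : ℝ} (hr : 0 ≤ r) (hp : 0 ≤ p) (hm : 0 ≤ m) (hn : 0 ≤ n) (he : 0 ≤ e) (hf : 0 ≤ f) :
    0 ≤ 3042 * m * n * f * f
      + 3105 * r * r * e * e
      + 2718 * r * r * r * r
      + 3387 * r * r * r * p
      + 1953 * r * r * r * f
      + 2820 * r * r * p * f
      + 2874 * m * e * e * f
      + 3219 * m * f * f * f
      + 2856 * m * e * e * e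
      + 41904177 * e * e * e * f
      + 2886 * e * e * f * f
      + 9220767 * e * f * f * f
      + 2856 * f * f * f * f
      + 2967 * n * f * f * f
      + 3057 * e * e * e * e := by positivity

theorem leaf06 {r p m n i e f : ℝ} (h0 : 0 ≤ r) (h1 : 0 ≤ p) (h2 : 0 ≤ m) (h3 : 0 ≤ n) (h4 : 0 ≤ i) (h5 : 0 ≤ e) (h6 : 0 ≤ f) (h7 : 0 ≤ r - m) (h8 : 0 ≤ 1 - r - p) (h9 : 0 ≤ 1 - m - n - i) (h10 : 0 ≤ m - e - f) (h11 : 0 ≤ p - n - i - e - f) (h12 : 0 ≤ 1 - m - 2 * n) :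
    0 ≤ 75000000 - 348000000 * p - 120000000 * n + 212500000 * i + 105000000 * e + 72500000 * f + 95000000 * r * r - 285000000 * r * m + 190000000 * r * n - 327000000 * r * i - 27000000 * r * e + 568000000 * p * p - 300000000 * p * m + 330000000 * p * n + 330000000 * p * i + 330000000 * p * e + 330000000 * p * f + 341250000 * m * m - 285000000 * m * n + 120000000 * m * i + 120000000 * m * e + 23750000 * n * n - 552500000 * n * i - 552500000 * n * e - 552500000 * n * f - 276250000 * i * i - 552500000 * i * e - 552500000 * i * f - 276250000 * e * e - 552500000 * e * f - 276250000 * f * f + 485000000 * r * r * m - 10000000 * r * r * i - 200000000 * r * r * e - 190000000 * r * p * p + 190000000 * r * p * m - 308750000 * r * m * m + 485000000 * r * m * n - 985000000 * r * m * i - 400000000 * r * m * e - 190000000 * r * n * n - 200000000 * p * p * p + 585000000 * p * p * m - 400000000 * p * p * n - 400000000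 * p * p * i - 400000000 * p * p * e - 400000000 * p * p * f - 585000000 * p * m * m + 148750000 * p * n * n + 297500000 * p * n * i + 297500000 * p * n * e + 297500000 * p * n * f + 148750000 * p * i * i + 297500000 * p * i * e + 297500000 * p * i * f + 148750000 * p * e * e + 297500000 * p * e * f + 148750000 * p * f * f - 585000000 * m * m * m + 585000000 * m * m * n + 220000000 * m * m * i + 220000000 * m * m * e + 585000000 * m * n * n - 195000000 * r * r * m * m + 675000000 * r * r * m * i - 675000000 * r * p * p * m + 1635000000 * r * p * m * m + 675000000 * r * m * m * m - 675000000 * r * m * m * n - 675000000 * r * m * n * n + 480000000 * p * m * m * m - 480000000 * p * m * m * e - 480000000 * p * m * m * f := by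
  have t0 := part06_0 h0 h1 h2 h3 h4 h5 h6 h7 h8 h9 h10 h11
  have t1 := part06_1 h0 h1 h2 h3 h4 h5 h6 h7 h8 h10 h11
  have t2 := part06_2 h0 h1 h2 h3 h4 h5 h6 h7 h8 h9 h10 h11
  have t3 := part06_3 h0 h1 h2 h3 h4 h5 h6 h7 h8 h9 h10 h11 h12
  have t4 := part06_4 (r := r) h1 h2 h3 h4 h5 h6 h7 h8 h9 h10 h11 h12
  have t5 := part06_5 h0 h1 h2 h3 h4 h5 h6 h7 h8 h9 h10 h11 h12
  have t6 := part06_6 h0 h1 h2 h3 h4 h5 h6 h7 h8 h10 h11 h12
  have t7 := part06_7 h0 h1 h2 h3 h4 h5 h6 h7 h8 h10 h11 h12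
  have t8 := part06_8 h0 h1 h2 h3 h4 h5 h6 h7 h8 h10 h11 h12
  have t9 := part06_9 h0 h1 h2 h3 h4 h5 h6 h7 h8 h9 h10 h11 h12
  have t10 := part06_10 h0 h1 h2 h3 h4 h5 h6 h7 h8 h9 h10 h11 h12
  have t11 := part06_11 h0 h1 h2 h3 h4 h5 h6 h7 h8 h9 h10 h11
  have t12 := part06_12 (m := m) h0 h1 h3 h4 h5 h6 h7 h8 h9 h10 h11 h12
  have t13 := part06_13 (p := p) h0 h2 h3 h4 h5 h6 h7 h8 h9 h10 h11 h12
  have t14 := part06_14 (r := r) h1 h2 h3 h4 h5 h6 h7 h8 h9 h10 h11 h12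
  have t15 := part06_15 h0 h1 h2 h3 h4 h5 h6 h7 h8 h9 h10 h11 h12
  have t16 := part06_16 (e := e) (f := f) h0 h1 h2 h3 h4 h7 h8 h9 h11
  have t17 := part06_17 h0 h1 h2 h3 h4 h5
  have t18 := part06_18 h1 h3 h4 h5 h6
  have t19 := part06_19 h0 h1 h2 h3 h4 h5 h6
  have t20 := part06_20 h0 h1 h2 h3 h4 h5 h6
  have t21 := part06_21 h0 h1 h2 h3 h4 h5 h6
  have t22 := part06_22 h0 h1 h2 h3 h4 h5 h6
  have t23 := part06_23 h0 h1 h2 h3 h4 h5 h6
  have t24 := part06_24 h0 h1 h2 h3 h4 h5 h6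
  have t25 := part06_25 h0 h1 h2 h3 h4 h6
  have t26 := part06_26 h0 h1 h2 h3 h4 h5 h6
  have t27 := part06_27 h0 h1 h2 h3 h4 h5 h6
  have t28 := part06_28 h0 h1 h2 h3 h4 h5 h6
  have t29 := part06_29 h1 h2 h3 h4 h5 h6
  have t30 := part06_30 h0 h1 h2 h3 h4 h5 h6
  have t31 := part06_31 h0 h1 h2 h3 h4 h5 h6
  have t32 := part06_32 h0 h1 h2 h3 h5 h6
  linarith only [t0, t1, t2, t3, t4, t5, t6, t7, t8, t9, t10, t11, t12, t13, t14, t15, t16, t17, t18, t19, t20, t21, t22, t23, t24, t25, t26, t27, t28, t29, t30, t31, t32]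

end Vale.Agent.P038.K4
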