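import Mathlib

/-
P038: one corner of the polynomial inequality for K4-free graphs (exact nonnegativity certificate).
-/

namespace Vale.Agent.P038.K4

private theorem part07_0 {r p m n i e f c7 c8 c10 c11 c12 : ℝ} (hr : 0 ≤ r) (hp : 0 ≤ p) (hm : 0 ≤ m) (hn : 0 ≤ n) (hi : 0 ≤ i) (he : 0 ≤ e) (hf : 0 ≤ f) (hc7 : 0 ≤ c7) (hc8 : 0 ≤ c8) (hc10 : 0 ≤ c10) (hc11 : 0 ≤ c11) (hc12 : 0 ≤ c12) :
    0 ≤ 50778 * m * m * n * c12
      + 103114194 * r * i * c11
      + 31823142 * p * i * e * c7
      + 14532927 * r * r * c8 * c11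
      + 85738203 * f * c12
      + 425073594 * r * p * c7 * c7
      + 98157438 * m * i * c8
      + 17824926 * e * f * f * c7
      + 19455 * c11 * (-1 + r + m - 2 * n - i - 9 * e + 10 * f) ^ 2
      + 18443025 * r * m * f * c12
      + 113350542 * r * c8 * c8
      + 248200137 * m * i * c7 * c7
      + 317395005 * e * c11
      + 74833044 * r * e * e * c8
      + 410427 * r * r * (4 - 12 * r + 6 * p + n - 10 * i + 9 * e + 4 * f) ^ 2
      + 25361514 * n * f * c12
      + 40258749 * e * e * c8 * c8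
      + 31483179 * n * c7
      + 17467965 * p * f * c12
      + 17898387 * m * e * c10 := by positivity

private theorem part07_1 {r p m n i e f c7 c8 c9 c10 c11 c12 : ℝ} (hr : 0 ≤ r) (hp : 0 ≤ p) (hm : 0 ≤ m) (hn : 0 ≤ n) (hi : 0 ≤ i) (he : 0 ≤ e) (hf : 0 ≤ f) (hc7 : 0 ≤ c7) (hc8 : 0 ≤ c8) (hc9 : 0 ≤ c9) (hc10 : 0 ≤ c10) (hc11 : 0 ≤ c11) (hc12 : 0 ≤ c12) :
    0 ≤ 2417928 * m * i * f * c7
      + 4489110 * r * r * f * c10
      + 203799 * n * c8 * (2 - 15 * r + 10 * p - 6 * m + n + i + f) ^ 2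
      + 17414211 * m * n * c10
      + 189797541 * c7 * c7 * c8
      + 10808289 * i * i * c8
      + 5677863 * r * e * c10
      + 33480 * m * e * e * c12
      + 157118997 * e * c7 * c7
      + 166631340 * m * m * c8 * c9
      + 128776017 * p * p * e * c10
      + 1812030 * m * f * f * c12
      + 285424089 * f * c11
      + 11801478 * p * p * n * c12
      + 140331000 * r * r * n * c12
      + 515595075 * m * m * n * c8
      + 25260 * c7 * (-3 + 14 * r - 10 * p + 10 * m - 2 * n - 9 * i - e + 4 * f) ^ 2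
      + 59470380 * e * f * c7 * c7
      + 644607 * m * m * m * c12
      + 7621386 * p * e * e * c12 := by positivity

private theorem part07_2 {r p m n i e f c7 c8 c9 c10 c11 c12 : ℝ} (hr : 0 ≤ r) (hp : 0 ≤ p) (hm : 0 ≤ m) (hn : 0 ≤ n) (hi : 0 ≤ i) (he : 0 ≤ e) (hf : 0 ≤ f) (hc7 : 0 ≤ c7) (hc8 : 0 ≤ c8) (hc9 : 0 ≤ c9) (hc10 : 0 ≤ c10) (hc11 : 0 ≤ c11) (hc12 : 0 ≤ c12) :
    0 ≤ 30170466 * c7 * c8
      + 254586 * (2 + 13 * r - 10 * p - 5 * m + n + 4 * i - 5 * e - 4 * f - 15 * r * r + 8 * r * p + 5 * r * m + 4 * r * n - 3 * r * i - r * e - r * f - p * p - 6 * p * m - 2 * p * n + 2 * p * i + p * e + p * f - 2 * m * m + 3 * m * n - 5 * m * i + m * f - 4 * n * n + 3 * n * i - n * e - 2 * n * f + 3 * i * i - 3 * i * e - 2 * i * f + 3 * e * e + e * f + 2 * f * f) ^ 2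
      + 49243254 * r * m * e * c11
      + 230957349 * m * n * c7 * c7
      + 130848702 * c7 * c11
      + 72172479 * r * i * e * c10
      + 159283137 * i * c8
      + 76054383 * e * c12
      + 1234272 * e * f * f * c10
      + 190486194 * n * n * c7 * c7
      + 67629867 * m * n * n * c8
      + 5046090 * p * p * p * c11
      + 26105355 * p * f * f * c8
      + 2335278 * c8 * c11
      + 102553005 * p * e * c8
      + 21554031 * p * f * f * c7
      + 733598577 * p * m * m * c7
      + 7198293 * i * e * e * c12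
      + 32825142 * e * f * c8 * c9
      + 8746785 * i * i * e * c11 := by positivity

private theorem part07_3 {r p m n i e f c7 c8 c9 c10 c11 c12 : ℝ} (hr : 0 ≤ r) (hp : 0 ≤ p) (hm : 0 ≤ m) (hn : 0 ≤ n) (hi : 0 ≤ i) (he : 0 ≤ e) (hf : 0 ≤ f) (hc7 : 0 ≤ c7) (hc8 : 0 ≤ c8) (hc9 : 0 ≤ c9) (hc10 : 0 ≤ c10) (hc11 : 0 ≤ c11) (hc12 : 0 ≤ c12) :
    0 ≤ 7380213 * p * p * c8 * c12
      + 11753805 * p * e * f * c10
      + 2055645 * r * r * p * c8
      + 152599488 * m * e * c7 * c7
      + 16951476 * p * e * c12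
      + 3337098 * n * n * e * c12
      + 225530994 * p * c10 * c11
      + 70012392 * r * m * c7 * c7
      + 133765278 * r * c7 * c10
      + 6748881 * r * p * e * c12
      + 14472996 * n * f * c8 * c8
      + 160139607 * p * p * c8
      + 185313 * r * c11 * (10 * r - 10 * p - 2 * m - 7 * n - i - 3 * e - 2 * f) ^ 2
      + 414741 * n * (-5 + 2 * r + p - 4 * n + 10 * i - e + 6 * f) ^ 2
      + 7050807 * m * e * c8 * c12
      + 26831916 * p * m * n * c8
      + 821130 * m * c9 * (-2 - 14 * r + 10 * p + 4 * m - 4 * n + 7 * i + 4 * e + f) ^ 2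
      + 58311453 * i * i * e * c7
      + 3291975 * f * f * f * c8
      + 9720237 * p * i * i * c11 := by positivity

private theorem part07_4 {r p m n i e f c7 c8 c9 c10 c11 c12 : ℝ} (hr : 0 ≤ r) (hp : 0 ≤ p) (hm : 0 ≤ m) (hn : 0 ≤ n) (hi : 0 ≤ i) (he : 0 ≤ e) (hf : 0 ≤ f) (hc7 : 0 ≤ c7) (hc8 : 0 ≤ c8) (hc9 : 0 ≤ c9) (hc10 : 0 ≤ c10) (hc11 : 0 ≤ c11) (hc12 : 0 ≤ c12) :
    0 ≤ 357001944 * i * c11
      + 32635245 * p * m * c8 * c11
      + 110322 * r * f * (-10 - 6 * r - 5 * m + 4 * n + 5 * i - 7 * e + 4 * f) ^ 2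
      + 231255102 * m * m * m * c7
      + 131777826 * p * f * c10
      + 10233780 * r * r * e * c12
      + 10511175 * r * i * e * c8
      + 623931 * m * c8 * (-2 - 15 * r + 10 * p - 4 * n + 6 * i + e + f) ^ 2
      + 272328 * c7 * c12 * (-8 + 14 * r - 10 * p + 10 * m - 7 * n - 3 * i + e + f) ^ 2
      + 4738425 * p * e * c12 * c12
      + 16707993 * r * f * c12
      + 46344 * n * e * (-3 + 12 * r - 5 * p + m - 10 * n + 4 * i + 4 * e - 2 * f) ^ 2
      + 49246779 * n * c11
      + 22753461 * p * n * n * c12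
      + 6324 * i * i * (-10 + 5 * r - 9 * p + 5 * m + 4 * n + 7 * i - 2 * f) ^ 2
      + 465528 * p * c10 * (-1 + 15 * r - 10 * p + 5 * m - 5 * i) ^ 2
      + 29126259 * i * i * c7
      + 184053 * m * c7 * (-10 + 3 * r - 3 * p - 4 * m - 5 * n + 10 * i + 4 * e - 7 * f) ^ 2
      + 249864 * c8 * c9 * (2 + 18 * r - 10 * p + 9 * m - 6 * n + 5 * i - f) ^ 2
      + 86762211 * f * c7 * c7 := by positivity

private theorem part07_5 {r p m n i e f c7 c8 c9 c10 c11 c12 : ℝ} (hr : 0 ≤ r) (hp : 0 ≤ p) (hm : 0 ≤ m) (hn : 0 ≤ n) (hi : 0 ≤ i) (he : 0 ≤ e) (hf : 0 ≤ f) (hc7 : 0 ≤ c7) (hc8 : 0 ≤ c8) (hc9 : 0 ≤ c9) (hc10 : 0 ≤ c10) (hc11 : 0 ≤ c11) (hc12 : 0 ≤ c12) :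
    0 ≤ 32403528 * e * c7 * c12
      + 7043166 * i * f * f * c10
      + 115626456 * p * p * i * c8
      + 130518 * i * e * (-1 - 18 * r + 10 * p - 3 * m - 3 * n + 10 * i - 7 * e + 6 * f) ^ 2
      + 144645606 * r * i * i * c8
      + 49244244 * i * e * e * c7
      + 12711609 * r * i * e * c12
      + 15331071 * f * f * c7 * c7
      + 12739503 * m * n * e * c12
      + 69525 * c11 * (6 + 18 * r - 10 * p + 3 * m + n + 9 * i + 7 * e + 7 * f) ^ 2
      + 11508261 * r * i * f * c8
      + 20255244 * p * p * e * c8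
      + 213304296 * i * e * c7
      + 249135123 * r * e * c8
      + 9273126 * p * p * f * c12
      + 5303676 * p * p * p * c8
      + 533775 * p * e * (-6 - 15 * r + 10 * p - 3 * m + i + 2 * f) ^ 2
      + 1014333 * r * i * i * c9
      + 1071840 * r * f * f * c12
      + 556851 * c12 * (2 + 7 * r - 4 * p - 9 * m + 10 * n + 2 * i - 4 * e - 5 * f) ^ 2 := by positivity

private theorem part07_6 {r p m n i e f c7 c8 c9 c10 c11 c12 : ℝ} (hr : 0 ≤ r) (hp : 0 ≤ p) (hm : 0 ≤ m) (hn : 0 ≤ n) (hi : 0 ≤ i) (he : 0 ≤ e) (hf : 0 ≤ f) (hc7 : 0 ≤ c7) (hc8 : 0 ≤ c8) (hc9 : 0 ≤ c9) (hc10 : 0 ≤ c10) (hc11 : 0 ≤ c11) (hc12 : 0 ≤ c12) :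
    0 ≤ 81651 * m * c9 * (2 - r - 9 * p + 3 * m + 2 * n + 6 * i - f) ^ 2
      + 126305388 * p * c9 * c11
      + 990645 * i * i * i * c11
      + 122247 * e * c7 * (-2 - 9 * r + 6 * p + 10 * m - n - 2 * i + 7 * e + f) ^ 2
      + 198760518 * p * i * c8
      + 91861248 * c8 * c8 * c12
      + 33969900 * n * i * c7 * c7
      + 56446086 * i * e * e * c10
      + 14436 * e * f * (10 * e - 10 * f) ^ 2
      + 93151035 * p * i * c8 * c8
      + 8927757 * i * c7 * c12
      + 59977710 * r * f * c8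
      + 6674640 * n * c8 * c8 * c12
      + 53252772 * i * i * e * c10
      + 396246 * r * e * e * c12
      + 619809 * m * e * (9 - 10 * r + 7 * p - 8 * m + 4 * n + 9 * i + e - 10 * f) ^ 2
      + 195657 * c8 * c12 * (10 + 4 * r - p + 9 * m - 9 * n + 9 * i + 2 * e + 2 * f) ^ 2
      + 15665466 * r * i * i * c12
      + 1255503 * p * m * (-1 + 15 * r - 10 * p + 5 * m - 5 * i) ^ 2
      + 2947707 * r * e * f * c12 := by positivity

private theorem part07_7 {r p m n i e f c7 c8 c9 c10 c11 c12 : ℝ} (hr : 0 ≤ r) (hp : 0 ≤ p) (hm : 0 ≤ m) (hn : 0 ≤ n) (hi : 0 ≤ i) (he : 0 ≤ e) (hf : 0 ≤ f) (hc7 : 0 ≤ c7) (hc8 : 0 ≤ c8) (hc9 : 0 ≤ c9) (hc10 : 0 ≤ c10) (hc11 : 0 ≤ c11) (hc12 : 0 ≤ c12) :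
    0 ≤ 2038197 * n * n * f * c12
      + 404409 * e * f * (-8 * r + 10 * p + 5 * m + n - 8 * i + e + f) ^ 2
      + 132922758 * r * i * c7 * c8
      + 6701469 * p * i * i * c12
      + 26866116 * p * p * c10 * c10
      + 5143557 * e * f * c10
      + 6411300 * i * f * f * c12
      + 12038547 * e * c9 * c11
      + 28111788 * p * p * i * c7
      + 450825 * f * (-13 * r + 3 * p + 3 * m + 8 * i + 7 * e + f) ^ 2
      + 121052589 * p * f * c8
      + 326241 * m * n * (-4 - 14 * r + 10 * p - 4 * m + 2 * n + i + e + f) ^ 2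
      + 3687921 * f * f * f * c7
      + 144230373 * m * m * m * c11
      + 18982782 * p * p * c8 * c10
      + 230323428 * p * c7 * c8
      + 231765 * c12 * (3 - 13 * r + 10 * p - 3 * m + 7 * i) ^ 2
      + 55155633 * m * e * f * c10
      + 18149340 * r * r * f * c12
      + 9473631 * n * c12 * c12 := by positivity

private theorem part07_8 {r p m n i e f c7 c8 c9 c10 c12 : ℝ} (hr : 0 ≤ r) (hp : 0 ≤ p) (hm : 0 ≤ m) (hn : 0 ≤ n) (hi : 0 ≤ i) (he : 0 ≤ e) (hf : 0 ≤ f) (hc7 : 0 ≤ c7) (hc8 : 0 ≤ c8) (hc9 : 0 ≤ c9) (hc10 : 0 ≤ c10) (hc12 : 0 ≤ c12) :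
    0 ≤ 98817105 * n * c7 * c8
      + 20722095 * i * e * c10
      + 300162 * m * i * (1 - 15 * r + 10 * p - 5 * m + 5 * i) ^ 2
      + 100995795 * i * f * c8
      + 63832731 * i * e * c8
      + 170638866 * f * c7
      + 221904 * p * i * (3 + 7 * r - 4 * p - 10 * m + 6 * n + i - e) ^ 2
      + 223846344 * m * m * e * c10
      + 455456025 * p * m * m * c10
      + 36229134 * m * f * c9
      + 111689073 * r * p * e * c8
      + 132246 * i * f * (-2 + 14 * r - 9 * p + 2 * m + 2 * n - 10 * i - 6 * e + 9 * f) ^ 2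
      + 42573963 * m * i * c10
      + 7984605 * p * p * p * c12
      + 60042447 * p * p * n * c7
      + 39975306 * e * c8
      + 110272119 * r * e * c7 * c7
      + 329667 * n * i * (-7 + 3 * r - 3 * p + 10 * m - 5 * n + 2 * i + 2 * e + 3 * f) ^ 2
      + 16532997 * r * i * f * c7
      + 32854572 * r * i * f * c10 := by positivity

private theorem part07_9 {r p m n i e f c7 c8 c9 c10 c12 : ℝ} (hr : 0 ≤ r) (hp : 0 ≤ p) (hm : 0 ≤ m) (hn : 0 ≤ n) (hi : 0 ≤ i) (he : 0 ≤ e) (hf : 0 ≤ f) (hc7 : 0 ≤ c7) (hc8 : 0 ≤ c8) (hc9 : 0 ≤ c9) (hc10 : 0 ≤ c10) (hc12 : 0 ≤ c12) :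
    0 ≤ 6441915 * f * c10
      + 225 * m * f * (-10 + r - 4 * p + 5 * m - 2 * n - i + 2 * f) ^ 2
      + 377276526 * m * m * c7
      + 248362380 * m * m * m * c10
      + 12057585 * i * i * e * c8
      + 401658 * r * c7 * (1 + 15 * r - 10 * p - m + 2 * n - 5 * i - 2 * e) ^ 2
      + 65901 * i * (3 - 13 * r + 10 * p - 3 * m + 7 * i) ^ 2
      + 143184903 * i * c7 * c7
      + 4272777 * n * i * c12
      + 32177235 * r * p * i * c12
      + 19876734 * p * e * c7 * c10
      + 82126710 * p * p * m * c8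
      + 74123928 * i * i * c7 * c7
      + 200899884 * r * r * c7 * c8
      + 11065152 * p * f * f * c12
      + 27899088 * m * c9 * c9 * c12
      + 16427148 * r * c8 * c8 * c12
      + 3040494 * i * f * c10
      + 235710 * p * n * (1 - 4 * r + p + 2 * m + 2 * n - 3 * i - 9 * e + 10 * f) ^ 2
      + 43853277 * r * p * f * c8 := by positivity

private theorem part07_10 {r p m n i e f c7 c8 c10 c11 c12 : ℝ} (hr : 0 ≤ r) (hp : 0 ≤ p) (hm : 0 ≤ m) (hn : 0 ≤ n) (hi : 0 ≤ i) (he : 0 ≤ e) (hf : 0 ≤ f) (hc7 : 0 ≤ c7) (hc8 : 0 ≤ c8) (hc10 : 0 ≤ c10) (hc11 : 0 ≤ c11) (hc12 : 0 ≤ c12) :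
    0 ≤ 21806895 * r * m * c10 * c10
      + 101127 * c7 * c11 * (-10 - 11 * r + 8 * p - 6 * m - 3 * n - 3 * i - e - 2 * f) ^ 2
      + 9004824 * i * i * i * c10
      + 53558067 * m * i * c12
      + 211908 * m * (7 + 3 * r - 6 * p - 10 * m - 3 * n - i - 3 * e + 4 * f) ^ 2
      + 58596 * c7 * c8 * (10 * r - 7 * p + 10 * m - 2 * n - 6 * i - e + f) ^ 2
      + 1352265 * r * (-9 + 2 * r + 8 * p + 7 * m + 6 * n + i + 2 * e + f) ^ 2
      + 106233 * n * (-2 + p + m + 2 * n + i + 10 * e - f) ^ 2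
      + 27651333 * p * i * c12
      + 122329605 * r * e * f * c8
      + 14012556 * p * p * c10
      + 1827111 * i * i * i * c12
      + 2696589 * e * e * e * c8
      + 2038197 * n * n * n * c12
      + 11208774 * m * i * f * c12
      + 140772345 * p * p * e * c7
      + 1016841 * m * m * f * c12
      + 2261169 * m * f * c10 * c10
      + 5266122 * e * e * e * c10
      + 1067280 * n * n * i * c12 := by positivity

private theorem part07_11 {r p m n i e f c7 c8 c9 c10 c11 c12 : ℝ} (hr : 0 ≤ r) (hp : 0 ≤ p) (hm : 0 ≤ m) (hn : 0 ≤ n) (hi : 0 ≤ i) (he : 0 ≤ e) (hf : 0 ≤ f) (hc7 : 0 ≤ c7) (hc8 : 0 ≤ c8) (hc9 : 0 ≤ c9) (hc10 : 0 ≤ c10) (hc11 : 0 ≤ c11) (hc12 : 0 ≤ c12) :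
    0 ≤ 12692049 * i * f * c9
      + 38062488 * n * e * c12
      + 19360779 * m * i * e * c12
      + 60638475 * n * n * c10
      + 1635075 * f * f * f * c11
      + 621429 * n * e * f * c12
      + 1613568 * i * i * i * c9
      + 331221 * p * f * (-5 - 15 * r + 10 * p - 2 * m + i + 2 * e) ^ 2
      + 32633502 * p * c8 * c11
      + 61920 * c7 * (6 - 2 * r + 4 * p - 3 * m + n - 9 * i + 10 * e + 5 * f) ^ 2
      + 12758109 * r * p * p * c8
      + 570819 * r * n * (3 + 15 * r - 10 * p + 3 * m + n - 5 * i - e) ^ 2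
      + 64738995 * c8 * c8
      + 4480605 * i * f * c12
      + 14079096 * p * n * i * c10
      + 9942711 * r * i * f * c12
      + 2645 * r * n * n
      + 3224 * r * r * i
      + 3344 * r * p * p
      + 3175 * r * n := by positivity

private theorem part07_12 {r p m n i : ℝ} (hr : 0 ≤ r) (hp : 0 ≤ p) (hm : 0 ≤ m) (hn : 0 ≤ n) (hi : 0 ≤ i) :
    0 ≤ 2966 * r * r
      + 2778 * r * m
      + 2650 * r * p * m
      + 3281 * r * m * n
      + 3374 * r * r * m
      + 3019 * r * m * m
      + 2924 * n * n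
      + 3576 * r * i
      + 3196 * p * p
      + 3251 * n
      + 2945 * m
      + 3189 * p * m
      + 2976 * m * n
      + 2982 * m * m
      + 3321 * m * n * n
      + 2873 * r * m * i
      + 3006 * p * p * m
      + 3252 * p * m * m
      + 2952 * m * m * n
      + 2685 * m * m * m := by positivity

private theorem part07_13 {r p m n i e f : ℝ} (hr : 0 ≤ r) (hp : 0 ≤ p) (hm : 0 ≤ m) (hn : 0 ≤ n) (hi : 0 ≤ i) (he : 0 ≤ e) (hf : 0 ≤ f) :
    0 ≤ 3021 * r * m * n * n
      + 2991 * r * r * m * i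
      + 3366 * r * p * p * m
      + 2469 * r * p * m * m
      + 3294 * r * m * m * n
      + 3168 * r * r * m * m
      + 3222 * r * m * m * m
      + 2865 * p
      + 2727 * p * n
      + 2989 * i
      + 2571 * p * i
      + 3000 * e
      + 3931530 * p * e
      + 3002 * f
      + 2880 * p * f
      + 3283 * n * i
      + 3097 * n * e
      + 3040 * n * f
      + 36281189 * i * i
      + 98814583 * i * e := by positivity

private theorem part07_14 {p n i e f : ℝ} (hp : 0 ≤ p) (hn : 0 ≤ n) (hi : 0 ≤ i) (he : 0 ≤ e) (hf : 0 ≤ f) :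
    0 ≤ 3202 * i * f
      + 3167 * e * e
      + 12574624 * e * f
      + 3173 * f * f
      + 3331 * p * n * n
      + 2702 * p * n * i
      + 2753 * p * n * e
      + 2708 * p * n * f
      + 2989 * p * i * i
      + 2444 * p * i * e
      + 2393 * p * i * f
      + 2686 * p * e * e
      + 2324 * p * e * f
      + 13288270 * p * f * f
      + 2968
      + 2878 * p * p * p
      + 3380 * p * p * n
      + 3476 * p * p * i
      + 3383 * p * p * e
      + 3212 * p * p * f := by positivity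

private theorem part07_15 {r p m n i e f : ℝ} (hr : 0 ≤ r) (hp : 0 ≤ p) (hm : 0 ≤ m) (hn : 0 ≤ n) (hi : 0 ≤ i) (he : 0 ≤ e) (hf : 0 ≤ f) :
    0 ≤ 3057 * r * e
      + 3006 * m * i
      + 3243 * m * e
      + 3586 * r * r * e
      + 3152 * r * m * e
      + 3547 * m * m * i
      + 72106183 * m * m * e
      + 2559 * p * m * m * n
      + 147254016 * p * m * m * e
      + 29338041 * p * m * m * f
      + 3003 * m * m * m * n
      + 2865 * m * m * n * n
      + 2049 * r * p * i
      + 3174 * r * n * i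
      + 3171 * r * i * i
      + 3825 * r * i * e
      + 358116453 * r * i * f
      + 2559 * r * p * i * e
      + 2952 * p * m * i * e
      + 2970 * r * r * p := by positivity

private theorem part07_16 {r p m n i e f : ℝ} (hr : 0 ≤ r) (hp : 0 ≤ p) (hm : 0 ≤ m) (hn : 0 ≤ n) (hi : 0 ≤ i) (he : 0 ≤ e) (hf : 0 ≤ f) :
    0 ≤ 3726 * r * r * n
      + 3570 * r * r * f
      + 2883 * r * r * r * p
      + 2400 * r * r * r * n
      + 3522 * r * r * r * i
      + 2826 * r * r * r * e
      + 45198480 * r * r * r * f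
      + 3141 * r * r * p * p
      + 3858 * r * r * p * n
      + 2802 * r * r * p * i
      + 3225 * r * r * p * e
      + 3441 * r * r * p * f
      + 3150 * m * f
      + 2565 * r * r * p * m
      + 2724 * p * m * i
      + 2943 * r * e * f * f
      + 3018 * m * e * f * f
      + 2766 * r * p
      + 3177 * r * f
      + 3648 * r * m * f := by positivity

private theorem part07_17 {r p m n i e f : ℝ} (hr : 0 ≤ r) (hp : 0 ≤ p) (hm : 0 ≤ m) (hn : 0 ≤ n) (hi : 0 ≤ i) (he : 0 ≤ e) (hf : 0 ≤ f) :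
    0 ≤ 1833 * r * p * n
      + 3324 * r * n * e
      + 3348 * r * n * f
      + 2034 * r * p * e
      + 3453 * r * e * e
      + 3909 * r * e * f
      + 2352 * r * p * f
      + 23551833 * r * f * f
      + 28229001 * m * m * f
      + 2730 * p * m * n
      + 3315 * m * n * i
      + 3057 * m * n * e
      + 146645661 * m * n * f
      + 2841 * m * i * i
      + 3228 * m * i * e
      + 3153 * m * i * f
      + 2817 * p * m * e
      + 3027 * m * e * e
      + 158112087 * m * e * f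
      + 2628 * p * m * f := by positivity

private theorem part07_18 {m n i e f : ℝ} (hm : 0 ≤ m) (hn : 0 ≤ n) (hi : 0 ≤ i) (he : 0 ≤ e) (hf : 0 ≤ f) :
    0 ≤ 14204109 * m * f * f
      + 107048463 * n * n * n
      + 2661 * n * n * i
      + 3261 * n * n * e
      + 3159 * n * n * f
      + 17414106 * n * i * i
      + 11236086 * n * i * e
      + 3435 * n * i * f
      + 3090 * n * e * e
      + 71932032 * n * e * f
      + 14872617 * n * f * f
      + 3048 * i * i * i
      + 7023192 * i * i * e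
      + 3279 * i * i * f
      + 3279 * i * e * e
      + 3564 * i * e * f
      + 3237 * i * f * f
      + 9923571 * e * e * e
      + 3186 * e * e * f
      + 14624190 * e * f * f := by positivity

private theorem part07_19 {r p m n i e f : ℝ} (hr : 0 ≤ r) (hp : 0 ≤ p) (hm : 0 ≤ m) (hn : 0 ≤ n) (hi : 0 ≤ i) (he : 0 ≤ e) (hf : 0 ≤ f) :
    0 ≤ 5682801 * f * f * f
      + 3195 * r * m * m * f
      + 3036 * r * m * n * f
      + 3171 * r
      + 2619 * r * r * r
      + 2418 * r * m * m * i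
      + 3165 * m * m * m * i
      + 28948962 * r * r * e * e
      + 2976 * r * p * e * e
      + 3096 * r * r * r * r
      + 3393 * r * r * n * n
      + 8010861 * r * r * n * i
      + 3138 * r * r * n * e
      + 2976 * r * r * n * f
      + 2952 * r * r * i * i
      + 3183 * r * r * i * e
      + 2994 * r * r * i * f
      + 3111 * r * r * e * f
      + 2901 * r * r * f * f
      + 62924082 * p * p * e * e := by positivity

private theorem part07_20 {r p m n i f : ℝ} (hr : 0 ≤ r) (hp : 0 ≤ p) (hm : 0 ≤ m) (hn : 0 ≤ n) (hi : 0 ≤ i) (hf : 0 ≤ f) :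
    0 ≤ 2742 * r * m * i * f
      + 3210 * m * m * i * f
      + 13426074 * r * r * m * f
      + 2673 * r * p * p * n
      + 62269095 * r * r * m * n
      + 2727 * r * p * m * n
      + 192918558 * r * p * n * n
      + 2826 * r * p * n * i
      + 2982 * r * p * n * f
      + 3006 * p * p * p * n
      + 3273 * p * p * m * n
      + 3012 * p * p * n * n
      + 18785205 * p * p * n * i
      + 3012 * p * p * n * f
      + 3258 * p * m * n * n
      + 2604 * r * m * n * i
      + 3000 * p * m * n * i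
      + 2765946 * p * m * n * f
      + 3766818 * r * n * n * n
      + 2967 * p * n * n * n := by positivity

private theorem part07_21 {r p m n i e f : ℝ} (hr : 0 ≤ r) (hp : 0 ≤ p) (hm : 0 ≤ m) (hn : 0 ≤ n) (hi : 0 ≤ i) (he : 0 ≤ e) (hf : 0 ≤ f) :
    0 ≤ 110455974 * r * n * n * i
      + 61875576 * p * n * n * i
      + 20535654 * r * n * n * f
      + 2068134 * p * n * n * f
      + 2943 * r * n * i * i
      + 2874 * p * n * i * i
      + 2982 * r * n * i * f
      + 23209608 * p * n * i * f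
      + 3039 * r * n * f * f
      + 3015 * p * n * f * f
      + 268563456 * m * m * e * e
      + 3024 * m * n * e * e
      + 2889 * p * m * m * m
      + 2922 * p * m * m * i
      + 3042 * p * p * m * e
      + 3045 * p * p * e * f
      + 2901 * m * m * f * f
      + 3024 * m * n * f * f
      + 2967 * r * m * e * f
      + 3132 * m * m * e * f := by positivity

private theorem part07_22 {r p m n i e f : ℝ} (hr : 0 ≤ r) (hp : 0 ≤ p) (hm : 0 ≤ m) (hn : 0 ≤ n) (hi : 0 ≤ i) (he : 0 ≤ e) (hf : 0 ≤ f) :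
    0 ≤ 3060 * m * m * m * m
      + 3036 * p * m * e * e
      + 2970 * p * n * e * e
      + 3000 * r * r * r * m
      + 2937 * r * p * p * p
      + 2922 * r * p * p * i
      + 2874 * r * p * p * e
      + 2475 * r * p * p * f
      + 3384 * r * p * m * i
      + 6745131 * r * p * m * f
      + 2910 * r * p * n * e
      + 112820058 * r * p * i * i
      + 2811 * r * p * i * f
      + 265221291 * r * p * e * f
      + 3036 * r * p * f * f
      + 2838 * r * p * m * e
      + 3192 * r * r * m * e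
      + 2940 * r * m * n * e
      + 3330 * r * m * i * i
      + 3240 * r * m * i * e := by positivity

private theorem part07_23 {r p m n i e f : ℝ} (hr : 0 ≤ r) (hp : 0 ≤ p) (hm : 0 ≤ m) (hn : 0 ≤ n) (hi : 0 ≤ i) (he : 0 ≤ e) (hf : 0 ≤ f) :
    0 ≤ 2808 * r * m * e * e
      + 3057 * r * m * f * f
      + 3108 * r * n * i * e
      + 3123 * r * n * e * e
      + 2910 * r * n * e * f
      + 3057 * r * i * i * i
      + 2688 * r * i * i * e
      + 38418666 * r * i * i * f
      + 3231 * r * i * e * e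
      + 84341637 * r * i * e * f
      + 3060 * r * i * f * f
      + 3000 * p * p * p * p
      + 2964 * p * p * p * m
      + 2991 * p * p * p * i
      + 3024 * p * p * p * e
      + 3180 * p * p * p * f
      + 245196546 * p * p * m * m
      + 3036 * p * p * m * i
      + 2877 * p * p * m * f
      + 5158608 * p * p * n * e := by positivity

private theorem part07_24 {p m n i e f : ℝ} (hp : 0 ≤ p) (hm : 0 ≤ m) (hn : 0 ≤ n) (hi : 0 ≤ i) (he : 0 ≤ e) (hf : 0 ≤ f) :
    0 ≤ 17038323 * p * p * i * i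
      + 18504408 * p * p * i * e
      + 22182486 * p * p * i * f
      + 2997 * p * p * f * f
      + 2976 * p * m * n * e
      + 40597164 * p * m * i * i
      + 13563858 * p * m * i * f
      + 2973 * p * m * e * f
      + 41397090 * p * m * f * f
      + 3108 * p * n * n * e
      + 2940 * p * n * i * e
      + 2946 * p * n * e * f
      + 2880 * p * i * i * i
      + 3186 * p * i * i * e
      + 3084 * p * i * i * f
      + 16523100 * p * i * e * e
      + 3102 * p * i * e * f
      + 20155644 * p * i * f * f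
      + 1169073 * p * e * e * e
      + 304053 * p * e * e * f := by positivity

private theorem part07_25 {r p m n i e f : ℝ} (hr : 0 ≤ r) (hp : 0 ≤ p) (hm : 0 ≤ m) (hn : 0 ≤ n) (hi : 0 ≤ i) (he : 0 ≤ e) (hf : 0 ≤ f) :
    0 ≤ 3009 * p * e * f * f
      + 2640 * r * m * m * e
      + 2946 * r * e * e * e
      + 5787204 * r * e * e * f
      + 638556 * p * f * f * f
      + 3006 * r * f * f * f
      + 399660114 * m * m * m * f
      + 88918320 * m * m * n * i
      + 32210835 * m * m * n * e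
      + 2958 * m * m * n * f
      + 69726840 * m * m * i * i
      + 183257253 * m * m * i * e
      + 48507870 * m * n * n * n
      + 73394427 * m * n * n * i
      + 2958 * m * n * n * e
      + 4429926 * m * n * n * f
      + 36606144 * m * n * i * i
      + 2994 * m * n * i * e
      + 2940 * m * n * i * f
      + 47687049 * m * n * e * f := by positivity

private theorem part07_26 {m n i e f : ℝ} (hm : 0 ≤ m) (hn : 0 ≤ n) (hi : 0 ≤ i) (he : 0 ≤ e) (hf : 0 ≤ f) :
    0 ≤ 36391368 * m * i * i * i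
      + 3015 * m * i * i * e
      + 7189200 * m * i * i * f
      + 2988 * m * i * e * e
      + 159719526 * m * i * e * f
      + 2991 * m * i * f * f
      + 60924861 * m * e * e * f
      + 3000 * m * f * f * f
      + 3018 * n * n * n * n
      + 2949 * n * n * n * i
      + 3108 * n * n * n * e
      + 3018 * n * n * n * f
      + 10310946 * n * n * i * i
      + 4543650 * n * n * i * e
      + 8342682 * n * n * i * f
      + 9562998 * n * n * e * e
      + 3033 * n * n * e * f
      + 3055032 * n * n * f * f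
      + 3075 * n * i * i * i
      + 19309089 * n * i * i * e := by positivity

private theorem part07_27 {n i e f : ℝ} (hn : 0 ≤ n) (hi : 0 ≤ i) (he : 0 ≤ e) (hf : 0 ≤ f) :
    0 ≤ 7545084 * n * i * i * f
      + 3090 * n * i * e * e
      + 5527704 * n * i * e * f
      + 3021 * n * i * f * f
      + 786012 * n * e * e * e
      + 3496890 * n * e * e * f
      + 1042494 * n * e * f * f
      + 3671763 * n * f * f * f
      + 3063 * i * i * i * i
      + 10273002 * i * i * i * e
      + 2973 * i * i * i * f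
      + 73398255 * i * i * e * e
      + 3153 * i * i * e * f
      + 19705608 * i * i * f * f
      + 54633252 * i * e * e * e
      + 73701834 * i * e * e * f
      + 27171006 * i * e * f * f
      + 3003 * i * f * f * f
      + 2974848 * e * e * e * e
      + 1890597 * e * e * e * f := by positivity

private theorem part07_28 {r m n e f : ℝ} (hr : 0 ≤ r) (hm : 0 ≤ m) (hn : 0 ≤ n) (he : 0 ≤ e) (hf : 0 ≤ f) :
    0 ≤ 3036 * e * e * f * f
      + 2994 * e * f * f * f
      + 616731 * f * f * f * f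
      + 3177 * m * m * m * e
      + 36984459 * r * n * n * e
      + 3045 * m * e * e * e := by positivity

theorem leaf07 {r p m n i e f : ℝ} (h0 : 0 ≤ r) (h1 : 0 ≤ p) (h2 : 0 ≤ m) (h3 : 0 ≤ n) (h4 : 0 ≤ i) (h5 : 0 ≤ e) (h6 : 0 ≤ f) (h7 : 0 ≤ r - m) (h8 : 0 ≤ 1 - r - p) (h9 : 0 ≤ 1 - m - n - i) (h10 : 0 ≤ m - e - f) (h11 : 0 ≤ p - n - i - e - f) (h12 : 0 ≤ 1 - m - 2 * n) :
    0 ≤ 182500000 - 348000000 * p - 107500000 * m - 227500000 * n + 212500000 * i + 105000000 * e + 72500000 * f + 95000000 * r * r - 285000000 * r * m + 190000000 * r * n - 327000000 * r * i - 27000000 * r * e + 568000000 * p * p - 300000000 * p * m + 330000000 * p * n + 330000000 * p * i + 330000000 * p * e + 330000000 * p * f + 341250000 * m * m - 285000000 * m * n + 120000000 * m * i + 120000000 * m * e + 23750000 * n * n - 552500000 * n * i - 552500000 * n * e - 552500000 * n * f - 276250000 * i * i - 552500000 * i * e - 552500000 * i * f - 276250000 * e * e - 552500000 * e * f - 276250000 * f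 * f + 485000000 * r * r * m - 10000000 * r * r * i - 200000000 * r * r * e - 190000000 * r * p * p + 190000000 * r * p * m - 308750000 * r * m * m + 485000000 * r * m * n - 985000000 * r * m * i - 400000000 * r * m * e - 190000000 * r * n * n - 200000000 * p * p * p + 585000000 * p * p * m - 400000000 * p * p * n - 400000000 * p * p * i - 400000000 * p * p * e - 400000000 * p * p * f - 105000000 * p * m * m + 148750000 * p * n * n + 297500000 * p * n * i + 297500000 * p * n * e + 297500000 * p * n * f + 148750000 * p * i * i + 297500000 * p * i * e + 297500000 * p * i * f + 148750000 * p * e * e + 297500000 * p * e * f + 148750000 * p * f * f - 585000000 * m * m * m + 585000000 * m * m * n + 220000000 * m * m * i + 220000000 * m * m * e + 585000000 * m * n * n - 195000000 * r * r * m * m + 675000000 * r * r * m * i - 675000000 * r * p * p * m + 1635000000 * r * p * m * m + 675000000 * r * m * m * m - 675000000 * r * m * m * n - 675000000 * r * m * n * n - 480000000 * p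 * m * m * n - 480000000 * p * m * m * e - 480000000 * p * m * m * f := by
  have t0 := part07_0 h0 h1 h2 h3 h4 h5 h6 h7 h8 h10 h11 h12
  have t1 := part07_1 h0 h1 h2 h3 h4 h5 h6 h7 h8 h9 h10 h11 h12
  have t2 := part07_2 h0 h1 h2 h3 h4 h5 h6 h7 h8 h9 h10 h11 h12
  have t3 := part07_3 h0 h1 h2 h3 h4 h5 h6 h7 h8 h9 h10 h11 h12
  have t4 := part07_4 h0 h1 h2 h3 h4 h5 h6 h7 h8 h9 h10 h11 h12
  have t5 := part07_5 h0 h1 h2 h3 h4 h5 h6 h7 h8 h9 h10 h11 h12
  have t6 := part07_6 h0 h1 h2 h3 h4 h5 h6 h7 h8 h9 h10 h11 h12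
  have t7 := part07_7 h0 h1 h2 h3 h4 h5 h6 h7 h8 h9 h10 h11 h12
  have t8 := part07_8 h0 h1 h2 h3 h4 h5 h6 h7 h8 h9 h10 h12
  have t9 := part07_9 h0 h1 h2 h3 h4 h5 h6 h7 h8 h9 h10 h12
  have t10 := part07_10 h0 h1 h2 h3 h4 h5 h6 h7 h8 h10 h11 h12
  have t11 := part07_11 h0 h1 h2 h3 h4 h5 h6 h7 h8 h9 h10 h11 h12
  have t12 := part07_12 h0 h1 h2 h3 h4
  have t13 := part07_13 h0 h1 h2 h3 h4 h5 h6
  have t14 := part07_14 h1 h3 h4 h5 h6
  have t15 := part07_15 h0 h1 h2 h3 h4 h5 h6
  have t16 := part07_16 h0 h1 h2 h3 h4 h5 h6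
  have t17 := part07_17 h0 h1 h2 h3 h4 h5 h6
  have t18 := part07_18 h2 h3 h4 h5 h6
  have t19 := part07_19 h0 h1 h2 h3 h4 h5 h6
  have t20 := part07_20 h0 h1 h2 h3 h4 h6
  have t21 := part07_21 h0 h1 h2 h3 h4 h5 h6
  have t22 := part07_22 h0 h1 h2 h3 h4 h5 h6
  have t23 := part07_23 h0 h1 h2 h3 h4 h5 h6
  have t24 := part07_24 h1 h2 h3 h4 h5 h6
  have t25 := part07_25 h0 h1 h2 h3 h4 h5 h6
  have t26 := part07_26 h2 h3 h4 h5 h6
  have t27 := part07_27 h3 h4 h5 h6
  have t28 := part07_28 h0 h2 h3 h5 h6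
  linarith only [t0, t1, t2, t3, t4, t5, t6, t7, t8, t9, t10, t11, t12, t13, t14, t15, t16, t17, t18, t19, t20, t21, t22, t23, t24, t25, t26, t27, t28]

end Vale.Agent.P038.K4
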