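import Mathlib

/-
P038: one corner of the polynomial inequality for K4-free graphs (exact nonnegativity certificate).
-/

namespace Vale.Agent.P038.K4

private theorem part10_0 {r p m n i e f c7 c8 c12 : ℝ} (hr : 0 ≤ r) (hp : 0 ≤ p) (hm : 0 ≤ m) (hn : 0 ≤ n) (hi : 0 ≤ i) (he : 0 ≤ e) (hf : 0 ≤ f) (hc7 : 0 ≤ c7) (hc8 : 0 ≤ c8) (hc12 : 0 ≤ c12) :
    0 ≤ 375 * n * c7 * (10 - 2 * r + 5 * p + 2 * m + 2 * n + 3 * i - 3 * e - 2 * f) ^ 2
      + 66597 * m * e * (10 - 3 * r + 4 * p + 8 * m + 4 * n - 3 * i - 6 * e + 5 * f) ^ 2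
      + 3463245 * r * c8 * c8 * c12
      + 62090352 * n * n * i * c8
      + 153606 * p * i * (-2 - 7 * r + 7 * p + 9 * m - 6 * n - 4 * i + 8 * e + 10 * f) ^ 2
      + 32393637 * r * e * f * c7
      + 225033 * e * (1 - 2 * r - p - 6 * m + 10 * n - i - 6 * e + f) ^ 2
      + 74495406 * i * e * e * c12
      + 45672354 * n * i * f * c12
      + 139855038 * n * i * e * c8
      + 119957754 * m * f * c8
      + 75179370 * p * n * i * c8
      + 77106783 * m * i * f * c12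
      + 30852003 * p * f * f * c7
      + 13125 * n * f * (-6 - 16 * r + 10 * p + 2 * m - 4 * n + 2 * e + 5 * f) ^ 2
      + 14003874 * r * n * c7 * c12
      + 244649418 * p * m * m * c7
      + 986784 * m * m * (3 - 3 * r + 6 * p - m - 10 * n - 8 * i + 3 * e + 2 * f) ^ 2
      + 23805 * c7 * (4 + 16 * r - 10 * p + 7 * m - 5 * n) ^ 2
      + 329664 * e * (-5 - 5 * r + 7 * p + 9 * m - 6 * n - 2 * i + e + 10 * f) ^ 2 := by positivity

private theorem part10_1 {r p m n i e f c7 c8 c9 c10 c11 c12 : ℝ} (hr : 0 ≤ r) (hp : 0 ≤ p) (hm : 0 ≤ m) (hn : 0 ≤ n) (hi : 0 ≤ i) (he : 0 ≤ e) (hf : 0 ≤ f) (hc7 : 0 ≤ c7) (hc8 : 0 ≤ c8) (hc9 : 0 ≤ c9) (hc10 : 0 ≤ c10) (hc11 : 0 ≤ c11) (hc12 : 0 ≤ c12) :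
    0 ≤ 897594 * e * (2 + 5 * r - 4 * p + 2 * m - n - 10 * i - e + 10 * f) ^ 2
      + 53610 * e * f * (-5 + 13 * r - 10 * p + n - 4 * e + 5 * f) ^ 2
      + 77758233 * n * e * e * c7
      + 2700525 * r * p * (-5 + 4 * r + 6 * p + 2 * m - 2 * i - 2 * e - f) ^ 2
      + 34757091 * p * f * c8 * c12
      + 160152675 * p * i * f * c12
      + 9263172 * r * i * c8 * c9
      + 304043532 * m * c8 * c9 * c10
      + 425457 * f * c10 * (-10 + 4 * r - 3 * p + 4 * m - 8 * n + 8 * i + 5 * f) ^ 2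
      + 82728816 * n * c7 * c8
      + 316563 * i * c7 * (2 + 14 * r - 9 * p + 10 * m - 4 * n - i + e - f) ^ 2
      + 140223 * c7 * c12 * (5 + 16 * r - 10 * p + 7 * m + 3 * n + 4 * i + 2 * f) ^ 2
      + 662715 * m * c11 * (-5 + 15 * r - 10 * p + 7 * m - 6 * n + 3 * e + 2 * f) ^ 2
      + 8839674 * e * e * e * c7
      + 313143 * n * c11 * (5 - 10 * r + 3 * p - 10 * m + 3 * n - 3 * i - 5 * e - 5 * f) ^ 2
      + 111132 * c11 * (-7 + 12 * r - 10 * p - 2 * m - 4 * n - 2 * i + 6 * e - f) ^ 2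
      + 429540 * f * (-7 - 11 * r + 7 * p - 3 * m + n + 5 * i - e + 10 * f) ^ 2
      + 35485896 * r * n * c7 * c7
      + 208683 * p * i * (-3 + 3 * m + 3 * n + 3 * i + 10 * e - 9 * f) ^ 2
      + 44675793 * r * r * c11 * c12 := by positivity

private theorem part10_2 {r p m n i e f c7 c8 c10 c11 c12 : ℝ} (hr : 0 ≤ r) (hp : 0 ≤ p) (hm : 0 ≤ m) (hn : 0 ≤ n) (hi : 0 ≤ i) (he : 0 ≤ e) (hf : 0 ≤ f) (hc7 : 0 ≤ c7) (hc8 : 0 ≤ c8) (hc10 : 0 ≤ c10) (hc11 : 0 ≤ c11) (hc12 : 0 ≤ c12) :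
    0 ≤ 456 * c12 * (-10 + 8 * r - 6 * p + 3 * m - 3 * n + i + f) ^ 2
      + 84459954 * i * c7 * c12
      + 102274677 * p * e * c8
      + 34842 * p * e * (7 + 17 * r - 10 * p + 5 * m - 2 * n - 3 * i - 3 * e + 2 * f) ^ 2
      + 95055 * c11 * c12 * (-8 + 7 * r - 5 * p + 10 * m - 7 * n - 7 * i - 2 * e) ^ 2
      + 5975088 * p * p * i * c12
      + 75705564 * f * f * c10
      + 339477 * m * i * (3 - 4 * r + 4 * p + m - 10 * n - 5 * i + e + 2 * f) ^ 2
      + 72313749 * r * i * e * c8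
      + 44504832 * p * f * f * c12
      + 41450121 * p * m * c7 * c11
      + 231077385 * r * p * c7 * c8
      + 2019687 * p * n * (5 - 5 * r - 5 * p - f) ^ 2
      + 9818652 * n * n * n * c8
      + 139164 * p * c10 * (-4 + 14 * r - 10 * p + 3 * m + 4 * n - 10 * i) ^ 2
      + 158448 * m * m * (-3 - 5 * r + 7 * p + 8 * m - n - 7 * i - 7 * e + 10 * f) ^ 2
      + 111149409 * p * i * i * c8
      + 40559166 * e * f * c12
      + 207486 * f * (2 + 16 * r - 10 * p + m + n - 6 * i - e + 2 * f) ^ 2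
      + 8253 * c8 * (7 - 11 * r + 10 * p + 2 * m + 9 * n) ^ 2 := by positivity

private theorem part10_3 {r p m n i e f c7 c8 c10 c11 c12 : ℝ} (hr : 0 ≤ r) (hp : 0 ≤ p) (hm : 0 ≤ m) (hn : 0 ≤ n) (hi : 0 ≤ i) (he : 0 ≤ e) (hf : 0 ≤ f) (hc7 : 0 ≤ c7) (hc8 : 0 ≤ c8) (hc10 : 0 ≤ c10) (hc11 : 0 ≤ c11) (hc12 : 0 ≤ c12) :
    0 ≤ 1070811 * f * c7
      + 141110148 * r * e * c11
      + 59247 * f * f * (-10 - 11 * r + 6 * p + 4 * n + i - 2 * e + 6 * f) ^ 2
      + 279561 * e * f * (-10 + 3 * r - 3 * p + 8 * m - 4 * n - 3 * i - 3 * e - 3 * f) ^ 2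
      + 107335803 * m * e * f * c10
      + 25099068 * n * n * c8 * c8
      + 21377283 * p * p * f * c11
      + 139351884 * p * m * i * c8
      + 249932679 * n * f * c8
      + 44125221 * e * c8
      + 178326 * i * i * (-8 - 2 * r + 4 * p + 10 * m + 4 * n + 4 * i + 10 * e - 7 * f) ^ 2
      + 116910 * p * (-10 * r + 7 * p + 10 * m - 7 * n - 7 * i - 7 * e - f) ^ 2
      + 28617309 * r * e * c8 * c8
      + 350409 * p * f * (-5 - 13 * r + 10 * p + 4 * m - 5 * n + 9 * i + 8 * e + 3 * f) ^ 2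
      + 113148822 * n * f * f * c7
      + 132075834 * p * i * e * c12
      + 85741197 * p * m * e * c8
      + 439557 * e * e * (1 - 14 * r + 10 * p - 5 * m + 3 * n - i - 3 * e + 4 * f) ^ 2
      + 61695237 * i * i * f * c8
      + 76300401 * e * e * f * c12 := by positivity

private theorem part10_4 {r p m n i e f c7 c8 c10 c11 c12 : ℝ} (hr : 0 ≤ r) (hp : 0 ≤ p) (hm : 0 ≤ m) (hn : 0 ≤ n) (hi : 0 ≤ i) (he : 0 ≤ e) (hf : 0 ≤ f) (hc7 : 0 ≤ c7) (hc8 : 0 ≤ c8) (hc10 : 0 ≤ c10) (hc11 : 0 ≤ c11) (hc12 : 0 ≤ c12) :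
    0 ≤ 473035854 * p * m * c7 * c8
      + 58644516 * n * i * e * c12
      + 800730 * n * f * (3 + 4 * r - 2 * p + m - 6 * n - 7 * i - 4 * e + 10 * f) ^ 2
      + 98540538 * p * i * c8 * c11
      + 48287769 * c7 * c12
      + 71871669 * m * m * e * c12
      + 22132851 * r * r * f * c12
      + 404799 * e * c10 * (-5 + 4 * r + 6 * p + 4 * m - 5 * n + 2 * i + 2 * e - 6 * f) ^ 2
      + 26613450 * r * f * c8 * c8
      + 2271 * e * f * (-10 * e + 10 * f) ^ 2
      + 176583537 * m * m * n * c7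
      + 171876453 * m * c7 * c11
      + 24396 * (1 + 6 * r - 4 * p - 6 * m + 2 * n - 2 * i + 6 * e - r * r + 2 * r * p + 2 * r * m + 3 * r * n + 11 * r * i - 12 * r * e - p * p - 4 * p * m - p * n - 8 * p * i + 10 * p * e - 2 * m * m - 2 * m * n - 2 * m * e + 2 * n * n - n * i + 2 * n * e - 3 * i * i - i * e + 9 * e * e) ^ 2
      + 107849502 * m * f * c7 * c7
      + 824316 * m * i * (-4 + 13 * r - 10 * p + 3 * m - n - 6 * i) ^ 2
      + 22669671 * p * i * i * c12
      + 29813109 * p * p * p * c8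
      + 338433 * m * c12 * (5 - 17 * r + 7 * p - 10 * m - n - 2 * i) ^ 2
      + 27370128 * e * c7 * c7
      + 5126397 * n * n * f * c8 := by positivity

private theorem part10_5 {r p m n i e f c7 c8 c10 c11 c12 : ℝ} (hr : 0 ≤ r) (hp : 0 ≤ p) (hm : 0 ≤ m) (hn : 0 ≤ n) (hi : 0 ≤ i) (he : 0 ≤ e) (hf : 0 ≤ f) (hc7 : 0 ≤ c7) (hc8 : 0 ≤ c8) (hc10 : 0 ≤ c10) (hc11 : 0 ≤ c11) (hc12 : 0 ≤ c12) :
    0 ≤ 205167 * m * c7 * (1 + r + p + m - 4 * n + 2 * i - 5 * e + 10 * f) ^ 2
      + 22312512 * i * i * f * c12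
      + 22160856 * f * f * f * c8
      + 2466 * c12 * c12 * (6 + 16 * r - 9 * p + 7 * m - 10 * n + 9 * e) ^ 2
      + 66069 * f * c11 * (10 + 9 * r + 5 * m - 2 * n - 2 * i + 4 * e - 8 * f) ^ 2
      + 47655 * n * c10 * (-4 - 2 * r + p + 6 * m - 3 * n + 10 * i - 3 * e - 3 * f) ^ 2
      + 37987242 * m * i * i * c7
      + 303798 * r * c11 * (-3 * r - p - 2 * m + n + i + 10 * e - 5 * f) ^ 2
      + 271785 * n * f * (2 + 15 * r - 10 * p - 2 * m + 3 * n - 9 * i - e) ^ 2
      + 268524 * f * c11 * (2 - 6 * r + 6 * p + 6 * m + 10 * n + 7 * i + 2 * e + 3 * f) ^ 2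
      + 4756638 * i * f * c8
      + 1087884 * c8 * c8 * (5 - p - 10 * m + 2 * n - i + e) ^ 2
      + 72573531 * n * n * e * c8
      + 80929710 * r * r * c7 * c7
      + 224196 * i * (-2 + 9 * p + 2 * m - 10 * n - 3 * i - 3 * e - f) ^ 2
      + 57174 * f * f * (6 + 14 * r - 8 * p + 5 * m - 10 * n + 4 * i + 3 * e + 4 * f) ^ 2
      + 38839095 * c7 * c7 * c8
      + 726384 * c8 * c11 * (7 - 6 * r + 2 * p + 3 * m - 10 * n + 3 * i - e + 5 * f) ^ 2
      + 46815339 * i * i * i * c7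
      + 73820229 * p * p * e * c11 := by positivity

private theorem part10_6 {r p m n i e f c7 c8 c9 c10 c11 c12 : ℝ} (hr : 0 ≤ r) (hp : 0 ≤ p) (hm : 0 ≤ m) (hn : 0 ≤ n) (hi : 0 ≤ i) (he : 0 ≤ e) (hf : 0 ≤ f) (hc7 : 0 ≤ c7) (hc8 : 0 ≤ c8) (hc9 : 0 ≤ c9) (hc10 : 0 ≤ c10) (hc11 : 0 ≤ c11) (hc12 : 0 ≤ c12) :
    0 ≤ 201580977 * r * m * c7 * c8
      + 72545652 * r * n * e * c12
      + 70369629 * p * e * f * c12
      + 377058 * m * m * (-10 + 18 * r - 10 * p + 8 * m - 2 * n) ^ 2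
      + 4479231 * e * c10
      + 292032 * c7 * (1 + 2 * r - p - 10 * m + 6 * n - 8 * i - 9 * e) ^ 2
      + 209799 * c8 * c12 * (-3 + 6 * r - 3 * p - m + 9 * n - 10 * i + 2 * e) ^ 2
      + 652740 * r * e * (5 - 5 * r - 5 * p - 10 * f) ^ 2
      + 33414693 * f * f * c12
      + 43713558 * n * e * f * c9
      + 313590 * e * c11 * c12
      + 443469 * e * c8 * (10 + 11 * r - 4 * p + 8 * m + 8 * n + 10 * e + 3 * f) ^ 2
      + 11189349 * r * f * f * c8
      + 22092825 * r * i * i * c11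
      + 21964926 * m * n * f * c12
      + 240546 * m * n * (-2 + 6 * r - 4 * p - 4 * m + 10 * n + 3 * i - 7 * e - f) ^ 2
      + 69909696 * m * e * c10
      + 383295 * p * c7 * (2 + 16 * r - 10 * p - 2 * m + 2 * n + 5 * i + 4 * e) ^ 2
      + 33912 * f * (-1 + 3 * r - p - m - 2 * n + 6 * i - 3 * e + 10 * f) ^ 2
      + 13390926 * n * n * e * c9 := by positivity

private theorem part10_7 {r p m n i e f c7 c8 c10 c11 c12 : ℝ} (hr : 0 ≤ r) (hp : 0 ≤ p) (hm : 0 ≤ m) (hn : 0 ≤ n) (hi : 0 ≤ i) (he : 0 ≤ e) (hf : 0 ≤ f) (hc7 : 0 ≤ c7) (hc8 : 0 ≤ c8) (hc10 : 0 ≤ c10) (hc11 : 0 ≤ c11) (hc12 : 0 ≤ c12) :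
    0 ≤ 1567731 * p * i * f * c8
      + 1119246 * i * e * (-14 * r + 10 * p - 3 * m + 3 * n - 2 * i + e + 3 * f) ^ 2
      + 995349 * r * f * (-3 + p + 10 * m + n + i + 2 * e - 8 * f) ^ 2
      + 160823229 * m * f * c7
      + 7935 * i * (4 - 13 * r + 10 * p - 3 * m + 3 * n + 3 * i) ^ 2
      + 13884657 * c8 * c11
      + 85568514 * n * f * f * c12
      + 27871503 * r * p * e * c12
      + 412260 * i * c12
      + 158235 * i * f * (1 - 15 * r + 10 * p - m - 6 * n + 10 * i - 2 * e + 5 * f) ^ 2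
      + 257797374 * m * c7 * c12
      + 138228984 * e * c8 * c10
      + 4672182 * p * c11 * c12
      + 79166325 * p * m * i * c11
      + 31023 * r * c10 * (-10 + 18 * r - 10 * p + 8 * m - 2 * n) ^ 2
      + 91191822 * f * f * c8
      + 601083 * r * f * (2 * r + 6 * m - 10 * n + 8 * i + 2 * e + 8 * f) ^ 2
      + 48336222 * p * e * c12
      + 47505180 * p * p * e * c12
      + 707691 * r * c12 * c12 := by positivity

private theorem part10_8 {r p m n i e f c7 c8 c9 c10 c11 c12 : ℝ} (hr : 0 ≤ r) (hp : 0 ≤ p) (hm : 0 ≤ m) (hn : 0 ≤ n) (hi : 0 ≤ i) (he : 0 ≤ e) (hf : 0 ≤ f) (hc7 : 0 ≤ c7) (hc8 : 0 ≤ c8) (hc9 : 0 ≤ c9) (hc10 : 0 ≤ c10) (hc11 : 0 ≤ c11) (hc12 : 0 ≤ c12) :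
    0 ≤ 133281408 * m * m * i * c8
      + 182931 * c7 * c8 * (1 - 17 * r + 7 * p - 5 * m - 2 * n + 2 * e - f) ^ 2
      + 652893 * c8 * c8 * (-7 - 12 * r + 3 * p - 10 * m + 3 * n - 7 * i - e + 2 * f) ^ 2
      + 24781026 * r * c10 * c11 * c12
      + 79040016 * i * c8 * c9
      + 96408 * p * c11 * (-6 + 15 * r - 10 * p - 4 * m + 9 * n + 5 * i - 3 * e - 7 * f) ^ 2
      + 20641956 * n * i * c7 * c12
      + 31428480 * m * i * c8
      + 40409199 * r * e * c7 * c8
      + 86403 * f * c8 * (-5 - 12 * r + 8 * p - 10 * m + n + 4 * i - 5 * e + 2 * f) ^ 2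
      + 18756795 * m * e * f * c12
      + 41478 * e * c8 * (1 - 14 * r + 10 * p - m + n - i - 3 * e - f) ^ 2
      + 24869202 * c9 * c9 * c12
      + 333444 * c9 * c10 * (6 - 10 * r + 9 * p + 2 * m + 10 * n - 3 * i) ^ 2
      + 401412 * c7 * c8 * (-6 - 18 * r + 10 * p - 9 * m - 2 * n + 6 * i + 2 * e) ^ 2
      + 787767 * m * e * (-2 + 5 * r - p + 6 * m - 10 * n + 4 * i - 3 * e + 3 * f) ^ 2
      + 141727842 * r * p * i * c8
      + 1589715 * r * c7 * (4 + 2 * r - 4 * p + 10 * m - 3 * n - 2 * i - e + f) ^ 2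
      + 1622472 * i * i * e * c10
      + 3222369 * i * i * e * c8 := by positivity

private theorem part10_9 {r p m n i e f c7 c8 c10 c11 c12 : ℝ} (hr : 0 ≤ r) (hp : 0 ≤ p) (hm : 0 ≤ m) (hn : 0 ≤ n) (hi : 0 ≤ i) (he : 0 ≤ e) (hf : 0 ≤ f) (hc7 : 0 ≤ c7) (hc8 : 0 ≤ c8) (hc10 : 0 ≤ c10) (hc11 : 0 ≤ c11) (hc12 : 0 ≤ c12) :
    0 ≤ 235305 * e * (-10 * r + 7 * p + 10 * m - 6 * n + 4 * i - 9 * e) ^ 2
      + 70695504 * p * i * f * c10
      + 9530865 * p * e * e * c12
      + 100819437 * e * f * f * c12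
      + 476673 * i * f * (-1 + 13 * r - 9 * p + 10 * m - n + 3 * i + e + 2 * f) ^ 2
      + 925332 * e * f * (-4 + r + 9 * p - 3 * m + n - i - 2 * e - 2 * f) ^ 2
      + 87827205 * m * e * c7 * c7
      + 2823 * (-2 - 7 * r + 6 * p - m - 5 * n + 10 * i + 8 * r * r - 9 * r * p + 5 * r * m - 5 * r * n + 5 * r * i + 4 * p * p - 2 * p * m + 2 * p * n + 3 * m * m - 4 * m * n + 5 * m * i - 2 * n * n + 2 * n * i + 3 * i * i) ^ 2
      + 30003 * p * c11 * (1 - 15 * r + 10 * p + 6 * m + n + 5 * i - e + 5 * f) ^ 2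
      + 98853 * r * n * (-3 + 7 * r - 5 * p + 2 * m + 7 * n - 10 * i) ^ 2
      + 220008 * c7 * c10 * (-10 - 3 * r + 4 * p - 8 * m - 3 * n + 9 * i + 3 * e - f) ^ 2
      + 212460 * c10 * (3 - 2 * r + p - 2 * m - 7 * i + 10 * e - 10 * f) ^ 2
      + 148875 * c10 * c11 * (1 - 16 * r + 10 * p - 7 * m + 6 * n + e) ^ 2
      + 11402592 * n * n * i * c12
      + 35291328 * r * m * f * c12
      + 2943216 * r * p * c8
      + 1360614 * m * n * n * c12
      + 453726 * i * c10 * (-4 + 13 * r - 10 * p + 3 * m - n - 6 * i) ^ 2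
      + 899172 * i * c10 * (2 - 14 * r + 10 * p - 3 * m + 10 * n - 5 * i + e) ^ 2
      + 211038 * c11 * (5 * r + 2 * m - 6 * n - 10 * i - e) ^ 2 := by positivity

private theorem part10_10 {r p m n i e f c7 c8 c9 c11 c12 : ℝ} (hr : 0 ≤ r) (hp : 0 ≤ p) (hm : 0 ≤ m) (hn : 0 ≤ n) (hi : 0 ≤ i) (he : 0 ≤ e) (hf : 0 ≤ f) (hc7 : 0 ≤ c7) (hc8 : 0 ≤ c8) (hc9 : 0 ≤ c9) (hc11 : 0 ≤ c11) (hc12 : 0 ≤ c12) :
    0 ≤ 137786271 * p * f * c12
      + 1540284 * m * c8 * (-6 + 14 * r - 10 * p - m - 2 * n - 6 * i + f) ^ 2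
      + 55548216 * p * p * e * c8
      + 70117368 * p * p * m * c11
      + 44179875 * r * n * c11 * c12
      + 372363 * i * f * (-5 + 6 * r + 4 * p + 9 * m - 5 * n + 2 * i - 3 * e - 5 * f) ^ 2
      + 1613811 * m * m * (-r + p + m - n - i - 10 * e) ^ 2
      + 467286 * p * c7 * (-2 - 4 * r + 2 * p + 10 * m - 6 * n + 7 * i + 7 * e) ^ 2
      + 381411 * m * c11
      + 132047895 * p * m * e * c12
      + 182889 * n * n * (-2 - 14 * r + 9 * p + 10 * m - 5 * n + 4 * i + 5 * e) ^ 2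
      + 36781077 * f * c8 * c8
      + 53455974 * e * c12
      + 109037490 * m * m * c7
      + 274785 * i * c11 * (-4 - r - 9 * p - 4 * m - 7 * n + 4 * i - 4 * e + 4 * f) ^ 2
      + 8046417 * i * f * f * c8
      + 38919 * p * e * (10 * r - 7 * p - 10 * m + 6 * n - 6 * i + 9 * e) ^ 2
      + 11801694 * i * i * c9
      + 55468545 * n * n * c7 * c8
      + 31543395 * p * n * e * c12 := by positivity

private theorem part10_11 {r p m n i e f c7 c8 c9 c10 c11 c12 : ℝ} (hr : 0 ≤ r) (hp : 0 ≤ p) (hm : 0 ≤ m) (hn : 0 ≤ n) (hi : 0 ≤ i) (he : 0 ≤ e) (hf : 0 ≤ f) (hc7 : 0 ≤ c7) (hc8 : 0 ≤ c8) (hc9 : 0 ≤ c9) (hc10 : 0 ≤ c10) (hc11 : 0 ≤ c11) (hc12 : 0 ≤ c12) :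
    0 ≤ 278673 * i * c8 * (9 - 5 * r + 7 * p + 3 * m + 10 * n + 7 * f) ^ 2
      + 93042 * r * f * (10 + 2 * p + 9 * m - 4 * n - 4 * i + 9 * e - 4 * f) ^ 2
      + 226314147 * r * i * c7 * c8
      + 65407878 * p * m * f * c12
      + 63846747 * e * e * e * c12
      + 21758646 * p * c10 * c11
      + 66272571 * m * f * c8 * c8
      + 125641662 * p * i * c8 * c8
      + 14385 * c8 * c11 * (-15 * r + 10 * p + 2 * m + 4 * n - 2 * i - 4 * e - 5 * f) ^ 2
      + 258921 * c12 * (1 - 3 * r - 6 * p - m + 7 * n + 4 * i - 10 * e) ^ 2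
      + 4472886 * p * c8 * c12
      + 209337 * p * m * (-5 + 5 * r + 5 * p + n - i) ^ 2
      + 414479889 * m * c7 * c7 * c7
      + 969876 * m * c11 * (-1 + r + 10 * m - 7 * n + 6 * e) ^ 2
      + 8835285 * p * p * c8 * c8
      + 537426 * e * c10 * (4 - 13 * r + 10 * p - 3 * m + 4 * n + 4 * e) ^ 2
      + 30962949 * i * e * f * c12
      + 139525116 * m * i * c7 * c12
      + 74183346 * m * n * c7 * c12
      + 134217 * m * c9 * (10 * f) ^ 2 := by positivity

private theorem part10_12 {r p m n i e f c7 c8 c9 c11 c12 : ℝ} (hr : 0 ≤ r) (hp : 0 ≤ p) (hm : 0 ≤ m) (hn : 0 ≤ n) (hi : 0 ≤ i) (he : 0 ≤ e) (hf : 0 ≤ f) (hc7 : 0 ≤ c7) (hc8 : 0 ≤ c8) (hc9 : 0 ≤ c9) (hc11 : 0 ≤ c11) (hc12 : 0 ≤ c12) :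
    0 ≤ 70780485 * e * f * c8
      + 455685 * n * i * (-2 + 4 * r - 3 * p + m + 8 * n - 10 * i) ^ 2
      + 3331491 * f * c8
      + 100901823 * i * f * f * c12
      + 272057061 * m * m * c7 * c9
      + 434703 * c7 * (-1 + 5 * r - p + 4 * n + i - 10 * f) ^ 2
      + 125415 * i * c9 * (-6 * r + 3 * p + 5 * m - 8 * n + 2 * i - 6 * e + 10 * f) ^ 2
      + 263703 * m * c12 * (-1 - 10 * r + 6 * p - 8 * m + 10 * n - i - 6 * e + f) ^ 2
      + 30392208 * n * i * i * c11
      + 87999 * c11 * c12 * (10 + 5 * r - 2 * p - m + 3 * n + 5 * i - e + 3 * f) ^ 2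
      + 65952648 * n * e * e * c11
      + 47946810 * m * i * f * c7
      + 115475625 * c8 * c12
      + 250611 * c7 * c9 * (2 + 10 * r - 8 * p + 10 * m - 3 * i - e + f) ^ 2
      + 9457737 * p * i * c12 * c12
      + 62767455 * r * i * i * c12
      + 4985730 * i * i * c12
      + 7327179 * r * c7 * c9
      + 170988 * i * (2 + 8 * r - 3 * p - 10 * m - 2 * n + 6 * i + e - 3 * f) ^ 2
      + 10075908 * m * f * c12 := by positivity

private theorem part10_13 {r p m n i e f c8 c9 c10 c11 c12 : ℝ} (hr : 0 ≤ r) (hp : 0 ≤ p) (hm : 0 ≤ m) (hn : 0 ≤ n) (hi : 0 ≤ i) (he : 0 ≤ e) (hf : 0 ≤ f) (hc8 : 0 ≤ c8) (hc9 : 0 ≤ c9) (hc10 : 0 ≤ c10) (hc11 : 0 ≤ c11) (hc12 : 0 ≤ c12) :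
    0 ≤ 56442 * (-2 + 6 * r - 2 * p - 7 * m + 5 * n - 2 * i - 3 * e - 5 * r * r + 20 * r * p + 7 * r * m - 4 * r * n + 5 * r * i + 12 * r * e - 10 * p * p - 5 * p * m + 4 * p * n - 4 * p * i - 9 * p * e + m * m - 5 * m * n + 2 * m * e + 6 * n * n - n * i - n * e - 2 * i * i - 4 * e * e) ^ 2
      + 55464378 * n * f * f * c10
      + 51253938 * r * r * e * c12
      + 246123 * c10 * c11 * (-1 - 2 * r + 3 * p + 4 * m - 10 * n + 3 * i - 3 * e + 5 * f) ^ 2
      + 5274693 * p * f * f * c11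
      + 116520 * p * c10 * (6 - 12 * r + 10 * p - 2 * m + 4 * n + 4 * i) ^ 2
      + 27671517 * e * e * c8 * c8
      + 18006 * i * i * (1 + 16 * r - 10 * p - 4 * i - e) ^ 2
      + 20833149 * p * p * f * c8
      + 6015747 * n * n * c9 * c11
      + 75115194 * i * c8 * c8
      + 34913073 * p * m * n * c11
      + 71014347 * n * i * i * c12
      + 61981581 * i * c11
      + 154251 * c10 * c12 * (1 + 5 * r - 2 * p + 5 * m - 10 * n + 2 * i + 9 * e - f) ^ 2
      + 474447 * c8 * (-4 + 6 * r - 3 * p - 2 * m - n - 10 * i + 6 * e + 4 * f) ^ 2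
      + 63789 * m * m * (-7 + 15 * r - 10 * p + 4 * m - 6 * n) ^ 2
      + 470787 * c10 * c12 * (7 - 8 * r + 5 * p - 10 * m + n + 2 * i + e + 2 * f) ^ 2
      + 87683655 * r * f * f * c11
      + 202797 * e * c8 * (-7 + 3 * r + 2 * p - 10 * m + 9 * n + 2 * i + 6 * f) ^ 2 := by positivity

private theorem part10_14 {r p m n i e f c7 c8 c9 c11 c12 : ℝ} (hr : 0 ≤ r) (hp : 0 ≤ p) (hm : 0 ≤ m) (hn : 0 ≤ n) (hi : 0 ≤ i) (he : 0 ≤ e) (hf : 0 ≤ f) (hc7 : 0 ≤ c7) (hc8 : 0 ≤ c8) (hc9 : 0 ≤ c9) (hc11 : 0 ≤ c11) (hc12 : 0 ≤ c12) :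
    0 ≤ 24753606 * i * c7 * c11 * c11
      + 16994304 * n * f * c9 * c12
      + 96306 * i * c11 * (9 + 4 * r + 3 * p + 8 * m + 5 * n + 10 * i + 9 * e + 9 * f) ^ 2
      + 32623038 * i * i * i * c8
      + 414636 * e * c11 * (6 + 2 * r + 8 * p + 6 * m + 3 * n - 2 * i + 6 * e + f) ^ 2
      + 9778644 * r * f * c12
      + 479703 * m * f * (1 + 16 * r - 10 * p + 5 * m - 3 * n - 3 * i + f) ^ 2
      + 59551326 * m * c8 * c8 * c12
      + 30413550 * p * p * c8 * c12
      + 681237 * i * c8 * (10 + 4 * r - p - 2 * m + 3 * n + 4 * i - e + 3 * f) ^ 2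
      + 3007 * r
      + 3114 * r * m
      + 3243 * r * m * m
      + 3430 * r * m * n
      + 3002 * r * r * i
      + 4505 * r * n * e
      + 3386 * r * n * f
      + 3605 * r * p
      + 10048594 * r * e
      + 3109 * r * f := by positivity

private theorem part10_15 {r p m n i e f : ℝ} (hr : 0 ≤ r) (hp : 0 ≤ p) (hm : 0 ≤ m) (hn : 0 ≤ n) (hi : 0 ≤ i) (he : 0 ≤ e) (hf : 0 ≤ f) :
    0 ≤ 2297 * r * r
      + 730 * r * p * m
      + 3394 * r * m * e
      + 3338 * r * m * f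
      + 3695 * r * r * m
      + 2901
      + 3083 * m
      + 3330 * m * m
      + 2820 * m * n
      + 3030 * r * i
      + 3393 * n * e
      + 2916 * n * f
      + 2866 * e
      + 3336 * p * m
      + 2520 * m * e
      + 2841 * m * f
      + 3243 * m * m * m
      + 2898 * m * m * n
      + 3437 * r * m * i
      + 2832 * m * n * e := by positivity

private theorem part10_16 {r p m n i e f : ℝ} (hr : 0 ≤ r) (hp : 0 ≤ p) (hm : 0 ≤ m) (hn : 0 ≤ n) (hi : 0 ≤ i) (he : 0 ≤ e) (hf : 0 ≤ f) :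
    0 ≤ 3642 * m * n * f
      + 1944 * p * m * m
      + 3646 * m * m * e
      + 3276 * m * m * f
      + 2640 * r * m * m * m
      + 2076 * r * m * m * n
      + 2901 * r * r * m * i
      + 1311 * r * m * n * e
      + 2295 * r * m * n * f
      + 3636 * r * p * m * m
      + 2778 * r * m * m * e
      + 2910 * r * m * m * f
      + 2691 * r * r * m * m
      + 3089 * p * p
      + 3339 * n
      + 2372 * p * n
      + 2980 * i
      + 2816 * p * i
      + 3329 * p * e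
      + 2873 * p * f := by positivity

private theorem part10_17 {r p m n i e f : ℝ} (hr : 0 ≤ r) (hp : 0 ≤ p) (hm : 0 ≤ m) (hn : 0 ≤ n) (hi : 0 ≤ i) (he : 0 ≤ e) (hf : 0 ≤ f) :
    0 ≤ 2403 * n * n
      + 2532 * n * i
      + 3426 * i * i
      + 3243 * i * e
      + 3090 * i * f
      + 2787 * e * e
      + 2721 * e * f
      + 3003 * f * f
      + 4488 * p * n * n
      + 3540 * p * n * i
      + 2127 * p * n * e
      + 2859 * p * n * f
      + 2844 * p * i * i
      + 3354 * p * i * e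
      + 3270 * p * i * f
      + 3690 * p * e * e
      + 3156 * p * e * f
      + 2808 * p * f * f
      + 2547 * m * i
      + 3154 * r * r * e := by positivity

private theorem part10_18 {r p m n i e f : ℝ} (hr : 0 ≤ r) (hp : 0 ≤ p) (hm : 0 ≤ m) (hn : 0 ≤ n) (hi : 0 ≤ i) (he : 0 ≤ e) (hf : 0 ≤ f) :
    0 ≤ 3517 * m * m * i
      + 3081 * p * p * m * m
      + 4380 * r * n
      + 4167 * r * r * n
      + 1767 * r * p * n
      + 2976 * p * m * n
      + 681 * r * n * n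
      + 2673 * m * n * n
      + 3501 * r * n * i
      + 2514 * m * n * i
      + 2886 * r * r * r * n
      + 1770 * r * r * m * n
      + 3147 * r * r * p * n
      + 4344 * r * p * m * n
      + 1626 * r * r * n * n
      + 3333 * r * m * n * n
      + 2559 * r * r * n * i
      + 2997 * r * m * n * i
      + 2766 * r * r * n * e
      + 2358 * r * r * n * f := by positivity

private theorem part10_19 {r p m n i e f : ℝ} (hr : 0 ≤ r) (hp : 0 ≤ p) (hm : 0 ≤ m) (hn : 0 ≤ n) (hi : 0 ≤ i) (he : 0 ≤ e) (hf : 0 ≤ f) :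
    0 ≤ 2946 * r * p * p * n
      + 2355 * p * p * m * n
      + 3165 * p * m * m * n
      + 4731 * r * p * n * n
      + 2955 * p * m * n * n
      + 2676 * r * p * n * i
      + 2862 * p * m * n * i
      + 3498 * r * p * n * e
      + 4104 * p * m * n * e
      + 3342 * r * p * n * f
      + 3711 * p * m * n * f
      + 2559 * m * m * m * n
      + 3012 * m * m * n * n
      + 3414 * m * m * n * i
      + 2649 * m * m * n * e
      + 2784 * m * m * n * f
      + 4371 * r * n * n * n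
      + 3366 * m * n * n * n
      + 3513 * r * n * n * i
      + 2895 * m * n * n * i := by positivity

private theorem part10_20 {r p m n i e f : ℝ} (hr : 0 ≤ r) (hp : 0 ≤ p) (hm : 0 ≤ m) (hn : 0 ≤ n) (hi : 0 ≤ i) (he : 0 ≤ e) (hf : 0 ≤ f) :
    0 ≤ 2514 * r * n * n * e
      + 3093 * m * n * n * e
      + 3249 * r * n * n * f
      + 3195 * m * n * n * f
      + 3417 * r * n * i * i
      + 3522 * m * n * i * i
      + 3354 * r * n * i * e
      + 3414 * m * n * i * e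
      + 4080 * r * n * i * f
      + 2832 * m * n * i * f
      + 3435 * r * n * e * e
      + 2592 * m * n * e * e
      + 4182 * r * n * e * f
      + 3504 * m * n * e * f
      + 3729 * r * n * f * f
      + 3072 * m * n * f * f
      + 2874 * p * m * e
      + 3216 * m * i * e
      + 3033 * m * e * e
      + 3765 * m * e * f := by positivity

private theorem part10_21 {r p m i e f : ℝ} (hr : 0 ≤ r) (hp : 0 ≤ p) (hm : 0 ≤ m) (hi : 0 ≤ i) (he : 0 ≤ e) (hf : 0 ≤ f) :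
    0 ≤ 115606383 * r * r * m * e
      + 2736 * r * p * m * e
      + 260010246 * r * m * i * e
      + 140702253 * r * m * e * e
      + 2241 * r * m * e * f
      + 2985 * p * p * m * e
      + 3813 * p * m * m * e
      + 175339155 * p * m * i * e
      + 11300937 * p * m * e * e
      + 3333 * p * m * e * f
      + 2628 * m * m * m * e
      + 121858761 * m * m * i * e
      + 2886 * m * m * e * e
      + 2619 * m * m * e * f
      + 3150 * m * i * i * e
      + 51442263 * m * i * e * e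
      + 110572821 * m * i * e * f
      + 2910 * m * e * e * e
      + 158190672 * m * e * e * f
      + 2991 * m * e * f * f := by positivity

private theorem part10_22 {r p m n i e f : ℝ} (hr : 0 ≤ r) (hp : 0 ≤ p) (hm : 0 ≤ m) (hn : 0 ≤ n) (hi : 0 ≤ i) (he : 0 ≤ e) (hf : 0 ≤ f) :
    0 ≤ 2445 * r * r * r
      + 2847 * r * r * r * m
      + 4173 * r * r * p
      + 3648 * r * r * p * m
      + 2319 * r * p * p
      + 2742 * r * p * p * m
      + 2769 * n * n * i
      + 2715 * p * n * n * i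
      + 2928 * p * p * i
      + 2958 * r * p * i
      + 2676 * p * m * i
      + 2871 * p * p * p * i
      + 2949 * r * p * p * i
      + 3033 * p * p * m * i
      + 3492 * p * p * n * i
      + 3477 * p * p * i * i
      + 3171 * p * p * i * e
      + 3711 * p * p * i * f
      + 3417 * r * r * p * i
      + 2904 * r * p * m * i := by positivity

private theorem part10_23 {r p m n i e f : ℝ} (hr : 0 ≤ r) (hp : 0 ≤ p) (hm : 0 ≤ m) (hn : 0 ≤ n) (hi : 0 ≤ i) (he : 0 ≤ e) (hf : 0 ≤ f) :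
    0 ≤ 2361 * r * p * i * i
      + 2469 * r * p * i * e
      + 1755 * r * p * i * f
      + 2976 * p * m * m * i
      + 3267 * p * m * i * i
      + 2958 * p * m * i * f
      + 3090 * p * n * i * i
      + 3024 * p * n * i * e
      + 3294 * p * n * i * f
      + 2934 * p * i * i * i
      + 3183 * p * i * i * e
      + 3162 * p * i * i * f
      + 32851710 * p * i * e * e
      + 3108 * p * i * e * f
      + 2967 * p * i * f * f
      + 2445 * r * r * e * f
      + 3564 * r * p * e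
      + 2205 * r * i * e
      + 2451 * r * e * e
      + 3129 * r * e * f := by positivity

private theorem part10_24 {r p m n i e f : ℝ} (hr : 0 ≤ r) (hp : 0 ≤ p) (hm : 0 ≤ m) (hn : 0 ≤ n) (hi : 0 ≤ i) (he : 0 ≤ e) (hf : 0 ≤ f) :
    0 ≤ 2781 * p * p * e
      + 1674 * n * n * e
      + 3654 * n * i * e
      + 2805 * n * e * e
      + 2532 * n * e * f
      + 3462 * i * i * e
      + 68280606 * i * e * e
      + 177760977 * i * e * f
      + 39548313 * e * e * e
      + 61613571 * e * e * f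
      + 2796 * e * f * f
      + 3309 * n * i * e * e
      + 2610 * n * n * i * f
      + 14958594 * n * i * f
      + 2574 * p * m * f
      + 2613 * m * i * f
      + 3159 * m * m * i * f
      + 3534 * r * p * f * f
      + 3354 * p * m * f * f
      + 2730 * n * n * f := by positivity

private theorem part10_25 {r p m n i e f : ℝ} (hr : 0 ≤ r) (hp : 0 ≤ p) (hm : 0 ≤ m) (hn : 0 ≤ n) (hi : 0 ≤ i) (he : 0 ≤ e) (hf : 0 ≤ f) :
    0 ≤ 2508 * n * f * f
      + 3126 * p * p * n * f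
      + 2724 * p * n * n * f
      + 2448 * p * n * e * f
      + 2649 * p * n * f * f
      + 2994 * n * n * n * f
      + 2583 * n * n * e * f
      + 2649 * n * n * f * f
      + 2853 * n * e * e * f
      + 2565 * n * e * f * f
      + 3012 * n * f * f * f
      + 3429 * p * m * m * m
      + 3042 * r * m * m * i
      + 3255 * p * m * m * f
      + 2973 * m * m * m * m
      + 2772 * m * m * m * i
      + 68884461 * m * m * m * f
      + 3399 * m * m * i * i
      + 2877 * m * m * f * f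
      + 3987 * p * p * m := by positivity

private theorem part10_26 {r p m e f : ℝ} (hr : 0 ≤ r) (hp : 0 ≤ p) (hm : 0 ≤ m) (he : 0 ≤ e) (hf : 0 ≤ f) :
    0 ≤ 3078 * r * p * e * f
      + 34645959 * r * e * e * f
      + 2997 * r * e * f * f
      + 15996960 * p * p * e * f
      + 66056916 * p * e * e * f
      + 3135 * p * e * f * f
      + 28439421 * e * e * e * f
      + 2631 * e * e * f * f
      + 18605394 * e * f * f * f
      + 2775 * r * p * f
      + 2853 * r * r * r * p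
      + 3195 * r * r * p * p
      + 3885 * r * r * p * e
      + 3078 * r * r * p * f
      + 2730 * r * p * p * p
      + 1827 * r * p * p * e
      + 2814 * r * p * p * f
      + 2436 * r * p * m * f
      + 2988 * r * p * e * e
      + 3027 * p * p * f := by positivity

private theorem part10_27 {r p m n i e f : ℝ} (hr : 0 ≤ r) (hp : 0 ≤ p) (hm : 0 ≤ m) (hn : 0 ≤ n) (hi : 0 ≤ i) (he : 0 ≤ e) (hf : 0 ≤ f) :
    0 ≤ 3180 * p * p * m * f
      + 3051 * r * i * i
      + 3303 * r * r * i * i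
      + 3486 * r * m * i * f
      + 3879 * r * f * f
      + 2691 * m * f * f
      + 2976 * i * f * f
      + 2985 * f * f * f
      + 3357 * r * r * m * f
      + 2553 * r * r * f * f
      + 2703 * r * m * f * f
      + 3498 * r * i * e * f
      + 2685 * r * i * f * f
      + 2592 * r * f * f * f
      + 2940 * p * p * f * f
      + 3081 * p * f * f * f
      + 3147 * m * i * f * f
      + 9564933 * m * f * f * f
      + 2748 * n * i * e * f
      + 2907 * n * i * f * f := by positivity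

private theorem part10_28 {r p m i e f : ℝ} (hr : 0 ≤ r) (hp : 0 ≤ p) (hm : 0 ≤ m) (hi : 0 ≤ i) (he : 0 ≤ e) (hf : 0 ≤ f) :
    0 ≤ 50693214 * m * i * i * f
      + 103300767 * i * i * e * f
      + 71503344 * i * i * f * f
      + 21969669 * i * e * f * f
      + 35022315 * i * f * f * f
      + 8080806 * f * f * f * f
      + 2805 * m * i * i
      + 2976 * r * i * f
      + 2925 * r * r * r * i
      + 3198 * r * m * i * i
      + 3162 * r * r * i * e
      + 137696784 * r * r * i * f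
      + 2958 * r * i * i * i
      + 3075 * m * i * i * i
      + 2934 * r * i * i * e
      + 2589 * r * i * i * f
      + 45321855 * r * i * e * e
      + 2883 * r * r * f
      + 3003 * p * p * p * m
      + 3395304 * r * e * e * e := by positivity

private theorem part10_29 {p n i e f : ℝ} (hp : 0 ≤ p) (hn : 0 ≤ n) (hi : 0 ≤ i) (he : 0 ≤ e) (hf : 0 ≤ f) :
    0 ≤ 3309 * p * p * n
      + 3783 * n * n * n
      + 3237 * n * i * i
      + 3024 * p * p * p * n
      + 2526 * p * p * n * n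
      + 2934 * p * p * n * e
      + 2409 * p * n * n * n
      + 3231 * p * n * n * e
      + 3048 * p * n * e * e
      + 2499 * n * n * n * n
      + 2994 * n * n * n * i
      + 3939 * n * n * n * e
      + 2841 * n * n * i * i
      + 3204 * n * n * i * e
      + 2484 * n * n * e * e
      + 3063 * n * i * i * i
      + 46470414 * n * i * i * e
      + 2157 * n * i * i * f
      + 3114 * n * e * e * e
      + 2772 * p := by positivity

private theorem part10_30 {r p i e f : ℝ} (hr : 0 ≤ r) (hp : 0 ≤ p) (hi : 0 ≤ i) (he : 0 ≤ e) (hf : 0 ≤ f) :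
    0 ≤ 3060 * f
      + 3156 * p * p * p
      + 3315 * i * i * i
      + 3459 * i * i * f
      + 3345 * p * p * p * e
      + 2991 * p * p * e * e
      + 140517744 * p * e * e * e
      + 3009 * p * p * p * f
      + 5489898 * i * e * e * f
      + 10916769 * i * i * i * i
      + 35781549 * i * i * i * e
      + 80574492 * i * i * i * f
      + 3318 * i * i * e * e
      + 3249 * r * r * r * e
      + 3297 * r * r * e * e
      + 20059314 * i * e * e * e
      + 15945765 * e * e * e * e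
      + 3165 * r * r * r * f
      + 3075 * p * p * p * p
      + 3267 * r * r * r * r := by positivity

theorem leaf10 {r p m n i e f : ℝ} (h0 : 0 ≤ r) (h1 : 0 ≤ p) (h2 : 0 ≤ m) (h3 : 0 ≤ n) (h4 : 0 ≤ i) (h5 : 0 ≤ e) (h6 : 0 ≤ f) (h7 : 0 ≤ r - m) (h8 : 0 ≤ 1 - r - p) (h9 : 0 ≤ 1 - m - n - i) (h10 : 0 ≤ m - e - f) (h11 : 0 ≤ p - n - i - e - f) (h12 : 0 ≤ -1 + m + 2 * n) :
    0 ≤ -75000000 + 47500000 * r + 196250000 * m + 300000000 * n + 332500000 * i + 32500000 * e + 95000000 * r * r - 190000000 * r * p - 401250000 * r * m - 327000000 * r * i + 163000000 * r * e + 190000000 * r * f + 95000000 * p * p + 285000000 * p * m - 190000000 * p * n - 190000000 * p * i - 190000000 * p * e - 190000000 * p * f + 843750000 * m * m - 300000000 * m * n + 120000000 * m * i - 165000000 * m * e - 285000000 * m * f - 56250000 * n * n - 112500000 * n * i + 187500000 * n * e + 187500000 * n * f - 56250000 * i * i - 112500000 * i * e - 112500000 * i * f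 - 56250000 * e * e - 112500000 * e * f - 56250000 * f * f + 485000000 * r * r * m - 10000000 * r * r * i - 200000000 * r * r * e - 485000000 * r * p * m - 1083750000 * r * m * m + 190000000 * r * m * n - 985000000 * r * m * i + 85000000 * r * m * e + 485000000 * r * m * f - 190000000 * r * n * e - 190000000 * r * n * f - 1065000000 * p * m * m - 71250000 * p * n * n - 142500000 * p * n * i - 142500000 * p * n * e - 142500000 * p * n * f - 71250000 * p * i * i - 142500000 * p * i * e - 142500000 * p * i * f - 71250000 * p * e * e - 142500000 * p * e * f - 71250000 * p * f * f - 1316250000 * m * m * m - 585000000 * m * m * n + 220000000 * m * m * i + 805000000 * m * m * e + 585000000 * m * m * f + 585000000 * m * n * e + 585000000 * m * n * f - 195000000 * r * r * m * m + 675000000 * r * r * m * i + 1635000000 * r * p * m * m + 1518750000 * r * m * m * m + 675000000 * r * m * m * n - 675000000 * r * m * m * e - 675000000 * r * m * m *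 f - 675000000 * r * m * n * e - 675000000 * r * m * n * f + 480000000 * p * p * m * m := by
  have t0 := part10_0 h0 h1 h2 h3 h4 h5 h6 h7 h8 h12
  have t1 := part10_1 h0 h1 h2 h3 h4 h5 h6 h7 h8 h9 h10 h11 h12
  have t2 := part10_2 h0 h1 h2 h3 h4 h5 h6 h7 h8 h10 h11 h12
  have t3 := part10_3 h0 h1 h2 h3 h4 h5 h6 h7 h8 h10 h11 h12
  have t4 := part10_4 h0 h1 h2 h3 h4 h5 h6 h7 h8 h10 h11 h12
  have t5 := part10_5 h0 h1 h2 h3 h4 h5 h6 h7 h8 h10 h11 h12
  have t6 := part10_6 h0 h1 h2 h3 h4 h5 h6 h7 h8 h9 h10 h11 h12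
  have t7 := part10_7 h0 h1 h2 h3 h4 h5 h6 h7 h8 h10 h11 h12
  have t8 := part10_8 h0 h1 h2 h3 h4 h5 h6 h7 h8 h9 h10 h11 h12
  have t9 := part10_9 h0 h1 h2 h3 h4 h5 h6 h7 h8 h10 h11 h12
  have t10 := part10_10 h0 h1 h2 h3 h4 h5 h6 h7 h8 h9 h11 h12
  have t11 := part10_11 h0 h1 h2 h3 h4 h5 h6 h7 h8 h9 h10 h11 h12
  have t12 := part10_12 h0 h1 h2 h3 h4 h5 h6 h7 h8 h9 h11 h12
  have t13 := part10_13 h0 h1 h2 h3 h4 h5 h6 h8 h9 h10 h11 h12
  have t14 := part10_14 h0 h1 h2 h3 h4 h5 h6 h7 h8 h9 h11 h12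
  have t15 := part10_15 h0 h1 h2 h3 h4 h5 h6
  have t16 := part10_16 h0 h1 h2 h3 h4 h5 h6
  have t17 := part10_17 h0 h1 h2 h3 h4 h5 h6
  have t18 := part10_18 h0 h1 h2 h3 h4 h5 h6
  have t19 := part10_19 h0 h1 h2 h3 h4 h5 h6
  have t20 := part10_20 h0 h1 h2 h3 h4 h5 h6
  have t21 := part10_21 h0 h1 h2 h4 h5 h6
  have t22 := part10_22 h0 h1 h2 h3 h4 h5 h6
  have t23 := part10_23 h0 h1 h2 h3 h4 h5 h6
  have t24 := part10_24 h0 h1 h2 h3 h4 h5 h6
  have t25 := part10_25 h0 h1 h2 h3 h4 h5 h6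
  have t26 := part10_26 h0 h1 h2 h5 h6
  have t27 := part10_27 h0 h1 h2 h3 h4 h5 h6
  have t28 := part10_28 h0 h1 h2 h4 h5 h6
  have t29 := part10_29 h1 h3 h4 h5 h6
  have t30 := part10_30 h0 h1 h4 h5 h6
  linarith only [t0, t1, t2, t3, t4, t5, t6, t7, t8, t9, t10, t11, t12, t13, t14, t15, t16, t17, t18, t19, t20, t21, t22, t23, t24, t25, t26, t27, t28, t29, t30]

end Vale.Agent.P038.K4
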