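import Mathlib

/-
P038: one corner of the polynomial inequality for K4-free graphs (exact nonnegativity certificate).
-/

namespace Vale.Agent.P038.K4

private theorem part11_0 {r p m n i e f c7 c8 c9 c10 c11 c12 : ℝ} (hr : 0 ≤ r) (hp : 0 ≤ p) (hm : 0 ≤ m) (hn : 0 ≤ n) (hi : 0 ≤ i) (he : 0 ≤ e) (hf : 0 ≤ f) (hc7 : 0 ≤ c7) (hc8 : 0 ≤ c8) (hc9 : 0 ≤ c9) (hc10 : 0 ≤ c10) (hc11 : 0 ≤ c11) (hc12 : 0 ≤ c12) :
    0 ≤ 47834709 * r * f * f * c8
      + 52821 * m * m * (1 + r + 4 * p - 2 * m - 6 * n - 4 * i + 10 * e - 9 * f) ^ 2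
      + 8989932 * p * p * c9 * c9
      + 72351 * c11
      + 1667706 * m * n * (-10 + 7 * r + 7 * m + 6 * n) ^ 2
      + 130020 * r * c8 * (-7 + 11 * r - 10 * p + m - 5 * n - 5 * i) ^ 2
      + 118530 * e * e * (-10 + 2 * r - 2 * p - 3 * m + n + 8 * e - f) ^ 2
      + 107108913 * p * e * e * c10
      + 78780 * f * f * (-10 - 5 * r + 2 * p + n - e + 7 * f) ^ 2
      + 23278527 * e * e * f * c12
      + 141397053 * f * c8
      + 151344360 * m * m * n * c7
      + 53941272 * p * m * e * c8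
      + 25750965 * m * i * e * c8
      + 57111 * m * n * (-2 + 2 * r + p + m + 2 * n - i + 5 * e - 10 * f) ^ 2
      + 35766 * f * (-7 - 16 * r + 10 * p - 5 * m + 2 * n - 2 * e + f) ^ 2
      + 9666 * m * c12 * (-5 + 14 * r - 9 * p + 10 * m - 8 * n + i + f) ^ 2
      + 174573684 * p * c7 * c8
      + 407799 * n * c7 * (-1 + 16 * r - 10 * p + 5 * m - 4 * n) ^ 2
      + 74755899 * i * e * e * c8 := by positivity

private theorem part11_1 {r p m n i e f c7 c8 c9 c10 c11 c12 : ℝ} (hr : 0 ≤ r) (hp : 0 ≤ p) (hm : 0 ≤ m) (hn : 0 ≤ n) (hi : 0 ≤ i) (he : 0 ≤ e) (hf : 0 ≤ f) (hc7 : 0 ≤ c7) (hc8 : 0 ≤ c8) (hc9 : 0 ≤ c9) (hc10 : 0 ≤ c10) (hc11 : 0 ≤ c11) (hc12 : 0 ≤ c12) :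
    0 ≤ 5565483 * n * e * e * c12
      + 18621 * e * c10 * (10 + r + 4 * p + 9 * m + 3 * n + 5 * i + 9 * e + 3 * f) ^ 2
      + 22440 * e * c12 * (9 - 4 * r - 4 * p + 4 * m - 10 * n - 4 * i - e + 9 * f) ^ 2
      + 48220803 * r * i * e * c12
      + 578007 * m * e * c12
      + 35707764 * r * f * f * c9
      + 108899730 * r * n * c7 * c7
      + 219561396 * p * i * c11
      + 538020 * m * c9 * (3 - r - 2 * m - 5 * n + 10 * i + f) ^ 2
      + 11987265 * p * n * f * c11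
      + 9564417 * i * i * c8 * c12
      + 1253859 * m * n * n * c12
      + 80817 * m * n * (-4 - 2 * p + 4 * m + 10 * n + i - 3 * e - 2 * f) ^ 2
      + 211158 * e * f * (r - 2 * n - 2 * i - 7 * e - 10 * f) ^ 2
      + 135276 * (7 - 8 * r - 9 * m + 6 * n + 4 * i + 4 * r * r - 2 * r * p + 7 * r * m + 6 * r * n + 12 * r * i - 3 * p * p - 8 * p * m - 6 * p * n - 10 * p * i - m * m + 2 * m * i - 3 * n * n - 8 * i * i) ^ 2
      + 189777 * m * m * (-9 + 17 * r - 10 * p + 7 * m - 6 * n + 4 * i) ^ 2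
      + 2447850 * e * e * f * c7
      + 1439784 * p * n * (4 + 2 * r - 10 * p - 6 * m + 6 * n + 6 * i + 2 * f) ^ 2
      + 388146 * i * c8 * (10 - 8 * r + 8 * p + 9 * m + 2 * n + 8 * i + e + 5 * f) ^ 2
      + 628212 * p * (10 - 4 * r - 4 * p - 8 * m - 5 * n - 2 * i) ^ 2 := by positivity

private theorem part11_2 {r p m n i e f c7 c8 c9 c10 c11 c12 : ℝ} (hr : 0 ≤ r) (hp : 0 ≤ p) (hm : 0 ≤ m) (hi : 0 ≤ i) (he : 0 ≤ e) (hf : 0 ≤ f) (hc7 : 0 ≤ c7) (hc8 : 0 ≤ c8) (hc9 : 0 ≤ c9) (hc10 : 0 ≤ c10) (hc11 : 0 ≤ c11) (hc12 : 0 ≤ c12) :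
    0 ≤ 52393566 * f * c9
      + 195972 * p * c7 * (-1 + r - p + 2 * m + 2 * i + 7 * e - 10 * f) ^ 2
      + 171129 * p * e * (-2 * r - 3 * m + 4 * n - 10 * i + 7 * e + 10 * f) ^ 2
      + 76885443 * p * p * m * c11
      + 2384406 * m * i * e * c10
      + 91777209 * p * i * c7 * c9
      + 613290 * m * c7 * (8 + 16 * r - 10 * p - 4 * m + 3 * n - 2 * i - 7 * e) ^ 2
      + 17539557 * p * i * c9 * c12
      + 214183329 * p * i * e * c8
      + 26302677 * r * r * e * c12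
      + 36129 * p * e * (1 - 8 * r + 10 * p + 7 * m - 10 * n + i + 8 * e + 9 * f) ^ 2
      + 43266 * f * (-4 - r + m - 10 * n + 7 * i + 4 * e + 3 * f) ^ 2
      + 432 * p * c9 * (9 - r + 6 * p + 10 * n + 8 * i + 5 * e + 7 * f) ^ 2
      + 564324 * e * f * c12
      + 77700471 * p * p * e * c10
      + 314862 * p * (3 - 6 * r + 5 * p - m - 6 * n + 10 * i) ^ 2
      + 156582 * r * f * (-3 - 18 * r + 10 * p - 2 * m + 4 * n + 4 * i + 2 * f) ^ 2
      + 734079 * c8 * (5 - 13 * r + 10 * p + 5 * i - 2 * e) ^ 2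
      + 101601 * e * c7 * (10 - 4 * r + 6 * p - 4 * m + 5 * n - i + 10 * e - 4 * f) ^ 2
      + 184509 * r * r * (-9 + 17 * r - 10 * p + 7 * m - 6 * n + 4 * i) ^ 2 := by positivity

private theorem part11_3 {r p m n i e f c7 c8 c9 c11 c12 : ℝ} (hr : 0 ≤ r) (hp : 0 ≤ p) (hm : 0 ≤ m) (hn : 0 ≤ n) (hi : 0 ≤ i) (he : 0 ≤ e) (hc7 : 0 ≤ c7) (hc8 : 0 ≤ c8) (hc9 : 0 ≤ c9) (hc11 : 0 ≤ c11) (hc12 : 0 ≤ c12) :
    0 ≤ 1059828 * c8 * c11 * (1 + 7 * r - 10 * p - 2 * m - 2 * n - i - 2 * e) ^ 2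
      + 621411762 * m * m * c7 * c8
      + 21787980 * m * i * i * c11
      + 499467 * m * i * (-4 + 10 * r - 2 * p - 5 * m + 2 * n + 10 * i - 4 * e - 4 * f) ^ 2
      + 346827 * m * i * (4 - 4 * r - 6 * p - 4 * n + 7 * i + e - 5 * f) ^ 2
      + 96983577 * p * n * e * c8
      + 90815982 * p * e * c8
      + 48934503 * p * i * i * c8
      + 23897796 * m * m * c7
      + 10496325 * p * n * i * c8
      + 45197997 * p * p * c11
      + 80443323 * r * i * e * c11
      + 93990 * n * (-3 + 5 * r - 4 * p + m + 6 * n - 10 * i) ^ 2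
      + 50364 * m * i * (-1 + 14 * r - 10 * p + 4 * m - 3 * n - 3 * i) ^ 2
      + 391698 * i * c7 * (-1 - 3 * r - 4 * p - 2 * m + n - 10 * i - 4 * e + f) ^ 2
      + 1074087 * p * i * e * c11
      + 99204 * i * c7 * (7 + 12 * r - 10 * p - n - 8 * i - 4 * e + 2 * f) ^ 2
      + 17832 * c9 * c12 * (9 + 12 * r - 2 * p + 10 * m + 9 * n + 2 * i + 4 * e + 4 * f) ^ 2
      + 314019 * c8 * c9 * (-6 + 3 * r - 2 * p + 10 * m - 7 * n + i + f) ^ 2
      + 51390 * n * c8 * (-10 + 5 * r - 5 * p + 10 * m - 8 * n - i + 2 * e + f) ^ 2 := by positivity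

private theorem part11_4 {r p m n i e f c7 c10 c11 c12 : ℝ} (hr : 0 ≤ r) (hp : 0 ≤ p) (hm : 0 ≤ m) (hn : 0 ≤ n) (hi : 0 ≤ i) (he : 0 ≤ e) (hf : 0 ≤ f) (hc7 : 0 ≤ c7) (hc10 : 0 ≤ c10) (hc11 : 0 ≤ c11) (hc12 : 0 ≤ c12) :
    0 ≤ 39849510 * f * f * c10
      + 2573865 * r * i * f * c12
      + 56599848 * n * f * c7 * c7
      + 118803969 * m * i * c7 * c12
      + 42749955 * p * p * c7 * c7
      + 3492 * i * c11 * (-10 - 11 * r + 5 * p - 7 * m - 5 * n + i + 7 * f) ^ 2
      + 8400 * i * c12 * (-16 * r + 10 * p - m + 2 * n + i + e + 2 * f) ^ 2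
      + 36428367 * n * f * c11
      + 17997 * i * c11 * (4 - 4 * r + 8 * p - 4 * m + 2 * n - 10 * i - 2 * e + 2 * f) ^ 2
      + 32360766 * i * e * f * c12
      + 12937842 * f * f * f * c7
      + 8286792 * r * i * i * c10
      + 307815 * c7 * (3 + 14 * r - 10 * p + 9 * m - 8 * i - 2 * e + 2 * f) ^ 2
      + 59823972 * i * e * c12
      + 73316061 * m * m * e * c10
      + 46415904 * i * c7 * c12
      + 11083206 * e * e * c12
      + 8061627 * e * f * f * c12
      + 29736963 * m * i * c7 * c7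
      + 119958 * e * c11 * (8 + 8 * r + p + 9 * m + 6 * n + 7 * i + 10 * e + 8 * f) ^ 2 := by positivity

private theorem part11_5 {r p m n i e f c7 c8 c9 c10 c11 c12 : ℝ} (hr : 0 ≤ r) (hp : 0 ≤ p) (hm : 0 ≤ m) (hn : 0 ≤ n) (hi : 0 ≤ i) (he : 0 ≤ e) (hf : 0 ≤ f) (hc7 : 0 ≤ c7) (hc8 : 0 ≤ c8) (hc9 : 0 ≤ c9) (hc10 : 0 ≤ c10) (hc11 : 0 ≤ c11) (hc12 : 0 ≤ c12) :
    0 ≤ 15649650 * p * f * c7 * c9
      + 430677 * i * c8 * (-9 - 7 * r + 2 * p + 10 * m - 7 * n + f) ^ 2
      + 248664 * m * c11 * (2 - 4 * r + 4 * p - 6 * m + 10 * n + 2 * i + e - 3 * f) ^ 2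
      + 140538 * i * (10 - 18 * r + 10 * p - 8 * m + 8 * n - 6 * i) ^ 2
      + 31890333 * m * i * e * c12
      + 34037484 * n * n * n * c8
      + 129954804 * r * r * r * c11
      + 32259699 * p * m * f * c7
      + 118491783 * f * c10
      + 1358772 * r * r * e * c8
      + 481470 * p * m * (-10 + 16 * r - 8 * p + 8 * m + 2 * n - 2 * i) ^ 2
      + 1251033 * m * c8 * (7 - 11 * r + 10 * p - m + 5 * n + 5 * i) ^ 2
      + 48854706 * p * m * c8 * c12
      + 61941126 * r * e * f * c12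
      + 5234760 * n * i * i * c12
      + 471804 * f * c9 * (-10 - r - 5 * m - 5 * n + 2 * i + 2 * e + 4 * f) ^ 2
      + 45163401 * i * f * f * c7
      + 504376650 * m * m * c8 * c8
      + 32429478 * r * c11 * c11
      + 69052341 * i * f * c12 := by positivity

private theorem part11_6 {r p m n i e f c7 c8 c9 c10 c11 c12 : ℝ} (hr : 0 ≤ r) (hp : 0 ≤ p) (hm : 0 ≤ m) (hn : 0 ≤ n) (hi : 0 ≤ i) (he : 0 ≤ e) (hf : 0 ≤ f) (hc7 : 0 ≤ c7) (hc8 : 0 ≤ c8) (hc9 : 0 ≤ c9) (hc10 : 0 ≤ c10) (hc11 : 0 ≤ c11) (hc12 : 0 ≤ c12) :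
    0 ≤ 237648 * e * (10 - r + 2 * p + 10 * m - 4 * n - 3 * i - 4 * e + 8 * f) ^ 2
      + 527745 * m * c12 * (-3 - 14 * r + 10 * p - 6 * m + 5 * n - e) ^ 2
      + 76226565 * m * n * e * c8
      + 39883515 * r * f * c7
      + 85928325 * r * f * c9
      + 127293 * r * e * (-8 + 15 * r - 10 * p + 7 * m - 6 * n + i + 4 * e + 3 * f) ^ 2
      + 31922007 * r * f * c8 * c12
      + 186375 * c8 * c12 * (10 - 11 * r + 8 * p + 2 * m + 2 * i - e) ^ 2
      + 476265 * c11 * (7 - 10 * r - 10 * m + 9 * n + e) ^ 2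
      + 1101345 * i * i * c8 * c9
      + 32276811 * p * e * e * c9
      + 113577801 * m * m * f * c9
      + 329775 * i * c10 * (-1 + 14 * r - 10 * p + 4 * m - 3 * n - 3 * i) ^ 2
      + 38121 * f * c11 * (7 + 13 * r - 3 * p + 7 * m - 5 * n - 5 * i - 6 * e - 4 * f) ^ 2
      + 207444 * r * r * (-3 * r - p + 3 * m + n + i + 10 * e - 5 * f) ^ 2
      + 33786 * m * f * (-5 - 10 * r + 9 * p - 5 * m - 9 * n + 10 * i - 3 * e + 10 * f) ^ 2
      + 19201113 * n * e * c7 * c10
      + 5411196 * r * n * i * c12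
      + 76950762 * r * i * f * c8
      + 163149 * p * n * c9 * c12 := by positivity

private theorem part11_7 {r p m n i e f c7 c8 c11 c12 : ℝ} (hr : 0 ≤ r) (hp : 0 ≤ p) (hm : 0 ≤ m) (hn : 0 ≤ n) (hi : 0 ≤ i) (he : 0 ≤ e) (hf : 0 ≤ f) (hc7 : 0 ≤ c7) (hc8 : 0 ≤ c8) (hc11 : 0 ≤ c11) (hc12 : 0 ≤ c12) :
    0 ≤ 120405 * c7 * c8 * (8 + 15 * r - 9 * p + 10 * m - n - 5 * i + 2 * f) ^ 2
      + 6498840 * n * f * c12
      + 48370875 * r * n * f * c12
      + 10392252 * p * n * c7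
      + 44223177 * m * m * c8 * c12
      + 111148938 * m * e * c8
      + 24502461 * r * p * e * c12
      + 26176107 * r * i * i * c12
      + 26991 * f * f * (1 - 5 * r + 5 * p + 3 * m - 6 * n + 2 * i - 7 * e + 10 * f) ^ 2
      + 9425205 * i * c8 * c8
      + 191326635 * p * m * c7 * c12
      + 51323160 * e * e * c7 * c7
      + 2654232 * r * c8 * c8 * c12
      + 12582846 * n * i * e * c12
      + 196047 * f * (6 + 3 * r - 9 * p - 10 * m + 10 * n + 8 * i - 5 * e) ^ 2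
      + 234438 * r * c11 * (7 - 14 * r + 10 * p - 6 * m + 4 * n - i + 2 * e + f) ^ 2
      + 136561116 * r * n * n * c7
      + 49560462 * r * e * c7 * c7
      + 289170 * r * n * c12 * c12
      + 2040372 * i * i * e * c12 := by positivity

private theorem part11_8 {r p m n i e f c7 c8 c9 c10 c11 c12 : ℝ} (hr : 0 ≤ r) (hp : 0 ≤ p) (hm : 0 ≤ m) (hn : 0 ≤ n) (hi : 0 ≤ i) (he : 0 ≤ e) (hf : 0 ≤ f) (hc7 : 0 ≤ c7) (hc8 : 0 ≤ c8) (hc9 : 0 ≤ c9) (hc10 : 0 ≤ c10) (hc11 : 0 ≤ c11) (hc12 : 0 ≤ c12) :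
    0 ≤ 11055969 * f * f * c9 * c12
      + 91983126 * r * e * c9
      + 92199 * m * i * (-1 + 2 * p - 2 * i + 10 * e - 9 * f) ^ 2
      + 42332283 * p * i * c7 * c7
      + 68803881 * r * r * c8 * c11
      + 382839 * n * n * (-4 - 4 * r + 10 * p + 8 * m - 6 * n - 6 * i + e + f) ^ 2
      + 177765 * r * e * (3 + r - 6 * p - 3 * m - n - 10 * i - 2 * e - 7 * f) ^ 2
      + 221652 * r * i * (1 - 3 * p - m - 2 * n + 6 * i + 7 * e + 10 * f) ^ 2
      + 32408217 * p * n * e * c10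
      + 310851 * m * e * (-6 + 15 * r - 10 * p + 4 * m - 5 * n + 4 * e + 2 * f) ^ 2
      + 6981720 * n * n * c8 * c8
      + 373197 * f * c8 * (3 + 3 * r - 5 * p - m - 2 * n + 10 * i - 2 * e + f) ^ 2
      + 50046981 * c11 * c12
      + 40391790 * n * n * f * c8
      + 19802079 * r * r * c7 * c8
      + 382389 * p * c7 * (-2 - r - p + 2 * m + 6 * n - 5 * i - 2 * e - 10 * f) ^ 2
      + 169208481 * p * i * c7 * c8
      + 243834 * i * c8 * (r - p - m - 4 * i - 2 * e + 10 * f) ^ 2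
      + 6462210 * p * n * c8 * c8
      + 38811096 * n * f * c8 * c8 := by positivity

private theorem part11_9 {r p m n i e f c7 c8 c9 c11 c12 : ℝ} (hr : 0 ≤ r) (hp : 0 ≤ p) (hm : 0 ≤ m) (hn : 0 ≤ n) (hi : 0 ≤ i) (he : 0 ≤ e) (hf : 0 ≤ f) (hc7 : 0 ≤ c7) (hc8 : 0 ≤ c8) (hc9 : 0 ≤ c9) (hc11 : 0 ≤ c11) (hc12 : 0 ≤ c12) :
    0 ≤ 23313864 * p * c8 * c8 * c8
      + 25944897 * n * n * i * c8
      + 224081718 * i * c7 * c7
      + 100732731 * i * f * c11
      + 11181 * i * (-4 + 13 * r - 10 * p + 3 * m - 3 * n - 3 * i) ^ 2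
      + 27192 * c7 * (-1 + 16 * r - 10 * p + 5 * m - 4 * n) ^ 2
      + 105608829 * r * i * c8 * c9
      + 187464 * n * c9 * (3 - r - 7 * m + 3 * n + 10 * i - 2 * e - 5 * f) ^ 2
      + 16987041 * i * i * f * c9
      + 1573317 * p * p * (-3 + r + 9 * p + 2 * m - 6 * n - 6 * i - 2 * e + f) ^ 2
      + 49433094 * c7 * c8
      + 442779 * m * i * (5 - 14 * r + 10 * p - 4 * m + 4 * n + i) ^ 2
      + 19896069 * r * e * e * c12
      + 384153 * e * c8 * (-9 - 4 * r + 3 * m - 6 * n + i + 10 * e + f) ^ 2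
      + 12022911 * i * e * c7
      + 787834821 * p * m * m * c7
      + 157707 * c8 * c12 * (4 + 18 * r - 10 * p + 8 * m + 2 * n - 2 * i - e + f) ^ 2
      + 142473138 * n * c7 * c9
      + 265627011 * m * n * n * c7
      + 167712 * m * f * (2 - r + 4 * p - 10 * m + 5 * n - 6 * i + 7 * e + 5 * f) ^ 2 := by positivity

private theorem part11_10 {r p m n i e f c7 c8 c9 c10 c11 c12 : ℝ} (hr : 0 ≤ r) (hp : 0 ≤ p) (hm : 0 ≤ m) (hn : 0 ≤ n) (hi : 0 ≤ i) (he : 0 ≤ e) (hf : 0 ≤ f) (hc7 : 0 ≤ c7) (hc8 : 0 ≤ c8) (hc9 : 0 ≤ c9) (hc10 : 0 ≤ c10) (hc11 : 0 ≤ c11) (hc12 : 0 ≤ c12) :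
    0 ≤ 4608 * i * e * (-5 - 15 * r + 10 * p - 8 * m - 4 * n - 2 * i + 3 * e + 2 * f) ^ 2
      + 22323648 * p * n * e * c9
      + 158199 * e * c7 * (-10 - 3 * r + 2 * p - 7 * n + 4 * i + 5 * e + 6 * f) ^ 2
      + 34168218 * e * f * f * c8
      + 64562595 * m * f * c12
      + 102110946 * r * r * e * c10
      + 13225032 * e * e * e * c12
      + 43264185 * p * c7 * c7 * c7
      + 13387515 * i * i * i * c12
      + 135337791 * p * p * f * c8
      + 21352032 * n * i * f * c8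
      + 142305180 * i * c8 * c9
      + 290466 * p * e * (5 + 8 * r - 2 * p + m + 3 * n - 3 * i - 10 * e + 5 * f) ^ 2
      + 18237465 * p * i * e * c12
      + 49334754 * m * c7 * c9 * c12
      + 57605628 * r * i * c7 * c8
      + 106954551 * m * e * c7 * c7
      + 37514262 * c7 * c10 * c11
      + 227432664 * e * c8
      + 79618032 * e * f * c7 * c7 := by positivity

private theorem part11_11 {r p m n i e f c7 c8 c9 c10 c11 c12 : ℝ} (hr : 0 ≤ r) (hp : 0 ≤ p) (hm : 0 ≤ m) (hn : 0 ≤ n) (hi : 0 ≤ i) (he : 0 ≤ e) (hf : 0 ≤ f) (hc7 : 0 ≤ c7) (hc8 : 0 ≤ c8) (hc9 : 0 ≤ c9) (hc10 : 0 ≤ c10) (hc11 : 0 ≤ c11) (hc12 : 0 ≤ c12) :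
    0 ≤ 652533 * e * f * c10
      + 147219909 * f * f * c8
      + 362784 * n * i * c12 * c12
      + 65838324 * m * m * m * c7
      + 22298640 * r * n * c8 * c12
      + 9696495 * p * p * e * c8
      + 186720 * m * c11 * (-1 - r + 6 * p + 10 * m - 4 * n - 3 * i - f) ^ 2
      + 332487 * n * e * (10 - 3 * r + 3 * p + 2 * m + n - 6 * i + 2 * e + 4 * f) ^ 2
      + 108773094 * m * m * e * c9
      + 17398344 * m * i * f * c12
      + 10276293 * p * f * c10
      + 29094 * c11 * c12 * (3 + 18 * r - 10 * p + 7 * m - 4 * n + 2 * e + f) ^ 2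
      + 1489383 * e * (1 - 5 * r - 5 * p + m + 5 * n - 2 * i + 3 * e + 2 * f) ^ 2
      + 5424024 * n * n * c11 * c12
      + 9960 * (10 - 3 * r + 2 * p - m + 3 * n - i - 23 * r * r + 23 * r * p - 15 * r * m + 7 * r * n - 7 * r * i - 8 * p * p + 7 * p * m - 4 * p * n + 4 * p * i - 8 * m * m + 3 * m * n - 3 * m * i - 2 * n * n + n * i) ^ 2
      + 76782 * c7 * (4 - 2 * r + 2 * p - m + 2 * n + i - e + 10 * f) ^ 2
      + 48993345 * m * n * e * c12
      + 20700750 * m * e * e * c12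
      + 5056020 * m * c7
      + 75543 * r * (10 - 16 * r + 8 * p - 8 * m + 4 * n - 3 * i) ^ 2 := by positivity

private theorem part11_12 {r p m n i e f c7 c8 c9 c10 c11 c12 : ℝ} (hr : 0 ≤ r) (hp : 0 ≤ p) (hm : 0 ≤ m) (hn : 0 ≤ n) (hi : 0 ≤ i) (he : 0 ≤ e) (hf : 0 ≤ f) (hc7 : 0 ≤ c7) (hc8 : 0 ≤ c8) (hc9 : 0 ≤ c9) (hc10 : 0 ≤ c10) (hc11 : 0 ≤ c11) (hc12 : 0 ≤ c12) :
    0 ≤ 27857844 * e * c9
      + 406743 * p * (-3 + 3 * r + 4 * p - n - i + 10 * e - 7 * f) ^ 2
      + 8355690 * n * n * f * c12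
      + 791592 * m * (-r + m - 10 * e - 2 * f) ^ 2
      + 6771345 * e * e * c8 * c8
      + 520209 * m * i * (-9 + 4 * p + 9 * m + n + 10 * i - 2 * e - 3 * f) ^ 2
      + 154722237 * m * f * c7
      + 38014638 * m * n * f * c12
      + 41025069 * r * i * c7 * c12
      + 266388 * f * c8 * (-10 - 5 * r + 4 * p - 2 * m - 7 * n + 2 * i + 10 * f) ^ 2
      + 101978124 * p * i * c8 * c8
      + 140263482 * r * r * i * c11
      + 336321 * r * i * (-5 + 14 * r - 10 * p + 4 * m - 4 * n - i) ^ 2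
      + 17815227 * i * i * c9
      + 89509011 * p * e * c11
      + 161157 * c10 * c11 * (-8 + 13 * r - 3 * p + 10 * m - 7 * n + i + e) ^ 2
      + 12574275 * i * f * f * c12
      + 3237510 * c8 * c12
      + 8059560 * n * i * c10 * c12
      + 16825626 * r * n * e * c12 := by positivity

private theorem part11_13 {r p m n i e f c7 c8 c9 c10 c12 : ℝ} (hr : 0 ≤ r) (hp : 0 ≤ p) (hm : 0 ≤ m) (hn : 0 ≤ n) (hi : 0 ≤ i) (he : 0 ≤ e) (hf : 0 ≤ f) (hc7 : 0 ≤ c7) (hc8 : 0 ≤ c8) (hc9 : 0 ≤ c9) (hc10 : 0 ≤ c10) (hc12 : 0 ≤ c12) :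
    0 ≤ 27603726 * i * e * e * c12
      + 67303536 * c7 * c9
      + 73740 * p * f * (-7 + 15 * r - 8 * p + 10 * m - 6 * n - 7 * i - 5 * e + 9 * f) ^ 2
      + 6857385 * i * i * i * c9
      + 61788 * n * f * (-1 + 14 * r - 10 * p + 4 * m - 4 * n - 3 * i - e + 3 * f) ^ 2
      + 328113 * n * n * c12 * c12
      + 19986783 * r * r * i * c12
      + 5659404 * f * f * f * c12
      + 1316154 * c8 * (-4 - 4 * r + 10 * p + 8 * m - 8 * n - 4 * i) ^ 2
      + 224745 * p * f * (1 - 8 * r + 7 * p + m - 10 * n + 5 * i + 4 * e + 6 * f) ^ 2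
      + 77904 * e * c8 * (10 + 9 * r - 3 * p + 6 * m + 3 * n + 3 * i + 9 * e + f) ^ 2
      + 83008329 * m * c7 * c8
      + 5952411 * f * f * f * c10
      + 2722 * r
      + 3622 * r * m
      + 2195 * r * m * m
      + 3818 * r * r * i
      + 1808 * r * p
      + 3908 * r * r
      + 3256 * r * p * m := by positivity

private theorem part11_14 {r p m n i e : ℝ} (hr : 0 ≤ r) (hp : 0 ≤ p) (hm : 0 ≤ m) (hn : 0 ≤ n) (hi : 0 ≤ i) (he : 0 ≤ e) :
    0 ≤ 2420 * r * r * m
      + 3067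
      + 2845 * m
      + 3453 * m * m
      + 3825 * r * i
      + 2712 * p * m
      + 3051 * m * m * m
      + 2699 * r * m * i
      + 2829 * p * m * m
      + 3408 * r * m * m * m
      + 1545 * r * r * m * i
      + 3687 * r * p * m * m
      + 2559 * r * r * m * m
      + 3431 * p * p
      + 2975 * n
      + 2777 * p * n
      + 2845 * i
      + 2720 * p * i
      + 2821 * e
      + 10642148 * p * e := by positivity

private theorem part11_15 {p n i e f : ℝ} (hp : 0 ≤ p) (hn : 0 ≤ n) (hi : 0 ≤ i) (he : 0 ≤ e) (hf : 0 ≤ f) :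
    0 ≤ 3051 * f
      + 2924 * p * f
      + 3048 * n * n
      + 2604 * n * i
      + 3276 * n * e
      + 2865 * n * f
      + 2931 * i * i
      + 3063 * i * e
      + 3039 * i * f
      + 3015 * e * e
      + 2418 * e * f
      + 3015 * f * f
      + 3204 * p * n * n
      + 3153 * p * n * i
      + 3270 * p * n * e
      + 3129 * p * n * f
      + 2847 * p * i * i
      + 2991 * p * i * e
      + 63998409 * p * i * f
      + 3405 * p * e * e := by positivity

private theorem part11_16 {r p m n i e f : ℝ} (hr : 0 ≤ r) (hp : 0 ≤ p) (hm : 0 ≤ m) (hn : 0 ≤ n) (hi : 0 ≤ i) (he : 0 ≤ e) (hf : 0 ≤ f) :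
    0 ≤ 3546 * p * e * f
      + 2853 * p * f * f
      + 3216 * r * e
      + 3117 * m * i
      + 3054 * m * e
      + 3535 * r * r * e
      + 3098 * r * m * e
      + 2386 * m * m * i
      + 2809 * m * m * e
      + 2811 * p * m * m * m
      + 3453 * p * m * m * n
      + 2667 * p * p * m * m
      + 2988 * r * f * f
      + 2892 * r * r * f * f
      + 2985 * r * p * f * f
      + 3054 * m * m * n
      + 2970 * m * m * f
      + 2799 * r * m * m * n
      + 3042 * r * m * m * i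
      + 2733 * r * m * m * e := by positivity

private theorem part11_17 {r p m n i e f : ℝ} (hr : 0 ≤ r) (hp : 0 ≤ p) (hm : 0 ≤ m) (hn : 0 ≤ n) (hi : 0 ≤ i) (he : 0 ≤ e) (hf : 0 ≤ f) :
    0 ≤ 53174751 * r * m * m * f
      + 3675 * p * m * m * i
      + 110927307 * p * m * m * e
      + 3420 * p * m * m * f
      + 2997 * m * m * m * m
      + 3186 * m * m * m * n
      + 3018 * m * m * m * i
      + 3051 * m * m * m * e
      + 150101865 * m * m * m * f
      + 3012 * m * m * n * n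
      + 2766 * m * m * n * i
      + 2874 * m * m * n * e
      + 2628 * m * m * n * f
      + 3006 * m * m * i * i
      + 88643091 * m * m * i * e
      + 78033312 * m * m * i * f
      + 2667 * m * m * e * e
      + 2907 * m * m * e * f
      + 2904 * m * m * f * f
      + 3093 * p * p * m := by positivity

private theorem part11_18 {r p m n i : ℝ} (hr : 0 ≤ r) (hp : 0 ≤ p) (hm : 0 ≤ m) (hn : 0 ≤ n) (hi : 0 ≤ i) :
    0 ≤ 2991 * p * p * n
      + 3390 * p * p * i
      + 2913 * p * p * m * n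
      + 2541 * p * p * m * i
      + 2688 * p * p * n * n
      + 2601 * p * p * n * i
      + 2835 * p * p * i * i
      + 3015 * p
      + 2598 * m * n
      + 3780 * r * m * n
      + 2655 * m * n * n
      + 3825 * r * r * m * n
      + 2646 * r * m * n * n
      + 3117 * m * n * n * n
      + 2181 * r * r * r
      + 3921 * r * r * p
      + 3291 * r * p * p
      + 3069 * r * n
      + 2946 * r * r * n
      + 3174 * r * p * n := by positivity

private theorem part11_19 {r p m n i : ℝ} (hr : 0 ≤ r) (hp : 0 ≤ p) (hm : 0 ≤ m) (hn : 0 ≤ n) (hi : 0 ≤ i) :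
    0 ≤ 2151 * r * p * i
      + 2271 * r * r * r * r
      + 4485 * r * r * r * p
      + 1770 * r * r * p * p
      + 2523 * r * r * r * m
      + 4266 * r * r * p * m
      + 3948 * r * r * r * n
      + 3306 * r * r * p * n
      + 2307 * r * r * r * i
      + 3741 * r * r * p * i
      + 3378 * r * p * p * p
      + 2151 * r * p * p * m
      + 1884 * r * p * p * n
      + 2739 * r * p * p * i
      + 3030 * r * p * m * n
      + 4431 * r * p * m * i
      + 2172 * r * n * n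
      + 2283 * r * r * n * n
      + 3567 * r * p * n * n
      + 3093 * r * n * i := by positivity

private theorem part11_20 {r p m n i e f : ℝ} (hr : 0 ≤ r) (hp : 0 ≤ p) (hm : 0 ≤ m) (hn : 0 ≤ n) (hi : 0 ≤ i) (he : 0 ≤ e) (hf : 0 ≤ f) :
    0 ≤ 2385 * r * r * n * i
      + 3825 * r * p * n * i
      + 2976 * r * i * i
      + 2712 * r * r * i * i
      + 3483 * r * p * i * i
      + 2865 * r * e * e
      + 3201 * m * e * e
      + 2424 * n * e * e
      + 2706 * e * e * e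
      + 45746214 * e * e * f
      + 3213 * p * p * e * e
      + 2910 * r * p * e * e
      + 3519 * p * m * e * e
      + 3162 * p * n * e * e
      + 104516079 * p * e * e * e
      + 96428010 * p * e * e * f
      + 3135 * r * r * e * e
      + 2631 * r * m * e * e
      + 2499 * r * n * e * e
      + 36106557 * r * e * e * e := by positivity

private theorem part11_21 {r p m n e f : ℝ} (hr : 0 ≤ r) (hp : 0 ≤ p) (hm : 0 ≤ m) (hn : 0 ≤ n) (he : 0 ≤ e) (hf : 0 ≤ f) :
    0 ≤ 20468250 * r * e * e * f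
      + 2595 * m * n * e * e
      + 21987225 * m * e * e * e
      + 2700 * m * e * e * f
      + 2883 * n * n * e * e
      + 2715 * n * e * e * e
      + 2337 * n * e * e * f
      + 5757024 * e * e * e * e
      + 26302695 * e * e * e * f
      + 2733 * e * e * f * f
      + 3159 * n * f * f
      + 2895 * e * f * f
      + 18848403 * f * f * f
      + 9286815 * r * n * f * f
      + 20043573 * r * e * f * f
      + 17931381 * r * f * f * f
      + 4733610 * p * p * f * f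
      + 3066 * p * n * f * f
      + 3132 * p * e * f * f
      + 8348265 * p * f * f * f := by positivity

private theorem part11_22 {r p m n i e f : ℝ} (hr : 0 ≤ r) (hp : 0 ≤ p) (hm : 0 ≤ m) (hn : 0 ≤ n) (hi : 0 ≤ i) (he : 0 ≤ e) (hf : 0 ≤ f) :
    0 ≤ 2720475 * n * n * f * f
      + 2766 * n * e * f * f
      + 2928 * n * f * f * f
      + 2916 * e * f * f * f
      + 3027 * f * f * f * f
      + 3240 * r * f
      + 3102 * p * m * e
      + 4089 * r * p * m * e
      + 2991 * p * p * m * e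
      + 2883 * m * i * e
      + 3312 * r * m * i * e
      + 2934 * p * m * i * e
      + 3270 * p * m * n
      + 3582 * m * n * i
      + 3180 * m * n * e
      + 2430 * m * n * f
      + 2574 * r * m * n * i
      + 2622 * r * m * n * e
      + 2331 * r * m * n * f
      + 3525 * p * m * n * n := by positivity

private theorem part11_23 {r p m n i e f : ℝ} (hr : 0 ≤ r) (hp : 0 ≤ p) (hm : 0 ≤ m) (hn : 0 ≤ n) (hi : 0 ≤ i) (he : 0 ≤ e) (hf : 0 ≤ f) :
    0 ≤ 2613 * p * m * n * i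
      + 3048 * p * m * n * e
      + 2994 * p * m * n * f
      + 3177 * m * n * n * i
      + 3105 * m * n * n * e
      + 3207 * m * n * n * f
      + 2973 * m * n * i * i
      + 2682 * m * n * i * e
      + 3288 * m * n * i * f
      + 2499 * m * n * e * f
      + 3411 * m * n * f * f
      + 2901 * m * f
      + 2925 * r * r * f
      + 2907 * r * p * f
      + 2664 * r * m * f
      + 2538 * r * n * f
      + 62619180 * r * e * f
      + 3390 * p * p * f
      + 3267 * p * m * f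
      + 2601 * m * e * f := by positivity

private theorem part11_24 {r p m n i e f : ℝ} (hr : 0 ≤ r) (hp : 0 ≤ p) (hm : 0 ≤ m) (hn : 0 ≤ n) (hi : 0 ≤ i) (he : 0 ≤ e) (hf : 0 ≤ f) :
    0 ≤ 2790 * m * f * f
      + 3108 * n * n * f
      + 3435 * n * e * f
      + 3108 * p * m * i
      + 3312 * m * i * i
      + 20108481 * m * i * f
      + 3513 * r * n * n * n
      + 2622 * i * e * e
      + 153970986 * r * i * e * e
      + 108205485 * p * i * e * e
      + 200684421 * i * e * f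
      + 2028 * r * r * m * e
      + 2820 * r * r * e * f
      + 40456524 * r * p * e * f
      + 2382 * r * m * e * f
      + 2601 * r * n * e * f
      + 2841 * r * i * e * f
      + 23019846 * p * p * e * f
      + 3246 * p * m * e * f
      + 3036 * p * n * e * f := by positivity

private theorem part11_25 {r p m n i e f : ℝ} (hr : 0 ≤ r) (hp : 0 ≤ p) (hm : 0 ≤ m) (hn : 0 ≤ n) (hi : 0 ≤ i) (he : 0 ≤ e) (hf : 0 ≤ f) :
    0 ≤ 3069 * p * i * e * f
      + 2634 * m * i * e * f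
      + 5797914 * m * e * f * f
      + 3309720 * n * n * e * f
      + 2496 * n * i * e * e
      + 2172 * n * i * e * f
      + 128768937 * m * i * i * e
      + 23501280 * i * i * e * e
      + 25245996 * i * i * e * f
      + 30012855 * i * e * e * e
      + 50358555 * i * e * e * f
      + 26929812 * i * e * f * f
      + 1962 * r * n * e
      + 2292 * n * n * e
      + 2394 * n * i * e
      + 2286 * r * r * n * e
      + 4389 * r * p * n * e
      + 2157 * r * p * e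
      + 3087 * r * n * n * e
      + 2775 * r * n * i * e := by positivity

private theorem part11_26 {r p m n i e f : ℝ} (hr : 0 ≤ r) (hp : 0 ≤ p) (hm : 0 ≤ m) (hn : 0 ≤ n) (hi : 0 ≤ i) (he : 0 ≤ e) (hf : 0 ≤ f) :
    0 ≤ 2934 * r * i * e
      + 2373 * p * p * n * e
      + 3222 * p * p * e
      + 3171 * p * n * n * e
      + 3051 * p * n * i * e
      + 7361664 * n * n * n * e
      + 3060 * n * n * i * e
      + 2889 * n * i * i * e
      + 4239453 * i * i * e
      + 2580 * m * i * e * e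
      + 2898 * r * m * f * f
      + 3339 * r * i * f * f
      + 10056996 * r * m * i * i
      + 74686785 * r * m * i * f
      + 2682 * m * i * i * i
      + 101869314 * m * i * i * f
      + 3114 * m * i * f * f
      + 2739 * p * p * n * f
      + 2793 * p * n * n * f
      + 3171 * p * n * i * f := by positivity

private theorem part11_27 {r p m n i f : ℝ} (hr : 0 ≤ r) (hp : 0 ≤ p) (hm : 0 ≤ m) (hn : 0 ≤ n) (hi : 0 ≤ i) (hf : 0 ≤ f) :
    0 ≤ 3039 * n * i * i
      + 3042 * r * n * i * i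
      + 2988 * p * n * i * i
      + 2859 * p * m * i * i
      + 3132 * n * n * n
      + 3087 * n * n * i
      + 3000 * i * i * i
      + 3567 * r * n * n * i
      + 3213 * r * i * i * i
      + 3063 * p * p * p * p
      + 3132 * p * p * p * m
      + 3396 * p * p * p * n
      + 3006 * p * p * p * i
      + 2595 * p * n * n * n
      + 2577 * p * n * n * i
      + 3192 * p * i * i * i
      + 3036 * n * n * n * n
      + 3156 * n * n * i * i
      + 2913 * i * i * i * i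
      + 3762 * r * p * n * f := by positivity

private theorem part11_28 {r p m n i e f : ℝ} (hr : 0 ≤ r) (hp : 0 ≤ p) (hm : 0 ≤ m) (hn : 0 ≤ n) (hi : 0 ≤ i) (he : 0 ≤ e) (hf : 0 ≤ f) :
    0 ≤ 2988 * r * i * f
      + 147955317 * p * p * i * e
      + 3162 * p * p * i * f
      + 215605707 * r * r * i * e
      + 279854952 * r * r * i * f
      + 2952 * p * m * i * f
      + 3348 * n * i * f
      + 3228 * r * n * i * f
      + 2910 * r * i * i * e
      + 3258 * p * i * i * e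
      + 3378 * i * i * f
      + 2724 * r * i * i * f
      + 58810785 * p * i * i * f
      + 3081 * i * f * f
      + 49688940 * p * i * f * f
      + 2583 * p * p * p
      + 60042177 * r * p * p * e
      + 186792252 * r * p * p * f
      + 60723228 * p * p * m * f
      + 3456 * r * r * p * e := by positivity

private theorem part11_29 {r p m n i e f : ℝ} (hr : 0 ≤ r) (hp : 0 ≤ p) (hm : 0 ≤ m) (hn : 0 ≤ n) (hi : 0 ≤ i) (he : 0 ≤ e) (hf : 0 ≤ f) :
    0 ≤ 3498 * r * r * p * f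
      + 3984 * r * p * m * f
      + 2898 * r * p * i * e
      + 2628 * r * p * i * f
      + 15206460 * p * m * f * f
      + 3054 * p * p * p * e
      + 15456084 * r * r * r * f
      + 138158832 * r * r * m * f
      + 2232 * r * r * n * f
      + 3342 * r * n * n * f
      + 2724 * r * r * r * e
      + 2877 * p * p * p * f
      + 3144 * n * n * n * i
      + 2952 * n * n * n * f
      + 2883 * n * n * i * f
      + 3003 * n * i * i * i
      + 2919 * n * i * i * f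
      + 2832 * n * i * f * f
      + 11189400 * i * i * i * e
      + 23766300 * i * i * i * f := by positivity

private theorem part11_30 {m i f : ℝ} (hm : 0 ≤ m) (hi : 0 ≤ i) (hf : 0 ≤ f) :
    0 ≤ 9329712 * i * i * f * f
      + 8847096 * i * f * f * f
      + 3045 * m * f * f * f := by positivity

theorem leaf11 {r p m n i e f : ℝ} (h0 : 0 ≤ r) (h1 : 0 ≤ p) (h2 : 0 ≤ m) (h3 : 0 ≤ n) (h4 : 0 ≤ i) (h5 : 0 ≤ e) (h6 : 0 ≤ f) (h7 : 0 ≤ r - m) (h8 : 0 ≤ 1 - r - p) (h9 : 0 ≤ 1 - m - n - i) (h10 : 0 ≤ m - e - f) (h11 : 0 ≤ p - n - i - e - f) (h12 : 0 ≤ -1 + m + 2 * n) :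
    0 ≤ 32500000 + 47500000 * r - 211250000 * m + 192500000 * n + 332500000 * i + 332500000 * e + 300000000 * f + 95000000 * r * r - 190000000 * r * p - 211250000 * r * m - 327000000 * r * i - 27000000 * r * e + 95000000 * p * p + 285000000 * p * m - 190000000 * p * n - 190000000 * p * i - 190000000 * p * e - 190000000 * p * f + 558750000 * m * m + 120000000 * m * i + 120000000 * m * e - 56250000 * n * n - 112500000 * n * i - 112500000 * n * e - 112500000 * n * f - 56250000 * i * i - 112500000 * i * e - 112500000 * i * f - 56250000 * e * e - 112500000 * e * f - 56250000 * f * f + 485000000 * r * r * m - 10000000 * r * r * i - 200000000 * r * r * e - 485000000 * r * p * m - 598750000 * r * m * m - 985000000 * r * m * i - 400000000 * r * m * e - 585000000 * p * m * m - 71250000 * p * n * n - 142500000 * p * n * i - 142500000 * p * n * e - 142500000 * p * n * f - 71250000 * p * i * i - 142500000 * p * i * e - 142500000 * p * i * f - 71250000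 * p * e * e - 142500000 * p * e * f - 71250000 * p * f * f - 731250000 * m * m * m + 220000000 * m * m * i + 220000000 * m * m * e - 195000000 * r * r * m * m + 675000000 * r * r * m * i + 1635000000 * r * p * m * m + 843750000 * r * m * m * m + 480000000 * p * p * m * m - 480000000 * p * m * m * m - 480000000 * p * m * m * n := by
  have t0 := part11_0 h0 h1 h2 h3 h4 h5 h6 h7 h8 h9 h10 h11 h12
  have t1 := part11_1 h0 h1 h2 h3 h4 h5 h6 h7 h8 h9 h10 h11 h12
  have t2 := part11_2 (n := n) h0 h1 h2 h4 h5 h6 h7 h8 h9 h10 h11 h12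
  have t3 := part11_3 (f := f) h0 h1 h2 h3 h4 h5 h7 h8 h9 h11 h12
  have t4 := part11_4 h0 h1 h2 h3 h4 h5 h6 h7 h10 h11 h12
  have t5 := part11_5 h0 h1 h2 h3 h4 h5 h6 h7 h8 h9 h10 h11 h12
  have t6 := part11_6 h0 h1 h2 h3 h4 h5 h6 h7 h8 h9 h10 h11 h12
  have t7 := part11_7 h0 h1 h2 h3 h4 h5 h6 h7 h8 h11 h12
  have t8 := part11_8 h0 h1 h2 h3 h4 h5 h6 h7 h8 h9 h10 h11 h12
  have t9 := part11_9 h0 h1 h2 h3 h4 h5 h6 h7 h8 h9 h11 h12
  have t10 := part11_10 h0 h1 h2 h3 h4 h5 h6 h7 h8 h9 h10 h11 h12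
  have t11 := part11_11 h0 h1 h2 h3 h4 h5 h6 h7 h8 h9 h10 h11 h12
  have t12 := part11_12 h0 h1 h2 h3 h4 h5 h6 h7 h8 h9 h10 h11 h12
  have t13 := part11_13 h0 h1 h2 h3 h4 h5 h6 h7 h8 h9 h10 h12
  have t14 := part11_14 h0 h1 h2 h3 h4 h5
  have t15 := part11_15 h1 h3 h4 h5 h6
  have t16 := part11_16 h0 h1 h2 h3 h4 h5 h6
  have t17 := part11_17 h0 h1 h2 h3 h4 h5 h6
  have t18 := part11_18 h0 h1 h2 h3 h4
  have t19 := part11_19 h0 h1 h2 h3 h4
  have t20 := part11_20 h0 h1 h2 h3 h4 h5 h6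
  have t21 := part11_21 h0 h1 h2 h3 h5 h6
  have t22 := part11_22 h0 h1 h2 h3 h4 h5 h6
  have t23 := part11_23 h0 h1 h2 h3 h4 h5 h6
  have t24 := part11_24 h0 h1 h2 h3 h4 h5 h6
  have t25 := part11_25 h0 h1 h2 h3 h4 h5 h6
  have t26 := part11_26 h0 h1 h2 h3 h4 h5 h6
  have t27 := part11_27 h0 h1 h2 h3 h4 h6
  have t28 := part11_28 h0 h1 h2 h3 h4 h5 h6
  have t29 := part11_29 h0 h1 h2 h3 h4 h5 h6
  have t30 := part11_30 h2 h4 h6
  linarith only [t0, t1, t2, t3, t4, t5, t6, t7, t8, t9, t10, t11, t12, t13, t14, t15, t16, t17, t18, t19, t20, t21, t22, t23, t24, t25, t26, t27, t28, t29, t30]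

end Vale.Agent.P038.K4
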