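import Mathlib

/-
P038: one corner of the polynomial inequality for K4-free graphs (exact nonnegativity certificate).
-/

namespace Vale.Agent.P038.K4

private theorem part12_0 {r p m n i e f c7 c8 c9 c10 c11 c12 : ℝ} (hr : 0 ≤ r) (hp : 0 ≤ p) (hm : 0 ≤ m) (hn : 0 ≤ n) (hi : 0 ≤ i) (he : 0 ≤ e) (hf : 0 ≤ f) (hc7 : 0 ≤ c7) (hc8 : 0 ≤ c8) (hc9 : 0 ≤ c9) (hc10 : 0 ≤ c10) (hc11 : 0 ≤ c11) (hc12 : 0 ≤ c12) :
    0 ≤ 3234 * p * n * n * c12
      + 238902 * m * (1 + 15 * r - 10 * p + 5 * m - 2 * n - 2 * i) ^ 2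
      + 27975750 * p * m * m * c11
      + 15026493 * p * e * c11 * c12
      + 112685436 * n * e * c8
      + 449916 * c11 * (1 - 2 * r - p + 3 * m + 6 * n + 8 * i - 5 * e - 10 * f) ^ 2
      + 31672254 * i * c9 * c10
      + 917502 * i * c11 * (5 - 10 * r + 6 * p - 5 * m + 10 * n - 4 * i - 5 * e + 10 * f) ^ 2
      + 88456266 * i * e * c8
      + 287658 * c8 * (1 + 6 * r - 2 * p - 10 * m + 9 * n + 6 * i - 9 * e - 7 * f) ^ 2
      + 6977205 * r * r * c8 * c8
      + 70236 * c8 * c12 * (1 + 17 * r - 10 * p + 7 * m - 2 * n - 2 * i - e + 2 * f) ^ 2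
      + 88914774 * r * p * m * c10
      + 255940626 * i * f * c10
      + 501009 * r * c8 * (3 + 2 * r - 2 * p - 3 * m - 3 * n + 6 * e - 10 * f) ^ 2
      + 67481382 * f * f * f * c7
      + 6042 * c9 * (-1 - 7 * r + 6 * p + 10 * m - n - 8 * i - e + 9 * f) ^ 2
      + 67839 * e * c9 * (5 + 9 * r - 6 * p - 10 * m + 4 * n - i - 4 * e - 3 * f) ^ 2
      + 363582 * r * m * e * c12
      + 101899557 * n * i * c8 := by positivity

private theorem part12_1 {r p m n i e f c7 c8 c9 c10 c11 c12 : ℝ} (hr : 0 ≤ r) (hp : 0 ≤ p) (hm : 0 ≤ m) (hn : 0 ≤ n) (hi : 0 ≤ i) (he : 0 ≤ e) (hf : 0 ≤ f) (hc7 : 0 ≤ c7) (hc8 : 0 ≤ c8) (hc9 : 0 ≤ c9) (hc10 : 0 ≤ c10) (hc11 : 0 ≤ c11) (hc12 : 0 ≤ c12) :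
    0 ≤ 24563013 * p * c8 * c12
      + 111468708 * r * f * c7 * c7
      + 99381117 * n * i * f * c8
      + 281145906 * r * p * c7 * c8
      + 19382907 * m * m * c9 * c12
      + 53545362 * r * c9 * c12
      + 61957797 * e * c8 * c8 * c11
      + 1141080 * n * i * (-2 + r - p + m + 8 * n - 10 * i + 3 * e - 2 * f) ^ 2
      + 231069210 * i * i * f * c11
      + 94015410 * p * m * e * c12
      + 66228 * e * e * (1 - r + 4 * p - 10 * m + n + 4 * e + f) ^ 2
      + 226351596 * m * i * i * c10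
      + 108066216 * r * r * i * c8
      + 33036 * i * c10 * (2 - 3 * r - 2 * p + 2 * m - 2 * n + 2 * i + 10 * e - 4 * f) ^ 2
      + 2119083 * n * n * c9 * c11
      + 169535850 * r * e * c7 * c11
      + 131106168 * m * m * e * c8
      + 9413058 * e * e * e * c9
      + 1252074 * c7 * c8 * (6 + 11 * r - 7 * p + 10 * m - n - 5 * i - 2 * e + f) ^ 2
      + 286310895 * i * c8 * c8 := by positivity

private theorem part12_2 {r p m n i e f c7 c8 c10 c11 c12 : ℝ} (hr : 0 ≤ r) (hp : 0 ≤ p) (hm : 0 ≤ m) (hn : 0 ≤ n) (hi : 0 ≤ i) (he : 0 ≤ e) (hf : 0 ≤ f) (hc7 : 0 ≤ c7) (hc8 : 0 ≤ c8) (hc10 : 0 ≤ c10) (hc11 : 0 ≤ c11) (hc12 : 0 ≤ c12) :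
    0 ≤ 224681478 * m * m * e * c12
      + 77288628 * r * i * c8 * c8
      + 104540724 * m * n * f * c12
      + 149826684 * p * p * f * c11
      + 42222816 * r * e * f * c10
      + 496698 * m * c8 * (1 - 15 * r + 10 * p - m + 5 * i + e) ^ 2
      + 24983058 * c10 * c11
      + 105405 * i * c11 * (-1 - 3 * r + 4 * p + 3 * m + 10 * n - 5 * i + 7 * e - 8 * f) ^ 2
      + 29217663 * m * f * c7
      + 177808530 * n * n * f * c10
      + 111719718 * r * n * i * c8
      + 585009324 * m * m * i * c11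
      + 91896 * c7 * c10 * (-6 - 14 * r + 10 * p - 4 * m + 2 * i + 2 * e) ^ 2
      + 32180100 * r * r * p * c10
      + 37042593 * p * e * c10
      + 4110501 * n * i * e * c12
      + 123151905 * m * e * f * c12
      + 241486236 * e * f * c7 * c7
      + 14921040 * m * i * f * c12
      + 22118103 * r * r * e * c12 := by positivity

private theorem part12_3 {r p m n i e f c7 c8 c9 c10 c11 c12 : ℝ} (hr : 0 ≤ r) (hp : 0 ≤ p) (hm : 0 ≤ m) (hn : 0 ≤ n) (hi : 0 ≤ i) (he : 0 ≤ e) (hf : 0 ≤ f) (hc7 : 0 ≤ c7) (hc8 : 0 ≤ c8) (hc9 : 0 ≤ c9) (hc10 : 0 ≤ c10) (hc11 : 0 ≤ c11) (hc12 : 0 ≤ c12) :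
    0 ≤ 48196062 * e * c7 * c12
      + 171927 * c8 * c11 * (6 - 16 * r + 10 * p - 2 * m + 2 * n + i - e + 2 * f) ^ 2
      + 79424385 * i * e * e * c9
      + 39180837 * r * f * c8 * c11
      + 129324 * p * (-1 + 10 * r - 4 * p - 9 * m + n + 10 * i - 4 * e - 2 * f) ^ 2
      + 79042563 * p * f * c9 * c12
      + 53020032 * f * c8 * c9 * c11
      + 14695563 * n * e * c7 * c12
      + 504861 * i * i * c12
      + 87664860 * m * i * c10 * c10
      + 412116 * r * c9 * (3 + 15 * r - 10 * p + 4 * m + n - 5 * i - e + f) ^ 2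
      + 116942748 * p * f * c8
      + 411856470 * i * i * f * c8
      + 9611061 * m * c7 * c12
      + 30427212 * n * n * n * c8
      + 22617 * e * f * (10 + 8 * r - 3 * p + 10 * m - 2 * n - 7 * i + 3 * e + 2 * f) ^ 2
      + 1713195 * p * m * n * c12
      + 134290338 * m * f * c8
      + 74156319 * f * f * f * c8
      + 4536426 * i * c12 * c12 * c12 := by positivity

private theorem part12_4 {r p m n i e f c7 c8 c11 c12 : ℝ} (hr : 0 ≤ r) (hp : 0 ≤ p) (hm : 0 ≤ m) (hn : 0 ≤ n) (hi : 0 ≤ i) (he : 0 ≤ e) (hf : 0 ≤ f) (hc7 : 0 ≤ c7) (hc8 : 0 ≤ c8) (hc11 : 0 ≤ c11) (hc12 : 0 ≤ c12) :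
    0 ≤ 34508964 * p * m * e * c11
      + 94382349 * r * n * f * c8
      + 49914 * m * c12 * (-1 + 2 * r - 5 * p - 10 * m + 5 * n - 2 * i + 5 * e - f) ^ 2
      + 243766164 * p * p * e * c11
      + 79426824 * f * f * c12 * c12
      + 118495212 * n * c11 * c11
      + 23310693 * p * p * c11 * c12
      + 34932 * e * c11 * (9 + 9 * r + 9 * m + 5 * n + 6 * i + 10 * e + 5 * f) ^ 2
      + 206695209 * m * n * i * c11
      + 111052281 * r * r * c7 * c7
      + 146215773 * r * e * c7 * c7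
      + 64364982 * e * e * c8 * c8
      + 1212213 * m * n * c11
      + 24856308 * c7 * c12 * c12
      + 104959590 * r * p * i * c11
      + 67006323 * m * e * e * c11
      + 33050382 * r * r * p * c12
      + 26133879 * e * f * f * c12
      + 44201169 * r * m * m * c12
      + 506885973 * m * m * c8 * c8 := by positivity

private theorem part12_5 {r p m n i e f c7 c8 c9 c10 c11 c12 : ℝ} (hr : 0 ≤ r) (hp : 0 ≤ p) (hm : 0 ≤ m) (hn : 0 ≤ n) (hi : 0 ≤ i) (he : 0 ≤ e) (hf : 0 ≤ f) (hc7 : 0 ≤ c7) (hc8 : 0 ≤ c8) (hc9 : 0 ≤ c9) (hc10 : 0 ≤ c10) (hc11 : 0 ≤ c11) (hc12 : 0 ≤ c12) :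
    0 ≤ 26974860 * c7 * c7 * c11
      + 151400427 * r * n * i * c12
      + 152142144 * m * e * c8
      + 73329027 * c11 * c12
      + 105984786 * p * n * c9 * c10
      + 63328803 * r * r * m * c12
      + 192190995 * p * p * e * c12
      + 7772865 * p * c8 * c8
      + 239541480 * m * f * c7 * c9
      + 15332418 * m * e * c10
      + 22380192 * n * f * c12
      + 75402771 * m * i * e * c8
      + 91443954 * p * e * e * c7
      + 61443861 * i * e * e * c10
      + 221449938 * i * i * e * c8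
      + 28125993 * p * m * i * c11
      + 1171206 * m * c11 * (-1 + 5 * r - p + 3 * m - 2 * n - 10 * i + 4 * e) ^ 2
      + 176900397 * p * p * m * c11
      + 6616176 * n * f * f * c8
      + 12612483 * m * i * c12 * c12 := by positivity

private theorem part12_6 {r p m n i e f c8 c9 c10 c11 c12 : ℝ} (hr : 0 ≤ r) (hp : 0 ≤ p) (hm : 0 ≤ m) (hn : 0 ≤ n) (hi : 0 ≤ i) (he : 0 ≤ e) (hf : 0 ≤ f) (hc8 : 0 ≤ c8) (hc9 : 0 ≤ c9) (hc10 : 0 ≤ c10) (hc11 : 0 ≤ c11) (hc12 : 0 ≤ c12) :
    0 ≤ 150162 * e * f * c12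
      + 90604332 * i * i * c8 * c9
      + 1157970 * m * n * n * c12
      + 1438278 * n * e * e * c12
      + 188151 * p * e * (8 + 17 * r - 10 * p + 6 * m - n - 4 * i - 3 * e + f) ^ 2
      + 1878543 * m * i * (-1 + 14 * r - 10 * p + 4 * m - 3 * n - 3 * i) ^ 2
      + 68017902 * c8 * c8
      + 173199075 * i * e * c11
      + 25666095 * c8 * c11 * c12
      + 134274174 * c8 * c12
      + 58744263 * p * p * c10 * c12
      + 58730778 * i * f * f * c11
      + 65905194 * p * f * c10 * c10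
      + 16258293 * p * m * c8
      + 81626286 * m * m * m * c10
      + 77448009 * r * i * i * c8
      + 49277484 * r * n * f * c12
      + 3657138 * m * i * (-5 + 10 * r - 5 * m + n + 9 * i - 3 * e - 3 * f) ^ 2
      + 172262358 * m * i * c8 * c8
      + 74028 * c8 * (-1 + 3 * r - 2 * m - 2 * n - 2 * i - 8 * e + 10 * f) ^ 2 := by positivity

private theorem part12_7 {r p m n i e f c7 c8 c9 c10 c11 c12 : ℝ} (hr : 0 ≤ r) (hp : 0 ≤ p) (hm : 0 ≤ m) (hn : 0 ≤ n) (hi : 0 ≤ i) (he : 0 ≤ e) (hf : 0 ≤ f) (hc7 : 0 ≤ c7) (hc8 : 0 ≤ c8) (hc9 : 0 ≤ c9) (hc10 : 0 ≤ c10) (hc11 : 0 ≤ c11) (hc12 : 0 ≤ c12) :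
    0 ≤ 95640 * c12 * (-10 - 17 * r + 9 * p - 7 * m + 3 * n + i + 3 * e + f) ^ 2
      + 54772239 * r * i * i * c11
      + 96466362 * i * c7 * c7 * c7
      + 165034413 * r * i * i * c12
      + 39786618 * r * e * c8 * c12
      + 800346 * r * c12
      + 106848720 * p * i * e * c12
      + 61644636 * r * f * f * c12
      + 22119078 * r * n * n * c12
      + 23459280 * r * c11 * c12
      + 177975 * f * c8 * (13 * r - 10 * p + 6 * n - 6 * i - e - 4 * f) ^ 2
      + 158156235 * f * c8 * c9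
      + 106836498 * r * e * c11 * c12
      + 100742433 * n * e * c8 * c10
      + 12164100 * i * e * c10
      + 68325210 * c8 * c11
      + 101583063 * f * f * c12
      + 446529375 * m * n * f * c11
      + 121854339 * n * i * f * c12
      + 218233134 * r * i * c11 * c12 := by positivity

private theorem part12_8 {r p m n i e f c7 c8 c10 c11 c12 : ℝ} (hr : 0 ≤ r) (hp : 0 ≤ p) (hm : 0 ≤ m) (hn : 0 ≤ n) (hi : 0 ≤ i) (he : 0 ≤ e) (hf : 0 ≤ f) (hc7 : 0 ≤ c7) (hc8 : 0 ≤ c8) (hc10 : 0 ≤ c10) (hc11 : 0 ≤ c11) (hc12 : 0 ≤ c12) :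
    0 ≤ 121082841 * r * n * e * c12
      + 61894959 * e * c11
      + 234121836 * p * i * e * c11
      + 23427708 * p * i * c8 * c12
      + 45591 * c11
      + 250981647 * p * f * c7 * c10
      + 545436 * f * c7 * (-3 + r + 2 * p + 2 * m - 8 * n + 10 * i + 4 * e + 3 * f) ^ 2
      + 12541062 * f * c12
      + 254102376 * m * m * m * c7
      + 29458569 * r * p * p * c8
      + 3868632 * e * e * f * c12
      + 154707822 * r * r * r * c11
      + 1469172 * i * c7 * c12
      + 14502219 * p * n * f * c12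
      + 490279500 * p * p * e * c8
      + 106984851 * r * i * c8 * c10
      + 27419361 * r * m * e * c10
      + 43700496 * r * e * e * c12
      + 92564208 * p * c7 * c7 * c7
      + 57761376 * i * i * c10 * c12 := by positivity

private theorem part12_9 {r p m n i e f c7 c8 c9 c10 c11 c12 : ℝ} (hr : 0 ≤ r) (hp : 0 ≤ p) (hm : 0 ≤ m) (hn : 0 ≤ n) (hi : 0 ≤ i) (he : 0 ≤ e) (hf : 0 ≤ f) (hc7 : 0 ≤ c7) (hc8 : 0 ≤ c8) (hc9 : 0 ≤ c9) (hc10 : 0 ≤ c10) (hc11 : 0 ≤ c11) (hc12 : 0 ≤ c12) :
    0 ≤ 44573151 * m * i * i * c12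
      + 248136 * p * c9 * (4 - 13 * r + 5 * p + 10 * m - 7 * n - 2 * i - 5 * e - f) ^ 2
      + 441586593 * r * m * c7 * c7
      + 77472072 * n * c10 * c12
      + 421631487 * p * i * f * c8
      + 371592807 * m * m * f * c10
      + 236428038 * m * i * i * c8
      + 1479414 * n * n * e * c12
      + 188965122 * p * i * i * c12
      + 329254080 * r * m * i * c12
      + 17189805 * p * p * c8 * c8
      + 16705251 * n * c7 * c7 * c12
      + 52286460 * r * p * c12 * c12
      + 17268171 * p * p * i * c8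
      + 36308199 * m * e * e * c12
      + 105227601 * r * r * r * c12
      + 19232865 * i * e * f * c12
      + 498142155 * r * i * c9 * c10
      + 240273 * f * (-7 - 16 * r + 10 * p - 5 * m + 3 * i - 2 * e + f) ^ 2
      + 177361248 * p * i * i * c11 := by positivity

private theorem part12_10 {r p m n i e f c7 c8 c9 c10 c11 c12 : ℝ} (hr : 0 ≤ r) (hp : 0 ≤ p) (hm : 0 ≤ m) (hn : 0 ≤ n) (hi : 0 ≤ i) (he : 0 ≤ e) (hf : 0 ≤ f) (hc7 : 0 ≤ c7) (hc8 : 0 ≤ c8) (hc9 : 0 ≤ c9) (hc10 : 0 ≤ c10) (hc11 : 0 ≤ c11) (hc12 : 0 ≤ c12) :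
    0 ≤ 26587953 * r * r * e * c9
      + 27946215 * f * f * f * c12
      + 338138082 * r * f * c7 * c11
      + 310596 * f * c9 * (3 + 3 * r - p - 2 * m + 5 * n - 10 * i + 2 * e - 3 * f) ^ 2
      + 51049218 * p * c9 * c9 * c10
      + 27488739 * r * c7 * c12
      + 10321149 * p * n * i * c12
      + 59082573 * p * e * f * c12
      + 260323431 * p * e * e * c11
      + 78226188 * c7 * c7 * c8
      + 87801465 * p * e * e * c12
      + 169521327 * e * c8
      + 121368594 * n * c7 * c8 * c10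
      + 301906014 * m * m * i * c12
      + 4652577 * p * m * f * c11
      + 1300998 * f * c11 * (1 + 2 * r - p - 2 * m + 9 * n - 10 * i + 2 * f) ^ 2
      + 71367354 * r * p * e * c11
      + 33058416 * m * i * c8
      + 125322336 * p * i * c8 * c10
      + 160171932 * r * i * f * c10 := by positivity

private theorem part12_11 {r p m n i e f c7 c8 c9 c10 c11 c12 : ℝ} (hr : 0 ≤ r) (hp : 0 ≤ p) (hm : 0 ≤ m) (hn : 0 ≤ n) (hi : 0 ≤ i) (he : 0 ≤ e) (hf : 0 ≤ f) (hc7 : 0 ≤ c7) (hc8 : 0 ≤ c8) (hc9 : 0 ≤ c9) (hc10 : 0 ≤ c10) (hc11 : 0 ≤ c11) (hc12 : 0 ≤ c12) :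
    0 ≤ 54134904 * r * c8 * c11
      + 36828444 * f * f * c7 * c11
      + 50246568 * r * r * c9 * c12
      + 42328197 * p * i * c11 * c12
      + 16174011 * m * c8 * c12
      + 31354845 * e * c10
      + 40330458 * p * p * f * c10
      + 182610294 * f * f * c7 * c7
      + 330679938 * m * m * m * c11
      + 88054308 * r * e * c8
      + 160021005 * p * n * f * c8
      + 54025368 * r * c8 * c8
      + 115072806 * m * c7 * c8 * c11
      + 20607522 * r * p * c8 * c8
      + 124887 * n * c11 * (-8 + 17 * r - 7 * p + m + 5 * n + 5 * i - 4 * f) ^ 2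
      + 23704533 * n * n * c8 * c9
      + 209613876 * r * n * n * c8
      + 1212987 * c11 * (4 - 4 * r + 2 * p - 10 * n + 6 * i - f) ^ 2
      + 197563899 * p * e * f * c11
      + 31745700 * p * m * m * c10 := by positivity

private theorem part12_12 {r p m n i e f c7 c8 c9 c10 c11 c12 : ℝ} (hr : 0 ≤ r) (hp : 0 ≤ p) (hm : 0 ≤ m) (hn : 0 ≤ n) (hi : 0 ≤ i) (he : 0 ≤ e) (hf : 0 ≤ f) (hc7 : 0 ≤ c7) (hc8 : 0 ≤ c8) (hc9 : 0 ≤ c9) (hc10 : 0 ≤ c10) (hc11 : 0 ≤ c11) (hc12 : 0 ≤ c12) :
    0 ≤ 368106174 * m * m * c7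
      + 50951541 * i * c11
      + 4904904 * i * c9 * (3 + 2 * r - 5 * p - 4 * m + n - 3 * i + 3 * e + 10 * f) ^ 2
      + 81860694 * e * f * f * c7
      + 316460706 * p * f * c8 * c11
      + 90196314 * n * i * i * c12
      + 133299585 * m * i * f * c8
      + 155204202 * n * i * c8 * c10
      + 44457774 * f * f * c7
      + 250023 * c9 * c11 * (4 - 16 * r + 10 * p - 2 * m + 2 * n + i - e) ^ 2
      + 111753069 * p * f * f * c8
      + 131297871 * r * e * f * c12
      + 35097093 * c10 * c12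
      + 59158875 * c7 * c7 * c7
      + 122235 * i * (2 + 8 * r - 4 * p - 10 * m + 2 * n + i + 5 * e - 6 * f) ^ 2
      + 201361227 * n * f * c8
      + 20793 * c9 * (5 + 17 * r - 10 * p + 4 * m + 3 * n + 3 * e + 3 * f) ^ 2
      + 13531356 * m * i * e * c12
      + 226172784 * p * p * c8 * c10
      + 11462103 * m * e * f * c8 := by positivity

private theorem part12_13 {r p m n i e f c7 c8 c10 c11 c12 : ℝ} (hr : 0 ≤ r) (hp : 0 ≤ p) (hm : 0 ≤ m) (hn : 0 ≤ n) (hi : 0 ≤ i) (he : 0 ≤ e) (hf : 0 ≤ f) (hc7 : 0 ≤ c7) (hc8 : 0 ≤ c8) (hc10 : 0 ≤ c10) (hc11 : 0 ≤ c11) (hc12 : 0 ≤ c12) :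
    0 ≤ 938079 * n * f * (-2 - 13 * r + 10 * p - m + 4 * i + 2 * e - f) ^ 2
      + 100268130 * m * f * c8 * c8
      + 69536739 * r * r * n * c12
      + 6328683 * i * i * c11
      + 115906575 * p * m * e * c7
      + 143152149 * n * e * f * c12
      + 450381411 * p * i * c8
      + 32208765 * p * c7 * c7 * c12
      + 533610 * p * c10 * (-1 + 14 * r - 10 * p + 4 * m - 3 * n - 3 * i) ^ 2
      + 8903454 * p * p * c8 * c12
      + 188334831 * m * m * c10 * c12
      + 32178147 * f * c8 * c10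
      + 80700 * e * c7 * (3 * r - p + m - 2 * n + 10 * i + 3 * e - f) ^ 2
      + 28538550 * n * n * c8 * c8
      + 292377696 * i * f * f * c12
      + 164399799 * i * i * i * c11
      + 100744068 * r * r * c11 * c11
      + 54075162 * n * n * f * c12
      + 114505119 * i * i * c8
      + 324705 * m * e * (-6 + 10 * r - 6 * p + 10 * m - 5 * n - 2 * i - e + 8 * f) ^ 2 := by positivity

private theorem part12_14 {r p m n i e f c8 : ℝ} (hr : 0 ≤ r) (hp : 0 ≤ p) (hm : 0 ≤ m) (hi : 0 ≤ i) (he : 0 ≤ e) (hc8 : 0 ≤ c8) :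
    0 ≤ 432900 * e * c8 * (-6 - 12 * r + 8 * p + 10 * m - 7 * n - i + 4 * e + 2 * f) ^ 2
      + 2821 * r
      + 3193 * r * m
      + 3206 * r * m * m
      + 3380 * r * r * i
      + 3011 * r * p
      + 2870 * r * r
      + 2365 * r * p * m
      + 3248 * r * r * m
      + 2955
      + 2919 * m
      + 2943 * m * m
      + 3327 * r * i
      + 3033 * p * m
      + 2679 * m * m * m
      + 2999 * r * m * i
      + 3228 * p * m * m
      + 3156 * r * m * m * m
      + 3027 * r * r * m * i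
      + 2709 * r * p * m * m := by positivity

private theorem part12_15 {r p m n i e f : ℝ} (hr : 0 ≤ r) (hp : 0 ≤ p) (hm : 0 ≤ m) (hn : 0 ≤ n) (hi : 0 ≤ i) (he : 0 ≤ e) (hf : 0 ≤ f) :
    0 ≤ 3534 * r * r * m * m
      + 2963 * p * p
      + 3000 * n
      + 3203 * p * n
      + 3025 * i
      + 2816 * p * i
      + 2982 * e
      + 3062 * p * e
      + 3002 * f
      + 2999 * p * f
      + 2886 * n * n
      + 2961 * n * i
      + 2931 * n * e
      + 2862 * n * f
      + 3114 * i * i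
      + 3069 * i * e
      + 2961 * i * f
      + 2844 * e * e
      + 34417104 * e * f
      + 2943 * f * f := by positivity

private theorem part12_16 {r p m n i e f : ℝ} (hr : 0 ≤ r) (hp : 0 ≤ p) (hm : 0 ≤ m) (hn : 0 ≤ n) (hi : 0 ≤ i) (he : 0 ≤ e) (hf : 0 ≤ f) :
    0 ≤ 2544 * p * n * n
      + 2931 * p * n * i
      + 2505 * p * n * e
      + 2883 * p * n * f
      + 3093 * p * i * i
      + 2781 * p * i * e
      + 2652 * p * i * f
      + 3231 * p * e * e
      + 2958 * p * e * f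
      + 3009 * p * f * f
      + 3060 * r * e
      + 3060 * m * i
      + 2901 * m * e
      + 2689 * r * r * e
      + 2969 * r * m * e
      + 3259 * m * m * i
      + 3193 * m * m * e
      + 3447 * p * m * m * m
      + 2523 * p * m * m * e
      + 3054 * p * m * m * f := by positivity

private theorem part12_17 {r p m n i e : ℝ} (hr : 0 ≤ r) (hp : 0 ≤ p) (hm : 0 ≤ m) (hn : 0 ≤ n) (hi : 0 ≤ i) (he : 0 ≤ e) :
    0 ≤ 2742 * p * p * m * m
      + 3045 * p * n * n * n
      + 2718 * p * m * n * n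
      + 3108 * m * n
      + 3039 * r * m * n
      + 3078 * p * p * m
      + 3147 * p * m * n
      + 2499 * p * m * i
      + 3096 * m * m * n
      + 3051 * m * n * n
      + 3177 * m * n * i
      + 2898 * m * i * i
      + 3156 * p * m * m * n
      + 2997 * p * m * m * i
      + 2976 * p * p * n * e
      + 3306 * p * p * e
      + 2835 * p * p * m * e
      + 3051 * p * n * n * e
      + 3096 * p * m * n * e
      + 3114 * p * n * i * e := by positivity

private theorem part12_18 {r p m n i e f : ℝ} (hr : 0 ≤ r) (hp : 0 ≤ p) (hm : 0 ≤ m) (hn : 0 ≤ n) (hi : 0 ≤ i) (he : 0 ≤ e) (hf : 0 ≤ f) :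
    0 ≤ 3078 * p * m * i * e
      + 3132 * p * n * e * e
      + 3180 * p * m * e * e
      + 3036 * p * n * e * f
      + 2925 * p * m * e * f
      + 3348 * r * n * e
      + 3117 * p
      + 3153 * r * n
      + 3174 * r * f
      + 3285 * m * f
      + 3306 * r * r * p
      + 2781 * r * r * n
      + 2673 * r * r * f
      + 3315 * r * p * p
      + 2658 * r * p * n
      + 2685 * r * p * i
      + 2802 * r * p * e
      + 2763 * r * p * f
      + 3348 * r * m * f
      + 3438 * r * n * n := by positivity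

private theorem part12_19 {r p m n i e f : ℝ} (hr : 0 ≤ r) (hp : 0 ≤ p) (hm : 0 ≤ m) (hn : 0 ≤ n) (hi : 0 ≤ i) (he : 0 ≤ e) (hf : 0 ≤ f) :
    0 ≤ 3426 * r * n * i
      + 3006 * r * n * f
      + 2949 * r * i * i
      + 3090 * r * i * e
      + 3462 * r * i * f
      + 2874 * r * e * e
      + 3069 * r * e * f
      + 3192 * r * f * f
      + 2808 * p * p * p
      + 3159 * p * p * n
      + 3117 * p * p * i
      + 3162 * p * p * f
      + 3498 * p * m * e
      + 2721 * p * m * f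
      + 2817 * m * m * f
      + 2877 * m * n * e
      + 3009 * m * n * f
      + 3003 * m * i * e
      + 3051 * m * i * f
      + 3012 * m * e * e := by positivity

private theorem part12_20 {m n i e f : ℝ} (hm : 0 ≤ m) (hn : 0 ≤ n) (hi : 0 ≤ i) (he : 0 ≤ e) (hf : 0 ≤ f) :
    0 ≤ 14970954 * m * e * f
      + 2904 * m * f * f
      + 3111 * n * n * n
      + 2871 * n * n * i
      + 3135 * n * n * e
      + 3159 * n * n * f
      + 2799 * n * i * i
      + 2742 * n * i * e
      + 3300 * n * i * f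
      + 2832 * n * e * e
      + 2982 * n * e * f
      + 3012 * n * f * f
      + 2952 * i * i * i
      + 2997 * i * i * e
      + 3090 * i * i * f
      + 2826 * i * e * e
      + 91563906 * i * e * f
      + 2778 * i * f * f
      + 2904 * e * e * e
      + 56848551 * e * e * f := by positivity

private theorem part12_21 {r p m n i e f : ℝ} (hr : 0 ≤ r) (hp : 0 ≤ p) (hm : 0 ≤ m) (hn : 0 ≤ n) (hi : 0 ≤ i) (he : 0 ≤ e) (hf : 0 ≤ f) :
    0 ≤ 125695551 * e * f * f
      + 2946 * f * f * f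
      + 3027 * r * r * p * i
      + 2382 * r * r * n * i
      + 2628 * r * r * i * i
      + 2769 * r * r * i * e
      + 2631 * r * r * i * f
      + 2469 * r * p * p * i
      + 3600 * r * p * n * i
      + 3207 * r * p * i * i
      + 3423 * r * p * i * e
      + 3075 * r * p * i * f
      + 3021 * r * p * m * i
      + 2736 * r * m * n * i
      + 2976 * r * m * i * i
      + 2742 * r * m * i * e
      + 2748 * r * m * i * f
      + 3093 * r * n * n * i
      + 3054 * r * n * i * i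
      + 2835 * r * n * i * e := by positivity

private theorem part12_22 {r p m n i e f : ℝ} (hr : 0 ≤ r) (hp : 0 ≤ p) (hm : 0 ≤ m) (hn : 0 ≤ n) (hi : 0 ≤ i) (he : 0 ≤ e) (hf : 0 ≤ f) :
    0 ≤ 3078 * r * n * i * f
      + 3078 * r * i * i * i
      + 3063 * r * i * i * e
      + 3009 * r * i * i * f
      + 75530313 * r * i * e * e
      + 28995738 * r * i * e * f
      + 2988 * r * i * f * f
      + 3159 * p * p * p * i
      + 2901 * p * p * n * i
      + 3027 * p * p * i * i
      + 2835 * p * p * i * e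
      + 3135 * p * p * i * f
      + 3180 * p * p * m * i
      + 2832 * p * m * n * i
      + 2991 * p * m * i * i
      + 3075 * p * m * i * f
      + 3012 * p * n * n * i
      + 3165 * p * n * i * i
      + 2655 * p * n * i * f
      + 2964 * p * i * i * i := by positivity

private theorem part12_23 {p m n i e f : ℝ} (hp : 0 ≤ p) (hm : 0 ≤ m) (hn : 0 ≤ n) (hi : 0 ≤ i) (he : 0 ≤ e) (hf : 0 ≤ f) :
    0 ≤ 416261457 * p * i * i * e
      + 2973 * p * i * i * f
      + 418585410 * p * i * e * e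
      + 675584271 * p * i * e * f
      + 81811014 * p * i * f * f
      + 2976 * m * m * n * i
      + 780264288 * m * m * i * i
      + 527685399 * m * m * i * e
      + 2955 * m * m * i * f
      + 3045 * m * n * n * i
      + 3192 * m * n * i * i
      + 2850 * m * n * i * e
      + 2739 * m * n * i * f
      + 3222 * m * i * i * i
      + 393650358 * m * i * i * e
      + 3063 * m * i * i * f
      + 2838 * m * i * e * e
      + 2733 * m * i * e * f
      + 39559374 * m * i * f * f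
      + 3159 * n * n * n * i := by positivity

private theorem part12_24 {r p n i e f : ℝ} (hr : 0 ≤ r) (hp : 0 ≤ p) (hn : 0 ≤ n) (hi : 0 ≤ i) (he : 0 ≤ e) (hf : 0 ≤ f) :
    0 ≤ 2835 * n * n * i * i
      + 3027 * n * n * i * f
      + 3045 * n * i * i * i
      + 2829 * n * i * i * e
      + 2970 * n * i * i * f
      + 72239172 * n * i * e * e
      + 3354 * n * i * f * f
      + 225609069 * i * i * i * i
      + 124455972 * i * i * i * e
      + 214563687 * i * i * i * f
      + 188556213 * i * i * e * e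
      + 507783003 * i * i * e * f
      + 909985812 * i * i * f * f
      + 110783355 * i * e * e * e
      + 2787 * i * e * e * f
      + 113714910 * i * f * f * f
      + 2478 * r * r * r
      + 35475504 * r * r * r * r
      + 2778 * r * r * r * p
      + 3219 * r * r * p * p := by positivity

private theorem part12_25 {r p m n e f : ℝ} (hr : 0 ≤ r) (hp : 0 ≤ p) (hm : 0 ≤ m) (hn : 0 ≤ n) (he : 0 ≤ e) (hf : 0 ≤ f) :
    0 ≤ 4080 * r * r * r * n
      + 3324 * r * r * r * m
      + 2907 * r * r * p * n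
      + 2823 * r * r * p * m
      + 2130 * r * p * p * n
      + 2484 * r * p * p * m
      + 3516 * r * r * m * n
      + 3120 * r * p * m * n
      + 2736 * r * r * n * n
      + 3255 * r * p * n * n
      + 2514 * r * r * n * e
      + 3141 * r * r * m * e
      + 3366 * r * p * n * e
      + 3315 * r * p * m * e
      + 3024 * r * r * n * f
      + 3126 * r * r * m * f
      + 3663 * r * p * n * f
      + 3183 * r * p * m * f
      + 3339 * p * p * p * n
      + 3336 * p * p * p * m := by positivity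

private theorem part12_26 {r p m n i e f : ℝ} (hr : 0 ≤ r) (hp : 0 ≤ p) (hm : 0 ≤ m) (hn : 0 ≤ n) (hi : 0 ≤ i) (he : 0 ≤ e) (hf : 0 ≤ f) :
    0 ≤ 2832 * p * p * m * n
      + 2997 * p * p * n * n
      + 2628 * p * p * n * f
      + 2910 * p * p * m * f
      + 3000 * r * m * m * n
      + 2985 * r * m * n * n
      + 195350247 * r * m * m * i
      + 2949 * r * m * n * e
      + 88481934 * r * m * m * e
      + 3024 * r * m * n * f
      + 229465122 * r * m * m * f
      + 2994 * p * m * n * f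
      + 3081 * r * n * n * n
      + 2958 * r * n * n * e
      + 3030 * r * n * n * f
      + 3126 * p * n * n * f
      + 2892 * r * n * e * e
      + 2835 * r * m * e * e
      + 2955 * r * n * e * f
      + 3057 * r * m * e * f := by positivity

private theorem part12_27 {r p m n e f : ℝ} (hr : 0 ≤ r) (hp : 0 ≤ p) (hm : 0 ≤ m) (hn : 0 ≤ n) (he : 0 ≤ e) (hf : 0 ≤ f) :
    0 ≤ 2886 * r * n * f * f
      + 2976 * r * m * f * f
      + 3060 * p * n * f * f
      + 3000 * p * m * f * f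
      + 3159 * r * p * p * p
      + 2928 * r * p * p * e
      + 2823 * r * p * p * f
      + 1034613 * r * r * r * e
      + 54275025 * r * r * r * f
      + 38533641 * r * r * e * e
      + 3159 * r * p * e * e
      + 2790 * r * r * e * f
      + 2916 * r * p * e * f
      + 61381161 * r * r * f * f
      + 3051 * r * p * f * f
      + 51162333 * r * f * f * f
      + 3027 * m * f * f * f
      + 361945167 * m * m * m * e
      + 2700 * m * m * n * e
      + 3078 * m * n * n * e := by positivity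

private theorem part12_28 {m n i e f : ℝ} (hm : 0 ≤ m) (hn : 0 ≤ n) (hi : 0 ≤ i) (he : 0 ≤ e) (hf : 0 ≤ f) :
    0 ≤ 2835 * m * m * e * e
      + 2946 * m * n * e * e
      + 3126 * m * m * e * f
      + 2784 * m * n * e * f
      + 2988 * n * n * n * e
      + 3171 * n * n * i * e
      + 2937 * n * n * e * e
      + 2898 * n * n * e * f
      + 3042 * n * i * e * f
      + 107614089 * m * e * e * e
      + 16705035 * n * e * e * e
      + 106967136 * m * e * e * f
      + 2865 * n * e * e * f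
      + 3030 * m * e * f * f
      + 2913 * n * e * f * f
      + 3009 * i * e * f * f
      + 3108 * m * m * m * n
      + 3102 * m * m * m * m
      + 2799 * m * m * n * n
      + 2744472 * m * m * m * i := by positivity

private theorem part12_29 {r p m n i e f : ℝ} (hr : 0 ≤ r) (hp : 0 ≤ p) (hm : 0 ≤ m) (hn : 0 ≤ n) (hi : 0 ≤ i) (he : 0 ≤ e) (hf : 0 ≤ f) :
    0 ≤ 2946 * r * r * p * e
      + 3015 * p * p * p * e
      + 2907 * p * p * e * e
      + 3015 * p * p * e * f
      + 13213341 * r * e * e * e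
      + 50446260 * r * e * e * f
      + 259772049 * p * e * e * e
      + 397115280 * p * e * e * f
      + 2433552 * e * e * e * e
      + 6253023 * e * e * e * f
      + 4028868 * e * e * f * f
      + 3696 * r * r * r * i
      + 3063 * m * n * n * n
      + 3078 * m * n * n * f
      + 3000 * n * n * n * n
      + 2934 * n * n * n * f
      + 2802 * r * r * p * f
      + 2970 * m * m * n * f
      + 3120 * p * p * p * f
      + 3123 * p * p * f * f := by positivity

private theorem part12_30 {r p m n e f : ℝ} (hr : 0 ≤ r) (hp : 0 ≤ p) (hm : 0 ≤ m) (hn : 0 ≤ n) (he : 0 ≤ e) (hf : 0 ≤ f) :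
    0 ≤ 2922 * r * e * f * f
      + 2832 * n * n * f * f
      + 3042 * m * m * m * f
      + 2895 * p * p * p * p
      + 3033 * p * f * f * f
      + 62914872 * p * e * f * f
      + 5986824 * e * f * f * f
      + 2985 * m * n * f * f
      + 124982151 * m * m * f * f
      + 2967 * n * f * f * f
      + 5203992 * f * f * f * f := by positivity

theorem leaf12 {r p m n i e f : ℝ} (h0 : 0 ≤ r) (h1 : 0 ≤ p) (h2 : 0 ≤ m) (h3 : 0 ≤ n) (h4 : 0 ≤ i) (h5 : 0 ≤ e) (h6 : 0 ≤ f) (h7 : 0 ≤ r - m) (h8 : 0 ≤ 1 - r - p) (h9 : 0 ≤ 1 - m - n - i) (h10 : 0 ≤ m - e - f) (h11 : 0 ≤ p - n - i - e - f) (h12 : 0 ≤ -1 + m + 2 * n) :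
    0 ≤ -75000000 + 47500000 * r + 3750000 * m + 300000000 * n + 332500000 * i + 225000000 * e + 192500000 * f + 95000000 * r * r - 190000000 * r * p - 211250000 * r * m - 327000000 * r * i - 27000000 * r * e + 95000000 * p * p + 285000000 * p * m - 190000000 * p * n - 190000000 * p * i - 190000000 * p * e - 190000000 * p * f + 558750000 * m * m + 120000000 * m * i + 120000000 * m * e - 56250000 * n * n - 112500000 * n * i - 112500000 * n * e - 112500000 * n * f - 56250000 * i * i - 112500000 * i * e - 112500000 * i * f - 56250000 * e * e - 112500000 * e * f - 56250000 * f * f + 485000000 * r * r * m - 10000000 * r * r * i - 200000000 * r * r * e - 485000000 * r * p * m - 598750000 * r * m * m - 985000000 * r * m * i - 400000000 * r * m * e - 1065000000 * p * m * m - 71250000 * p * n * n - 142500000 * p * n * i - 142500000 * p * n * e - 142500000 * p * n * f - 71250000 * p * i * i - 142500000 * p * i * e - 142500000 * p * i * f - 71250000 * p * e * e - 142500000 *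 p * e * f - 71250000 * p * f * f - 731250000 * m * m * m + 220000000 * m * m * i + 220000000 * m * m * e - 195000000 * r * r * m * m + 675000000 * r * r * m * i + 1635000000 * r * p * m * m + 843750000 * r * m * m * m + 480000000 * p * p * m * m + 480000000 * p * m * m * m - 480000000 * p * m * m * e - 480000000 * p * m * m * f := by
  have t0 := part12_0 h0 h1 h2 h3 h4 h5 h6 h7 h8 h9 h10 h11 h12
  have t1 := part12_1 h0 h1 h2 h3 h4 h5 h6 h7 h8 h9 h10 h11 h12
  have t2 := part12_2 h0 h1 h2 h3 h4 h5 h6 h7 h8 h10 h11 h12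
  have t3 := part12_3 h0 h1 h2 h3 h4 h5 h6 h7 h8 h9 h10 h11 h12
  have t4 := part12_4 h0 h1 h2 h3 h4 h5 h6 h7 h8 h11 h12
  have t5 := part12_5 h0 h1 h2 h3 h4 h5 h6 h7 h8 h9 h10 h11 h12
  have t6 := part12_6 h0 h1 h2 h3 h4 h5 h6 h8 h9 h10 h11 h12
  have t7 := part12_7 h0 h1 h2 h3 h4 h5 h6 h7 h8 h9 h10 h11 h12
  have t8 := part12_8 h0 h1 h2 h3 h4 h5 h6 h7 h8 h10 h11 h12
  have t9 := part12_9 h0 h1 h2 h3 h4 h5 h6 h7 h8 h9 h10 h11 h12
  have t10 := part12_10 h0 h1 h2 h3 h4 h5 h6 h7 h8 h9 h10 h11 h12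
  have t11 := part12_11 h0 h1 h2 h3 h4 h5 h6 h7 h8 h9 h10 h11 h12
  have t12 := part12_12 h0 h1 h2 h3 h4 h5 h6 h7 h8 h9 h10 h11 h12
  have t13 := part12_13 h0 h1 h2 h3 h4 h5 h6 h7 h8 h10 h11 h12
  have t14 := part12_14 (n := n) (f := f) h0 h1 h2 h4 h5 h8
  have t15 := part12_15 h0 h1 h2 h3 h4 h5 h6
  have t16 := part12_16 h0 h1 h2 h3 h4 h5 h6
  have t17 := part12_17 h0 h1 h2 h3 h4 h5
  have t18 := part12_18 h0 h1 h2 h3 h4 h5 h6
  have t19 := part12_19 h0 h1 h2 h3 h4 h5 h6
  have t20 := part12_20 h2 h3 h4 h5 h6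
  have t21 := part12_21 h0 h1 h2 h3 h4 h5 h6
  have t22 := part12_22 h0 h1 h2 h3 h4 h5 h6
  have t23 := part12_23 h1 h2 h3 h4 h5 h6
  have t24 := part12_24 h0 h1 h3 h4 h5 h6
  have t25 := part12_25 h0 h1 h2 h3 h5 h6
  have t26 := part12_26 h0 h1 h2 h3 h4 h5 h6
  have t27 := part12_27 h0 h1 h2 h3 h5 h6
  have t28 := part12_28 h2 h3 h4 h5 h6
  have t29 := part12_29 h0 h1 h2 h3 h4 h5 h6
  have t30 := part12_30 h0 h1 h2 h3 h5 h6
  linarith only [t0, t1, t2, t3, t4, t5, t6, t7, t8, t9, t10, t11, t12, t13, t14, t15, t16, t17, t18, t19, t20, t21, t22, t23, t24, t25, t26, t27, t28, t29, t30]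

end Vale.Agent.P038.K4
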