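import Mathlib

/-
P038: one corner of the polynomial inequality for K4-free graphs (exact nonnegativity certificate).
-/

namespace Vale.Agent.P038.K4

private theorem part13_0 {r p m n i e f c7 c8 c9 c10 c11 c12 : ℝ} (hr : 0 ≤ r) (hp : 0 ≤ p) (hm : 0 ≤ m) (hn : 0 ≤ n) (hi : 0 ≤ i) (he : 0 ≤ e) (hf : 0 ≤ f) (hc7 : 0 ≤ c7) (hc8 : 0 ≤ c8) (hc9 : 0 ≤ c9) (hc10 : 0 ≤ c10) (hc11 : 0 ≤ c11) (hc12 : 0 ≤ c12) :
    0 ≤ 91904916 * r * p * e * c8
      + 39837234 * n * n * c8 * c9
      + 245743413 * p * m * f * c7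
      + 291363 * n * i * i * c12
      + 489816 * n * f * (4 + 3 * r - 2 * p - 3 * m + 4 * n + 8 * i - 10 * e - 4 * f) ^ 2
      + 13494258 * m * n * n * c12
      + 72880194 * n * c8 * c9
      + 24907272 * i * i * f * c7
      + 9814335 * c11
      + 242442828 * m * c7 * c7 * c7
      + 149843211 * m * m * f * c8
      + 816351 * n * n * n * c12
      + 239232912 * p * i * c7 * c7
      + 28739841 * m * n * e * c12
      + 10309194 * n * n * n * c10
      + 95740815 * f * c10
      + 15653748 * f * f * c12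
      + 22363476 * e * c9
      + 47282058 * p * f * f * c8
      + 105840705 * m * f * c12 := by positivity

private theorem part13_1 {r p m n i e f c7 c8 c10 c11 c12 : ℝ} (hr : 0 ≤ r) (hp : 0 ≤ p) (hm : 0 ≤ m) (hn : 0 ≤ n) (hi : 0 ≤ i) (he : 0 ≤ e) (hf : 0 ≤ f) (hc7 : 0 ≤ c7) (hc8 : 0 ≤ c8) (hc10 : 0 ≤ c10) (hc11 : 0 ≤ c11) (hc12 : 0 ≤ c12) :
    0 ≤ 561447 * m * c8 * (3 * r + p - 2 * m + 10 * n + i - 9 * e) ^ 2
      + 566991 * c8 * (-10 - 3 * r - 2 * p - 7 * n - 8 * i - 5 * e - 7 * f) ^ 2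
      + 70154007 * r * p * f * c7
      + 68607213 * p * i * f * c12
      + 30683913 * r * r * c8
      + 47352 * i * e * (7 - r + 2 * p + 6 * m - 10 * n - 3 * i + 4 * f) ^ 2
      + 50964282 * p * f * c8
      + 13252701 * e * e * c12
      + 121357734 * r * p * c10 * c10
      + 46560969 * p * e * c12
      + 34568901 * p * n * c8
      + 53931924 * m * n * f * c12
      + 31499526 * p * p * m * c8
      + 626434935 * m * m * c7
      + 48364770 * p * e * e * c12
      + 22076691 * p * p * n * c11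
      + 1046163 * m * c8 * (2 - 15 * r + 10 * p - 3 * m + 6 * i) ^ 2
      + 226971 * f * (7 + 16 * r - 10 * p + 4 * m - 3 * i + e - f) ^ 2
      + 64745679 * r * i * c12
      + 35249250 * r * n * f * c12 := by positivity

private theorem part13_2 {r p m n i e f c7 c8 c9 c10 c11 c12 : ℝ} (hr : 0 ≤ r) (hp : 0 ≤ p) (hm : 0 ≤ m) (hn : 0 ≤ n) (hi : 0 ≤ i) (he : 0 ≤ e) (hf : 0 ≤ f) (hc7 : 0 ≤ c7) (hc8 : 0 ≤ c8) (hc9 : 0 ≤ c9) (hc10 : 0 ≤ c10) (hc11 : 0 ≤ c11) (hc12 : 0 ≤ c12) :
    0 ≤ 35795964 * p * n * f * c8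
      + 146865 * p * e * (-8 - 18 * r + 10 * p - 5 * m + 5 * n - i + 2 * e + 2 * f) ^ 2
      + 23025474 * r * n * i * c12
      + 57086994 * m * n * c11
      + 26922240 * p * n * n * c7
      + 23925 * r * c7 * (7 - 4 * r + 6 * p + 10 * n - 8 * i + 2 * e + f) ^ 2
      + 38291079 * m * e * c7 * c7
      + 387126 * i * i * i * c12
      + 24202161 * c8 * c12
      + 205073457 * r * p * c7 * c7
      + 230632470 * i * c7 * c7 * c8
      + 620211 * r * c8 * c9
      + 23511816 * m * e * f * c9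
      + 44216874 * p * m * i * c12
      + 55179 * c10 * (1 + 15 * r - 10 * p + 5 * m - 2 * n - 2 * i) ^ 2
      + 78372423 * e * c7 * c7
      + 68195802 * m * e * c12
      + 59571039 * i * e * c9
      + 10642977 * p * p * c8
      + 3838203 * i * f * c9 := by positivity

private theorem part13_3 {r p m n i e f c7 c8 c9 c10 c11 c12 : ℝ} (hr : 0 ≤ r) (hp : 0 ≤ p) (hm : 0 ≤ m) (hn : 0 ≤ n) (hi : 0 ≤ i) (he : 0 ≤ e) (hf : 0 ≤ f) (hc7 : 0 ≤ c7) (hc8 : 0 ≤ c8) (hc9 : 0 ≤ c9) (hc10 : 0 ≤ c10) (hc11 : 0 ≤ c11) (hc12 : 0 ≤ c12) :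
    0 ≤ 237763128 * p * c7 * c7
      + 139321527 * m * m * c7 * c12
      + 105134727 * r * r * c12
      + 229219770 * m * m * n * c8
      + 18769713 * m * e * e * c12
      + 47181237 * i * e * e * c7
      + 457584 * e * c8 * (-10 - 10 * r + 3 * p - 7 * m - 3 * n - 2 * i - 9 * e - 4 * f) ^ 2
      + 21222879 * n * e * f * c12
      + 17907873 * n * c7 * c12
      + 545121 * e * e * (-10 + 2 * r - 2 * p - 2 * m + 7 * e) ^ 2
      + 31248699 * p * p * i * c9
      + 147633 * i * (-4 + 13 * r - 10 * p + 3 * m - 3 * n - 3 * i) ^ 2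
      + 14514624 * n * c9 * c11
      + 88521948 * i * i * e * c7
      + 75770748 * m * m * f * c10
      + 26108235 * n * n * c10
      + 44200299 * r * p * f * c12
      + 24689769 * r * r * r * c12
      + 26831013 * p * f * c12
      + 148546770 * e * f * c8 := by positivity

private theorem part13_4 {r p m n i e f c7 c8 c10 c11 c12 : ℝ} (hr : 0 ≤ r) (hp : 0 ≤ p) (hm : 0 ≤ m) (hn : 0 ≤ n) (hi : 0 ≤ i) (he : 0 ≤ e) (hf : 0 ≤ f) (hc7 : 0 ≤ c7) (hc8 : 0 ≤ c8) (hc10 : 0 ≤ c10) (hc11 : 0 ≤ c11) (hc12 : 0 ≤ c12) :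
    0 ≤ 7088823 * e * e * f * c12
      + 429177 * i * i * i * c10
      + 12492582 * p * p * e * c11
      + 72988338 * i * e * f * c12
      + 23289402 * n * f * f * c10
      + 58295643 * m * e * e * c7
      + 330352884 * p * m * e * c7
      + 493800 * c7 * (6 + 15 * r - 10 * p + 8 * m + n - 7 * i - 2 * e + 3 * f) ^ 2
      + 12960894 * r * r * p * c12
      + 54219399 * r * f * f * c8
      + 4012011 * n * n * e * c12
      + 73365432 * r * p * m * c12
      + 257537598 * i * c8 * c10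
      + 17427972 * p * n * f * c7
      + 88314333 * p * c7 * c12
      + 816303 * i * i * i * c7
      + 35153280 * m * e * c7 * c12
      + 84909432 * r * r * i * c12
      + 75945312 * r * f * c12
      + 123280905 * r * i * e * c12 := by positivity

private theorem part13_5 {r p m n i e f c7 c8 c9 c10 c11 c12 : ℝ} (hr : 0 ≤ r) (hp : 0 ≤ p) (hm : 0 ≤ m) (hn : 0 ≤ n) (hi : 0 ≤ i) (he : 0 ≤ e) (hf : 0 ≤ f) (hc7 : 0 ≤ c7) (hc8 : 0 ≤ c8) (hc9 : 0 ≤ c9) (hc10 : 0 ≤ c10) (hc11 : 0 ≤ c11) (hc12 : 0 ≤ c12) :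
    0 ≤ 39188031 * r * e * c12
      + 1402020 * n * n * n * c9
      + 45809598 * n * c7 * c7
      + 51639 * e * c8 * (-6 - 15 * r + 9 * p + 10 * m - 6 * n + 4 * i + 4 * e + 8 * f) ^ 2
      + 164106705 * m * m * c11
      + 99938640 * m * m * m * c11
      + 6053718 * n * f * f * c12
      + 124085769 * p * e * f * c8
      + 4044942 * n * n * c8 * c11
      + 55808673 * p * p * i * c10
      + 77740242 * r * r * f * c12
      + 59471490 * p * i * e * c12
      + 28090632 * p * i * i * c12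
      + 32539410 * p * n * e * c12
      + 29344716 * n * i * i * c10
      + 503442 * p * c11 * (9 - r - 10 * m + 3 * n - 3 * i + e + f) ^ 2
      + 11845731 * m * m * i * c12
      + 218973525 * p * i * c10
      + 37551393 * n * i * e * c9
      + 77910390 * p * p * e * c7 := by positivity

private theorem part13_6 {r p m n i e f c7 c8 c10 c12 : ℝ} (hr : 0 ≤ r) (hp : 0 ≤ p) (hm : 0 ≤ m) (hn : 0 ≤ n) (hi : 0 ≤ i) (he : 0 ≤ e) (hf : 0 ≤ f) (hc7 : 0 ≤ c7) (hc8 : 0 ≤ c8) (hc10 : 0 ≤ c10) (hc12 : 0 ≤ c12) :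
    0 ≤ 30622341 * r * r * n * c12
      + 105059130 * r * r * e * c12
      + 63391212 * r * m * i * c12
      + 33651504 * p * f * f * c12
      + 78713007 * r * e * e * c12
      + 44451000 * c7 * c12
      + 34162461 * r * n * e * c12
      + 933330 * p * m * (-1 + 14 * r - 10 * p + 4 * m - 3 * n - 3 * i) ^ 2
      + 26671407 * r * m * f * c12
      + 35835873 * r * i * i * c12
      + 111734010 * r * i * f * c12
      + 45583320 * r * p * c8
      + 181138293 * r * e * f * c12
      + 3430743 * n * e * e * c12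
      + 27570291 * r * f * f * c12
      + 38224404 * p * p * p * c8
      + 439983 * f * (-4 + 5 * r - 4 * p - 3 * m + 6 * n + i - 10 * e + f) ^ 2
      + 246189 * f * f * f * c10
      + 288585 * i * (3 + 7 * r - 5 * p - 10 * m + 3 * n + 2 * i - 6 * f) ^ 2
      + 4447608 * f * f * f * c7 := by positivity

private theorem part13_7 {r p m n i e f c7 c8 c9 c10 c11 c12 : ℝ} (hr : 0 ≤ r) (hp : 0 ≤ p) (hm : 0 ≤ m) (hn : 0 ≤ n) (hi : 0 ≤ i) (he : 0 ≤ e) (hf : 0 ≤ f) (hc7 : 0 ≤ c7) (hc8 : 0 ≤ c8) (hc9 : 0 ≤ c9) (hc10 : 0 ≤ c10) (hc11 : 0 ≤ c11) (hc12 : 0 ≤ c12) :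
    0 ≤ 72798015 * r * c7 * c8
      + 1927386 * r * p * (-4 + 4 * r + 6 * p - 2 * n - i - e + f) ^ 2
      + 138645606 * e * c8 * c10
      + 746973 * r * e * (-10 - r - p + 6 * m - 4 * n - 3 * i + 3 * e + 4 * f) ^ 2
      + 123424767 * i * c8
      + 22084074 * n * n * n * c8
      + 44841555 * m * n * n * c11
      + 315048 * m * c12 * (-10 - 4 * r + p + 6 * m - 4 * n - 7 * i + e + 8 * f) ^ 2
      + 306636 * e * c7 * (10 - 3 * r + 2 * p + 2 * m + 7 * n - i + 7 * e - 10 * f) ^ 2
      + 36987444 * p * n * f * c12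
      + 47926668 * p * e * e * c8
      + 590373 * r * n * n * c9
      + 14828139 * p * e * c8 * c12
      + 168168405 * p * m * m * c9
      + 9452664 * c7 * c7
      + 58062618 * p * p * m * c7
      + 6253326 * n * e * c12
      + 1659060 * r * r * c7 * c7
      + 36374583 * c7 * c8
      + 36012867 * p * i * c8 := by positivity

private theorem part13_8 {r p m n i e f c7 c8 c9 c11 c12 : ℝ} (hr : 0 ≤ r) (hp : 0 ≤ p) (hm : 0 ≤ m) (hn : 0 ≤ n) (hi : 0 ≤ i) (he : 0 ≤ e) (hf : 0 ≤ f) (hc7 : 0 ≤ c7) (hc8 : 0 ≤ c8) (hc9 : 0 ≤ c9) (hc11 : 0 ≤ c11) (hc12 : 0 ≤ c12) :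
    0 ≤ 218954763 * r * r * p * c8
      + 24276399 * r * c11
      + 25987491 * m * i * f * c12
      + 9836832 * c7
      + 5496876 * r * e * c7 * c7
      + 61000485 * p * p * m * c9
      + 1638651 * n * c12 * c12
      + 51383889 * p * p * f * c7
      + 28652265 * i * i * c7 * c12
      + 151197714 * r * n * c8
      + 269847 * p * c11 * (9 + 11 * r - p + 9 * m + 8 * n + 9 * i + 10 * e + 10 * f) ^ 2
      + 85981632 * p * e * f * c12
      + 19906110 * r * p * i * c12
      + 5544504 * p * p * e * c8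
      + 30007527 * n * c11
      + 65417718 * r * m * e * c8
      + 250182 * r * c7 * (5 + 16 * r - 10 * p + m - n - 3 * i - 3 * e + f) ^ 2
      + 589188 * r * c11 * (6 + 9 * r + p + 9 * m + 6 * n + 10 * i + 10 * e + 9 * f) ^ 2
      + 38308572 * i * f * f * c7
      + 38449599 * r * m * c7 := by positivity

private theorem part13_9 {r p m n i e f c7 c8 c9 c10 c11 c12 : ℝ} (hr : 0 ≤ r) (hp : 0 ≤ p) (hm : 0 ≤ m) (hn : 0 ≤ n) (hi : 0 ≤ i) (he : 0 ≤ e) (hf : 0 ≤ f) (hc7 : 0 ≤ c7) (hc8 : 0 ≤ c8) (hc9 : 0 ≤ c9) (hc10 : 0 ≤ c10) (hc11 : 0 ≤ c11) (hc12 : 0 ≤ c12) :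
    0 ≤ 3855855 * p * n * i * c12
      + 21670098 * p * c11
      + 42723978 * r * r * m * c12
      + 6873501 * f * f * f * c12
      + 49490445 * f * c8
      + 55335879 * c10 * c12
      + 39378243 * e * c10 * c10
      + 114196332 * m * n * f * c7
      + 136076976 * m * i * e * c7
      + 25931391 * r * p * n * c8
      + 428148 * m * e * (-9 + 8 * r - 8 * p + 9 * m - 3 * n - 5 * i - 2 * e + 10 * f) ^ 2
      + 19873341 * p * p * c10
      + 1012302 * e * f * c7 * c7
      + 172298862 * m * m * m * c12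
      + 138500607 * r * p * f * c8
      + 83693427 * e * f * c12
      + 76884 * p * m * (7 + 4 * r - 5 * p - 10 * m + 4 * n - 8 * i + 4 * e + 3 * f) ^ 2
      + 99032454 * p * n * e * c7
      + 123208524 * i * c9
      + 549159495 * m * m * c8 * c8 := by positivity

private theorem part13_10 {r p m n i e f c7 c8 c9 c10 c11 c12 : ℝ} (hr : 0 ≤ r) (hp : 0 ≤ p) (hm : 0 ≤ m) (hn : 0 ≤ n) (hi : 0 ≤ i) (he : 0 ≤ e) (hf : 0 ≤ f) (hc7 : 0 ≤ c7) (hc8 : 0 ≤ c8) (hc9 : 0 ≤ c9) (hc10 : 0 ≤ c10) (hc11 : 0 ≤ c11) (hc12 : 0 ≤ c12) :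
    0 ≤ 24111588 * n * n * i * c10
      + 54028719 * m * i * c10
      + 81739518 * p * f * c7
      + 32733222 * m * m * n * c12
      + 61289208 * m * n * n * c7
      + 69913878 * n * f * f * c7
      + 9348 * n * c9 * (-1 + 5 * m - 5 * n - 10 * i + e + 3 * f) ^ 2
      + 20459241 * p * p * c8 * c9
      + 258171 * c7 * c8 * (-10 - 16 * r + 10 * p - 4 * m + n - 3 * i - e + 2 * f) ^ 2
      + 160464 * n * i * (-8 - 2 * r + 10 * m - 4 * n - i - 4 * e + 8 * f) ^ 2
      + 23661861 * i * i * c9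
      + 86405085 * r * p * i * c8
      + 52850553 * e * c8
      + 37951557 * p * p * p * c11
      + 16892058 * n * f * c11
      + 22779033 * e * e * e * c12
      + 3000 * i * i * i * c9
      + 12452136 * i * c10 * c10 * c11
      + 19970430 * i * e * e * c12
      + 90887832 * p * e * c8 := by positivity

private theorem part13_11 {r p m n i e f c9 c10 c11 c12 : ℝ} (hr : 0 ≤ r) (hp : 0 ≤ p) (hm : 0 ≤ m) (hi : 0 ≤ i) (he : 0 ≤ e) (hf : 0 ≤ f) (hc9 : 0 ≤ c9) (hc10 : 0 ≤ c10) (hc11 : 0 ≤ c11) (hc12 : 0 ≤ c12) :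
    0 ≤ 656436 * e * c10 * (9 + 3 * r + 3 * p + 10 * m + 4 * n + 6 * i + 9 * e + 4 * f) ^ 2
      + 373848 * p * e * (-4 + 3 * r - 9 * p - 3 * m + 3 * n + 4 * i + 6 * e - 10 * f) ^ 2
      + 16076382 * i * f * f * c12
      + 31290639 * i * i * e * c12
      + 60798 * c10 * c11 * (2 - 2 * r - 10 * m + 6 * n + 2 * e + 2 * f) ^ 2
      + 51137286 * p * i * c9
      + 2953 * r
      + 3049 * r * m
      + 3017 * r * m * m
      + 2885 * r * r * i
      + 2972 * r * p
      + 2975 * r * r
      + 2839 * r * p * m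
      + 2789 * r * r * m
      + 3061
      + 3002 * m
      + 3048 * m * m
      + 3018 * r * i
      + 2859 * p * m
      + 2964 * m * m * m := by positivity

private theorem part13_12 {r p m n i e f : ℝ} (hr : 0 ≤ r) (hp : 0 ≤ p) (hm : 0 ≤ m) (hn : 0 ≤ n) (hi : 0 ≤ i) (he : 0 ≤ e) (hf : 0 ≤ f) :
    0 ≤ 3107 * r * m * i
      + 3093 * p * m * m
      + 2994 * r * m * m * m
      + 3126 * r * r * m * i
      + 3009 * r * p * m * m
      + 2979 * r * r * m * m
      + 2951 * p * p
      + 3080 * n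
      + 2963 * p * n
      + 3091 * i
      + 2879 * p * i
      + 3102 * e
      + 27425756 * p * e
      + 3143 * f
      + 2771 * p * f
      + 3024 * n * n
      + 45422847 * n * i
      + 3081 * n * e
      + 3099 * n * f
      + 3027 * i * i := by positivity

private theorem part13_13 {r p m n i e f : ℝ} (hr : 0 ≤ r) (hp : 0 ≤ p) (hm : 0 ≤ m) (hn : 0 ≤ n) (hi : 0 ≤ i) (he : 0 ≤ e) (hf : 0 ≤ f) :
    0 ≤ 43861911 * i * e
      + 100674201 * i * f
      + 3108 * e * e
      + 3030 * e * f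
      + 33816270 * f * f
      + 3117 * p * n * n
      + 3315 * p * n * i
      + 3252 * p * n * e
      + 3318 * p * n * f
      + 57708408 * p * i * i
      + 26022747 * p * i * e
      + 3558 * p * i * f
      + 3135 * p * e * e
      + 3537 * p * e * f
      + 3249 * p * f * f
      + 2955 * r * e
      + 2994 * m * i
      + 3009 * m * e
      + 2869 * r * r * e
      + 3179 * r * m * e := by positivity

private theorem part13_14 {r p m n i e f : ℝ} (hr : 0 ≤ r) (hp : 0 ≤ p) (hm : 0 ≤ m) (hn : 0 ≤ n) (hi : 0 ≤ i) (he : 0 ≤ e) (hf : 0 ≤ f) :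
    0 ≤ 3118 * m * m * i
      + 73969144 * m * m * e
      + 3102 * p * m * m * n
      + 3258 * p * m * m * e
      + 3159 * p * m * m * f
      + 2865 * p * p * m * m
      + 3111 * r * p * e
      + 3000 * r * r * p * e
      + 2700 * r * p * p * e
      + 2964 * m * n * n
      + 2985 * n * n * n
      + 2910 * n * n * i
      + 3045 * r * n * n
      + 3222 * r * m * n * n
      + 3039 * r * n * n * n
      + 3153 * r * n * n * i
      + 3354 * p * m * n * n
      + 3084 * p * n * n * n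
      + 3312 * p * n * n * i
      + 3153 * r * p * m * f := by positivity

private theorem part13_15 {r p m n i e f : ℝ} (hr : 0 ≤ r) (hp : 0 ≤ p) (hm : 0 ≤ m) (hn : 0 ≤ n) (hi : 0 ≤ i) (he : 0 ≤ e) (hf : 0 ≤ f) :
    0 ≤ 3162 * n * n * i * i
      + 2922 * n * i * i
      + 3027 * m * n * i * i
      + 3180 * r * n * f
      + 2976 * m * n * f
      + 3027 * n * n * f
      + 3141 * n * i * f
      + 2883 * n * e * f
      + 2928 * n * f * f
      + 3288 * r * r * n * f
      + 3474 * r * p * n * f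
      + 3192 * r * m * n * f
      + 3198 * r * n * n * f
      + 3516 * r * n * i * f
      + 3462 * r * n * e * f
      + 3192 * r * n * f * f
      + 2727 * p * p * n * f
      + 3456 * p * m * n * f
      + 3312 * p * n * n * f
      + 3678 * p * n * i * f := by positivity

private theorem part13_16 {p m n i e f : ℝ} (hp : 0 ≤ p) (hm : 0 ≤ m) (hn : 0 ≤ n) (hi : 0 ≤ i) (he : 0 ≤ e) (hf : 0 ≤ f) :
    0 ≤ 3744 * p * n * e * f
      + 3402 * p * n * f * f
      + 2880 * m * m * n * f
      + 3075 * m * n * n * f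
      + 2898 * m * n * i * f
      + 3345 * m * n * e * f
      + 3186 * m * n * f * f
      + 2970 * n * n * n * f
      + 3012 * n * n * i * f
      + 2826 * n * n * e * f
      + 2928 * n * n * f * f
      + 3036 * n * i * i * f
      + 2724 * n * i * e * f
      + 2880 * n * i * f * f
      + 3066 * n * e * e * f
      + 3042 * n * e * f * f
      + 3000 * n * f * f * f
      + 3006 * m * n * n * n
      + 2886 * m * m * n * n
      + 3021 * m * n := by positivity

private theorem part13_17 {r p m n i e f : ℝ} (hr : 0 ≤ r) (hp : 0 ≤ p) (hm : 0 ≤ m) (hn : 0 ≤ n) (hi : 0 ≤ i) (he : 0 ≤ e) (hf : 0 ≤ f) :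
    0 ≤ 2991 * r * n
      + 3021 * r * m * n
      + 3192 * r * n * i
      + 3396 * p * m * n
      + 140065368 * r * i * i * f
      + 3000 * m * i * i * f
      + 2964 * p
      + 2901 * r * r * r * m
      + 198123765 * m * m * m * m
      + 2913 * m * m * f
      + 198122124 * r * m * m * f
      + 3018 * n * n * n * n
      + 27510240 * r * r * p * i
      + 3024 * r * p * m * i
      + 143506152 * p * m * m * i
      + 3126 * m * n * n * e
      + 3243 * m * n * e
      + 2871 * m * m * n * e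
      + 2964 * n * n * n * e
      + 3063 * m * f := by positivity

private theorem part13_18 {r p m n i e f : ℝ} (hr : 0 ≤ r) (hp : 0 ≤ p) (hm : 0 ≤ m) (hn : 0 ≤ n) (hi : 0 ≤ i) (he : 0 ≤ e) (hf : 0 ≤ f) :
    0 ≤ 17360178 * m * f * f
      + 3249 * r * p * f * f
      + 14396976 * p * p * f * f
      + 3180 * r * r * p * m
      + 2466 * r * p * p * m
      + 3279 * r * r * m * n
      + 3198 * r * p * m * n
      + 3183 * r * r * m * e
      + 2967 * r * p * m * e
      + 2736 * p * p * m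
      + 3078 * p * p * p * m
      + 2775 * p * p * m * n
      + 3501 * p * m * i
      + 37663725 * p * p * m * i
      + 3366 * p * m * e
      + 2745 * p * p * m * e
      + 43278228 * p * m * m * m
      + 2949 * m * m * n
      + 3060 * r * m * m * n
      + 152149866 * r * m * m * i := by positivity

private theorem part13_19 {r p m n i e f : ℝ} (hr : 0 ≤ r) (hp : 0 ≤ p) (hm : 0 ≤ m) (hn : 0 ≤ n) (hi : 0 ≤ i) (he : 0 ≤ e) (hf : 0 ≤ f) :
    0 ≤ 3006 * r * m * m * e
      + 3186 * m * n * i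
      + 3336 * r * m * n * i
      + 3525 * p * m * n * i
      + 3081 * r * m * n * e
      + 3204 * p * m * n * e
      + 12723450 * m * i * i
      + 81248316 * r * m * i * i
      + 68410332 * p * m * i * i
      + 3114 * m * i * e
      + 3327 * r * m * i * e
      + 35324286 * p * m * i * e
      + 3030 * m * e * e
      + 49124736 * r * m * e * e
      + 104097882 * p * m * e * e
      + 187451268 * r * f
      + 3240 * r * r * r
      + 2850 * r * r * p
      + 2616 * r * p * p
      + 3090 * r * r * n := by positivity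

private theorem part13_20 {r p m n i e f : ℝ} (hr : 0 ≤ r) (hp : 0 ≤ p) (hm : 0 ≤ m) (hn : 0 ≤ n) (hi : 0 ≤ i) (he : 0 ≤ e) (hf : 0 ≤ f) :
    0 ≤ 3171 * r * p * n
      + 3369 * r * p * i
      + 67414626 * r * r * f
      + 2892 * r * p * f
      + 3024 * p * p * p
      + 2808 * p * p * n
      + 2604 * p * p * i
      + 2865 * p * p * e
      + 2781 * p * p * f
      + 3159 * r * n * e
      + 148393377 * r * i * i
      + 3201 * r * i * e
      + 114678090 * r * i * f
      + 86057481 * r * e * e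
      + 573698571 * r * e * f
      + 62638497 * r * f * f
      + 2997 * r * r * p * f
      + 75510897 * p * m * i * f
      + 2814 * n * i * e
      + 90414618 * i * i * e := by positivity

private theorem part13_21 {r p m n i e f : ℝ} (hr : 0 ≤ r) (hp : 0 ≤ p) (hm : 0 ≤ m) (hn : 0 ≤ n) (hi : 0 ≤ i) (he : 0 ≤ e) (hf : 0 ≤ f) :
    0 ≤ 139794192 * i * e * f
      + 215413512 * r * r * i * e
      + 11242290 * r * p * i * e
      + 3486 * r * n * i * e
      + 83577507 * r * i * i * e
      + 377349432 * r * i * e * f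
      + 40387209 * p * p * i * e
      + 3726 * p * n * i * e
      + 69036744 * p * i * i * e
      + 185171232 * p * i * e * f
      + 101257848 * m * m * i * e
      + 2985 * m * n * i * e
      + 2949 * m * i * i * e
      + 3174 * m * i * e * f
      + 49323765 * n * n * i * e
      + 3039 * n * i * i * e
      + 3009 * i * i * i * e
      + 49672416 * i * i * e * f
      + 67378128 * i * e * f * f
      + 2985 * n * e * e := by positivity

private theorem part13_22 {r p m n i e f : ℝ} (hr : 0 ≤ r) (hp : 0 ≤ p) (hm : 0 ≤ m) (hn : 0 ≤ n) (hi : 0 ≤ i) (he : 0 ≤ e) (hf : 0 ≤ f) :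
    0 ≤ 3261 * r * p * e * e
      + 3429 * r * p * e * f
      + 3426 * p * n * e * e
      + 3024 * p * p * p * n
      + 2895 * p * p * n * n
      + 14354580 * p * p * n * i
      + 2655 * p * p * n * e
      + 7643997 * r * m * f
      + 3363 * p * m * f
      + 3111 * m * i * f
      + 3171 * m * e * f
      + 8502237 * i * i * f
      + 2959146 * i * f * f
      + 2994 * e * e * f
      + 5053359 * e * f * f
      + 5720163 * f * f * f
      + 3498 * r * p * n * e
      + 3093 * p * p * p * e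
      + 44771064 * p * p * e * e
      + 2871 * p * p * e * f := by positivity

private theorem part13_23 {r p m n i e f : ℝ} (hr : 0 ≤ r) (hp : 0 ≤ p) (hm : 0 ≤ m) (hn : 0 ≤ n) (hi : 0 ≤ i) (he : 0 ≤ e) (hf : 0 ≤ f) :
    0 ≤ 79126152 * p * m * e * f
      + 3327 * p * n * n * e
      + 84987738 * p * i * e * e
      + 102286806 * p * e * e * e
      + 214333794 * p * e * e * f
      + 71602446 * p * e * f * f
      + 3237 * r * p * n * n
      + 3324 * r * r * r * r
      + 2598 * r * r * r * p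
      + 3042 * r * r * r * n
      + 325627386 * r * r * r * i
      + 128759574 * r * r * r * e
      + 23386860 * r * r * r * f
      + 37657674 * r * r * m * f
      + 2802 * r * r * p * p
      + 3096 * r * r * p * n
      + 3111 * r * r * n * n
      + 3306 * r * r * n * i
      + 3246 * r * r * n * e
      + 104594541 * r * r * i * i := by positivity

private theorem part13_24 {r m n i e f : ℝ} (hr : 0 ≤ r) (hm : 0 ≤ m) (hn : 0 ≤ n) (hi : 0 ≤ i) (he : 0 ≤ e) (hf : 0 ≤ f) :
    0 ≤ 200044944 * r * r * i * f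
      + 88064142 * r * m * i * f
      + 200977911 * r * r * e * e
      + 218075226 * r * r * e * f
      + 3147 * r * m * e * f
      + 150183240 * r * r * f * f
      + 64201284 * r * m * f * f
      + 3021 * m * m * m * e
      + 3084 * n * i * i * i
      + 21562950 * i * i * i
      + 2694 * m * m * e * f
      + 3000 * n * n * e
      + 3096 * m * m * m * n
      + 3147 * m * n * e * e
      + 2934 * m * m * e * e
      + 189557133 * r * i * e * e
      + 3015 * m * i * e * e
      + 3144 * r * n * n * e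
      + 3234 * r * n * e * e
      + 72253662 * i * e * e := by positivity

private theorem part13_25 {r p m n i e f : ℝ} (hr : 0 ≤ r) (hp : 0 ≤ p) (hm : 0 ≤ m) (hn : 0 ≤ n) (hi : 0 ≤ i) (he : 0 ≤ e) (hf : 0 ≤ f) :
    0 ≤ 127683450 * e * e * e
      + 95731947 * r * e * e * e
      + 278886432 * r * e * e * f
      + 139002756 * r * e * f * f
      + 73459203 * m * e * e * e
      + 26217195 * e * e * e * e
      + 2868 * p * p * i * i
      + 3084 * m * m * m * f
      + 47095956 * m * m * f * f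
      + 98543361 * m * e * e * f
      + 429177 * i * i * i * f
      + 58102497 * r * i * i * i
      + 3096 * n * n * n * i
      + 120636741 * m * m * m * i
      + 2679 * p * p * i * f
      + 3333 * p * n * i * i
      + 2712 * r * p * p * n
      + 2652 * r * p * p * i
      + 9711471 * r * p * i * i
      + 31901838 * r * p * i * f := by positivity

private theorem part13_26 {r p m n i e f : ℝ} (hr : 0 ≤ r) (hp : 0 ≤ p) (hm : 0 ≤ m) (hn : 0 ≤ n) (hi : 0 ≤ i) (he : 0 ≤ e) (hf : 0 ≤ f) :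
    0 ≤ 2640 * r * p * p * f
      + 2703 * p * p * m * f
      + 452364 * p * m * f * f
      + 26388585 * p * i * i * i
      + 71940393 * p * i * i * f
      + 60587814 * p * i * f * f
      + 27731334 * p * f * f * f
      + 2790 * m * m * n * i
      + 3228 * r * n * i * i
      + 2958 * n * n * e * e
      + 3054 * r * p * p * p
      + 3000 * p * p * p * p
      + 3030 * m * f * f * f
      + 9776397 * e * f * f * f
      + 2997 * f * f * f * f
      + 43763004 * r * f * f * f
      + 3444 * r * p * n * i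
      + 3039 * m * n * n * i
      + 25667049 * m * m * i * i
      + 13238301 * m * m * i * f := by positivity

private theorem part13_27 {r p m n i e f : ℝ} (hr : 0 ≤ r) (hp : 0 ≤ p) (hm : 0 ≤ m) (hn : 0 ≤ n) (hi : 0 ≤ i) (he : 0 ≤ e) (hf : 0 ≤ f) :
    0 ≤ 37886040 * m * e * f * f
      + 22619409 * p * p * p * i
      + 43618344 * p * p * p * f
      + 115955880 * r * i * f * f
      + 3030 * m * i * f * f
      + 2976 * n * i * e * e
      + 2982 * n * e * e * e
      + 3000 * m * i * i * i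
      + 3000 * i * i * i * i
      + 36083832 * i * i * e * e
      + 83104032 * i * e * e * e
      + 139030848 * i * e * e * f
      + 12452136 * i * i * f * f
      + 12208944 * i * f * f * f
      + 99461940 * e * e * e * f
      + 56307216 * e * e * f * f := by positivity

theorem leaf13 {r p m n i e f : ℝ} (h0 : 0 ≤ r) (h1 : 0 ≤ p) (h2 : 0 ≤ m) (h3 : 0 ≤ n) (h4 : 0 ≤ i) (h5 : 0 ≤ e) (h6 : 0 ≤ f) (h7 : 0 ≤ r - m) (h8 : 0 ≤ 1 - r - p) (h9 : 0 ≤ 1 - m - n - i) (h10 : 0 ≤ m - e - f) (h11 : 0 ≤ p - n - i - e - f) (h12 : 0 ≤ -1 + m + 2 * n) :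
    0 ≤ 32500000 + 47500000 * r - 103750000 * m + 192500000 * n + 332500000 * i + 225000000 * e + 192500000 * f + 95000000 * r * r - 190000000 * r * p - 211250000 * r * m - 327000000 * r * i - 27000000 * r * e + 95000000 * p * p + 285000000 * p * m - 190000000 * p * n - 190000000 * p * i - 190000000 * p * e - 190000000 * p * f + 558750000 * m * m + 120000000 * m * i + 120000000 * m * e - 56250000 * n * n - 112500000 * n * i - 112500000 * n * e - 112500000 * n * f - 56250000 * i * i - 112500000 * i * e - 112500000 * i * f - 56250000 * e * e - 112500000 * e * f - 56250000 * f * f + 485000000 * r * r * m - 10000000 * r * r * i - 200000000 * r * r * e - 485000000 * r * p * m - 598750000 * r * m * m - 985000000 * r * m * i - 400000000 * r * m * e - 585000000 * p * m * m - 71250000 * p * n * n - 142500000 * p * n * i - 142500000 * p * n * e - 142500000 * p * n * f - 71250000 * p * i * i - 142500000 * p * i * e - 142500000 * p * i * f - 71250000 * p * e * e - 142500000 * p * e * f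 - 71250000 * p * f * f - 731250000 * m * m * m + 220000000 * m * m * i + 220000000 * m * m * e - 195000000 * r * r * m * m + 675000000 * r * r * m * i + 1635000000 * r * p * m * m + 843750000 * r * m * m * m + 480000000 * p * p * m * m - 480000000 * p * m * m * n - 480000000 * p * m * m * e - 480000000 * p * m * m * f := by
  have t0 := part13_0 h0 h1 h2 h3 h4 h5 h6 h7 h8 h9 h10 h11 h12
  have t1 := part13_1 h0 h1 h2 h3 h4 h5 h6 h7 h8 h10 h11 h12
  have t2 := part13_2 h0 h1 h2 h3 h4 h5 h6 h7 h8 h9 h10 h11 h12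
  have t3 := part13_3 h0 h1 h2 h3 h4 h5 h6 h7 h8 h9 h10 h11 h12
  have t4 := part13_4 h0 h1 h2 h3 h4 h5 h6 h7 h8 h10 h11 h12
  have t5 := part13_5 h0 h1 h2 h3 h4 h5 h6 h7 h8 h9 h10 h11 h12
  have t6 := part13_6 h0 h1 h2 h3 h4 h5 h6 h7 h8 h10 h12
  have t7 := part13_7 h0 h1 h2 h3 h4 h5 h6 h7 h8 h9 h10 h11 h12
  have t8 := part13_8 h0 h1 h2 h3 h4 h5 h6 h7 h8 h9 h11 h12
  have t9 := part13_9 h0 h1 h2 h3 h4 h5 h6 h7 h8 h9 h10 h11 h12
  have t10 := part13_10 h0 h1 h2 h3 h4 h5 h6 h7 h8 h9 h10 h11 h12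
  have t11 := part13_11 (n := n) h0 h1 h2 h4 h5 h6 h9 h10 h11 h12
  have t12 := part13_12 h0 h1 h2 h3 h4 h5 h6
  have t13 := part13_13 h0 h1 h2 h3 h4 h5 h6
  have t14 := part13_14 h0 h1 h2 h3 h4 h5 h6
  have t15 := part13_15 h0 h1 h2 h3 h4 h5 h6
  have t16 := part13_16 h1 h2 h3 h4 h5 h6
  have t17 := part13_17 h0 h1 h2 h3 h4 h5 h6
  have t18 := part13_18 h0 h1 h2 h3 h4 h5 h6
  have t19 := part13_19 h0 h1 h2 h3 h4 h5 h6
  have t20 := part13_20 h0 h1 h2 h3 h4 h5 h6
  have t21 := part13_21 h0 h1 h2 h3 h4 h5 h6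
  have t22 := part13_22 h0 h1 h2 h3 h4 h5 h6
  have t23 := part13_23 h0 h1 h2 h3 h4 h5 h6
  have t24 := part13_24 h0 h2 h3 h4 h5 h6
  have t25 := part13_25 h0 h1 h2 h3 h4 h5 h6
  have t26 := part13_26 h0 h1 h2 h3 h4 h5 h6
  have t27 := part13_27 h0 h1 h2 h3 h4 h5 h6
  linarith only [t0, t1, t2, t3, t4, t5, t6, t7, t8, t9, t10, t11, t12, t13, t14, t15, t16, t17, t18, t19, t20, t21, t22, t23, t24, t25, t26, t27]

end Vale.Agent.P038.K4
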