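import Mathlib

/-
P038: one corner of the polynomial inequality for K4-free graphs (exact nonnegativity certificate).
-/

namespace Vale.Agent.P038.K4

private theorem part14_0 {r p m n i e f c7 c8 c9 c10 c11 c12 : ℝ} (hr : 0 ≤ r) (hp : 0 ≤ p) (hm : 0 ≤ m) (hi : 0 ≤ i) (he : 0 ≤ e) (hf : 0 ≤ f) (hc7 : 0 ≤ c7) (hc8 : 0 ≤ c8) (hc9 : 0 ≤ c9) (hc10 : 0 ≤ c10) (hc11 : 0 ≤ c11) (hc12 : 0 ≤ c12) :
    0 ≤ 1759038 * m * e * e * c7
      + 758105652 * i * i * f * c8
      + 845551752 * p * f * c7 * c10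
      + 805866960 * r * r * f * c10
      + 124944738 * p * e * c11
      + 4653747 * m * e * c12
      + 238662 * m * c12 * (3 - 16 * r + 10 * p - 10 * m + 4 * n - 2 * i + e + 4 * f) ^ 2
      + 1025691 * m * c11 * (-5 + 13 * r - 7 * p + 10 * m - 3 * n - 3 * i + 4 * e + 4 * f) ^ 2
      + 14851833 * c8 * c9 * c12
      + 285501681 * i * f * f * c8
      + 268169889 * m * i * f * c11
      + 229963080 * p * i * e * c12
      + 187530420 * p * i * c11
      + 234932790 * r * c7 * c8 * c12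
      + 349531164 * c7 * c7 * c8
      + 440965050 * e * f * c7
      + 117458958 * i * i * c11
      + 149133 * m * c8 * (-3 - 14 * r + 10 * p + 3 * m + 4 * i + e + f) ^ 2
      + 49491978 * r * p * c8 * c12
      + 730948452 * e * c8 * c11 := by positivity

private theorem part14_1 {r p m n i e f c7 c8 c10 c11 c12 : ℝ} (hr : 0 ≤ r) (hp : 0 ≤ p) (hm : 0 ≤ m) (hn : 0 ≤ n) (hi : 0 ≤ i) (he : 0 ≤ e) (hf : 0 ≤ f) (hc7 : 0 ≤ c7) (hc8 : 0 ≤ c8) (hc10 : 0 ≤ c10) (hc11 : 0 ≤ c11) (hc12 : 0 ≤ c12) :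
    0 ≤ 415038 * c7 * (2 + 14 * r - 9 * p + 10 * m + n - 9 * i - 5 * e + 3 * f) ^ 2
      + 44583603 * n * n * c7 * c12
      + 11489085 * n * c7 * c10 * c12
      + 269287071 * m * n * c7 * c10
      + 25585758 * n * n * c8 * c12
      + 11767980 * p * p * e * c10
      + 114961920 * i * c11
      + 20095719 * p * e * e * c8
      + 62033475 * f * c7 * c11
      + 327772311 * p * i * e * c11
      + 56328189 * r * i * e * c12
      + 329396295 * i * f * c7 * c8
      + 23004261 * r * f * c12 * c12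
      + 480465603 * r * i * c8 * c11
      + 181320 * e * c11 * (-5 + 9 * r - 7 * p + 4 * m - 2 * n - 8 * i - 4 * e + 10 * f) ^ 2
      + 377114169 * f * f * f * c10
      + 83037702 * p * p * e * c12
      + 526570059 * i * e * e * c12
      + 109990656 * c7 * c7 * c12
      + 45316815 * c7 * c10 * c12 := by positivity

private theorem part14_2 {r p m n i e f c7 c8 c9 c10 c11 c12 : ℝ} (hr : 0 ≤ r) (hp : 0 ≤ p) (hm : 0 ≤ m) (hi : 0 ≤ i) (he : 0 ≤ e) (hf : 0 ≤ f) (hc7 : 0 ≤ c7) (hc8 : 0 ≤ c8) (hc9 : 0 ≤ c9) (hc10 : 0 ≤ c10) (hc11 : 0 ≤ c11) (hc12 : 0 ≤ c12) :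
    0 ≤ 143769 * i * c9 * (4 - 3 * p - 10 * m + 3 * n - 5 * i - 5 * e - 4 * f) ^ 2
      + 197938296 * e * f * c12
      + 94748733 * c11 * c12
      + 131416425 * p * p * c8 * c8
      + 25563582 * p * p * c7 * c12
      + 334329 * i * c12
      + 303424854 * f * f * f * c7
      + 189616884 * m * f * f * c10
      + 582537 * f * c11 * (-1 + 11 * r - 10 * p + 2 * m - 3 * n - 5 * i - 3 * f) ^ 2
      + 543873285 * r * e * c8 * c10
      + 20343438 * f * f * c10
      + 1220346 * f * c9 * (2 - 19 * r + 9 * p - 8 * m - 3 * n + 3 * i - 7 * e - 5 * f) ^ 2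
      + 234522 * m * m * (4 - 3 * r - 3 * p - 10 * m + n - 3 * i + e + f) ^ 2
      + 239735259 * m * m * c8 * c8
      + 121532490 * p * e * f * c8
      + 169158099 * r * f * c8 * c10
      + 153927 * c7 * c11 * (-10 - 16 * r + 9 * p - 4 * m - 5 * n - 9 * i + 4 * f) ^ 2
      + 465642 * i * c10 * (-1 + 14 * r - 10 * p + 4 * m - 3 * n - 3 * i) ^ 2
      + 130620861 * p * m * e * c12
      + 84938646 * i * i * c8 := by positivity

private theorem part14_3 {r p m n i e f c7 c8 c10 c11 c12 : ℝ} (hp : 0 ≤ p) (hm : 0 ≤ m) (hn : 0 ≤ n) (hi : 0 ≤ i) (he : 0 ≤ e) (hf : 0 ≤ f) (hc7 : 0 ≤ c7) (hc8 : 0 ≤ c8) (hc10 : 0 ≤ c10) (hc11 : 0 ≤ c11) (hc12 : 0 ≤ c12) :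
    0 ≤ 119754603 * i * i * c8 * c10
      + 50741094 * n * e * c10 * c11
      + 5378475 * f * c8
      + 325326450 * p * f * f * c8
      + 63 * c12 * c12 * (5 - 15 * r + 10 * p - 8 * m - 3 * n + 2 * i + e + 3 * f) ^ 2
      + 435322650 * m * i * e * c11
      + 2463474 * n * e * e * c12
      + 269220 * p * c10 * (-1 + 14 * r - 10 * p + 4 * m - 3 * n - 3 * i) ^ 2
      + 223089159 * p * p * e * c11
      + 76672086 * i * e * c12 * c12
      + 181015536 * p * i * c8 * c12
      + 16128357 * p * n * i * c11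
      + 5803752 * n * n * c8
      + 46681587 * f * c12 * c12
      + 225103983 * i * i * e * c12
      + 1969170 * n * i * c10 * c12
      + 929536218 * e * f * c8
      + 71844483 * i * i * c12
      + 636071703 * m * m * c7 * c8
      + 98755647 * p * f * c12 * c12 := by positivity

private theorem part14_4 {r p m n i e f c7 c8 c9 c10 c11 c12 : ℝ} (hr : 0 ≤ r) (hp : 0 ≤ p) (hm : 0 ≤ m) (hn : 0 ≤ n) (hi : 0 ≤ i) (he : 0 ≤ e) (hf : 0 ≤ f) (hc7 : 0 ≤ c7) (hc8 : 0 ≤ c8) (hc9 : 0 ≤ c9) (hc10 : 0 ≤ c10) (hc11 : 0 ≤ c11) (hc12 : 0 ≤ c12) :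
    0 ≤ 138117165 * i * f * c8 * c9
      + 53746719 * m * c8 * c8
      + 53502924 * r * f * c8 * c11
      + 221203971 * n * e * c11
      + 525849327 * p * i * f * c12
      + 155666034 * r * m * f * c12
      + 250803840 * f * c7 * c8
      + 565889757 * m * m * c7 * c11
      + 33782820 * p * p * i * c12
      + 15081 * c10 * c11 * (-10 + 7 * r - 5 * p + 10 * m - 6 * n - 4 * i) ^ 2
      + 72068445 * p * c7 * c7 * c11
      + 145024818 * i * c10 * c11
      + 43809570 * m * i * i * c12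
      + 378981594 * i * f * c9 * c10
      + 97871754 * r * i * e * c11
      + 95862894 * p * f * f * c7
      + 16883025 * r * i * i * c11
      + 3333372 * i * (-1 - 9 * r + 3 * p + 10 * m - 3 * n - e + 3 * f) ^ 2
      + 106495524 * r * c7 * c11 * c12
      + 104922 * m * n * c8 * c8 := by positivity

private theorem part14_5 {r p m n i e f c7 c8 c10 c11 c12 : ℝ} (hr : 0 ≤ r) (hp : 0 ≤ p) (hm : 0 ≤ m) (hn : 0 ≤ n) (hi : 0 ≤ i) (he : 0 ≤ e) (hf : 0 ≤ f) (hc7 : 0 ≤ c7) (hc8 : 0 ≤ c8) (hc10 : 0 ≤ c10) (hc11 : 0 ≤ c11) (hc12 : 0 ≤ c12) :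
    0 ≤ 551593506 * p * m * i * c8
      + 145253778 * i * e * f * c7
      + 389778219 * r * i * f * c10
      + 37010991 * i * c7 * c8
      + 387315 * c10 * (1 + 15 * r - 10 * p + 5 * m - 2 * n - 2 * i) ^ 2
      + 115640691 * m * i * e * c12
      + 369246840 * m * i * c7 * c10
      + 24237642 * r * i * i * c12
      + 58067682 * m * c8 * c8 * c8
      + 124578849 * n * f * f * c7
      + 72154578 * m * e * e * c8
      + 5164470 * i * i * i * c12
      + 203843550 * c7 * c7 * c7 * c8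
      + 182427909 * p * m * c7 * c10
      + 99759276 * c7 * c7 * c7 * c12
      + 126312465 * m * n * i * c11
      + 168990339 * e * c7 * c10
      + 36031125 * e * e * e * c10
      + 179663604 * i * c7 * c10 * c12
      + 14033475 * n * i * i * c11 := by positivity

private theorem part14_6 {r p m n i e f c7 c8 c10 c11 c12 : ℝ} (hr : 0 ≤ r) (hp : 0 ≤ p) (hn : 0 ≤ n) (hi : 0 ≤ i) (he : 0 ≤ e) (hf : 0 ≤ f) (hc7 : 0 ≤ c7) (hc8 : 0 ≤ c8) (hc10 : 0 ≤ c10) (hc11 : 0 ≤ c11) (hc12 : 0 ≤ c12) :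
    0 ≤ 54315534 * p * c7 * c8 * c10
      + 48062028 * p * i * i * c8
      + 142942713 * f * f * c8 * c8
      + 7242516 * n * n * e * c12
      + 114627909 * p * n * c8 * c12
      + 92875305 * n * i * c7 * c12
      + 326330289 * p * f * c10 * c11
      + 301546407 * r * e * e * c8
      + 101745498 * n * c7 * c11
      + 680277 * n * c10 * (-1 + 14 * r - 10 * p + 4 * m - 3 * n - 3 * i) ^ 2
      + 4018203 * r * e * (-1 - 6 * r + 5 * p + 10 * m - 6 * n + 4 * f) ^ 2
      + 263071170 * n * i * f * c8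
      + 981303639 * i * i * f * c11
      + 1067709 * c7 * c8 * (1 + 13 * r - 8 * p + 10 * m - n - 5 * i - 2 * e + f) ^ 2
      + 92931279 * p * c7 * c8 * c8
      + 88697877 * p * c8 * c11
      + 71445750 * p * f * c7 * c12
      + 44735703 * p * e * c12
      + 392407857 * e * f * f * c8
      + 184496961 * c7 * c10 * c10 := by positivity

private theorem part14_7 {r p m n i e f c7 c8 c9 c10 c11 c12 : ℝ} (hr : 0 ≤ r) (hp : 0 ≤ p) (hm : 0 ≤ m) (hn : 0 ≤ n) (hi : 0 ≤ i) (he : 0 ≤ e) (hf : 0 ≤ f) (hc7 : 0 ≤ c7) (hc8 : 0 ≤ c8) (hc9 : 0 ≤ c9) (hc10 : 0 ≤ c10) (hc11 : 0 ≤ c11) (hc12 : 0 ≤ c12) :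
    0 ≤ 297886998 * r * f * c9 * c11
      + 86196 * r * c12 * (-5 - 15 * r + 8 * p - 10 * m + 7 * n - 8 * i - e + 4 * f) ^ 2
      + 100998294 * m * n * i * c12
      + 129798 * f * c10 * (-3 - 6 * r + 3 * p - 3 * m + 10 * n - 5 * i + 8 * e + 3 * f) ^ 2
      + 50860404 * i * c8 * c8
      + 109247148 * p * p * e * c8
      + 25574796 * e * f * c7 * c7
      + 351870669 * r * f * c7 * c7
      + 247352346 * m * e * c11
      + 6070707 * p * p * c7 * c8
      + 203985366 * p * p * c8 * c11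
      + 11912850 * m * f * c10
      + 7767981 * e * e * c10
      + 251053608 * p * p * c10 * c11
      + 120428559 * e * c8 * c8
      + 132563625 * e * f * c10
      + 17757387 * r * c8 * c8
      + 1532919 * e * c8
      + 194271789 * e * c7 * c7 * c8
      + 137614374 * m * c8 * c9 * c10 := by positivity

private theorem part14_8 {r p m n i e f c7 c8 c10 c11 c12 : ℝ} (hr : 0 ≤ r) (hp : 0 ≤ p) (hm : 0 ≤ m) (hn : 0 ≤ n) (hi : 0 ≤ i) (he : 0 ≤ e) (hf : 0 ≤ f) (hc7 : 0 ≤ c7) (hc8 : 0 ≤ c8) (hc10 : 0 ≤ c10) (hc11 : 0 ≤ c11) (hc12 : 0 ≤ c12) :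
    0 ≤ 1774083 * p * c8 * c8
      + 150963390 * r * f * f * c10
      + 544500567 * i * e * e * c11
      + 253004673 * i * i * c10 * c10
      + 69719925 * e * e * c11
      + 90380730 * r * r * c10 * c12
      + 100643928 * i * c7 * c7 * c12
      + 134395278 * r * c8 * c11
      + 35361 * c11 * c12 * (10 + 8 * r - 4 * p + 2 * m + 6 * n - i + 2 * e + 3 * f) ^ 2
      + 48472410 * c7 * c12 * c12
      + 419021505 * p * n * f * c11
      + 163623210 * n * f * f * c8
      + 38113191 * m * m * m * c12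
      + 215858880 * e * f * f * c10
      + 52270986 * r * m * f * c10
      + 308703036 * r * r * c8 * c11
      + 736629438 * i * e * c8
      + 64194 * r * c11 * (-2 + 9 * r - 7 * p - 5 * m - 9 * n + 10 * i - 8 * e + 7 * f) ^ 2
      + 279960291 * p * i * e * c8
      + 295659297 * f * f * c10 * c11 := by positivity

private theorem part14_9 {r p m n i e f c7 c8 c9 c10 c11 c12 : ℝ} (hr : 0 ≤ r) (hp : 0 ≤ p) (hm : 0 ≤ m) (hn : 0 ≤ n) (hi : 0 ≤ i) (he : 0 ≤ e) (hf : 0 ≤ f) (hc7 : 0 ≤ c7) (hc8 : 0 ≤ c8) (hc9 : 0 ≤ c9) (hc10 : 0 ≤ c10) (hc11 : 0 ≤ c11) (hc12 : 0 ≤ c12) :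
    0 ≤ 319993200 * e * e * c7 * c9
      + 641672697 * p * p * i * c8
      + 141956115 * p * e * e * c12
      + 356827176 * r * r * c10 * c11
      + 63841725 * r * e * c8 * c12
      + 949359 * n * c7 * (3 + 10 * r - 5 * p + 10 * m + n - 6 * i + 2 * f) ^ 2
      + 116409 * c10 * c12 * (3 - 15 * r + 9 * p - 10 * m + 4 * n + i + f) ^ 2
      + 279713703 * p * f * c8 * c10
      + 8805399 * p * p * p * c11
      + 52569078 * m * m * m * c7
      + 176530818 * p * m * e * c11
      + 631096308 * e * e * c8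
      + 459704055 * m * m * f * c7
      + 527207451 * r * i * e * c8
      + 158943879 * m * n * c8 * c12
      + 14733957 * f * c8 * c8
      + 152575818 * p * c7 * c7 * c7
      + 1261767 * e * c9 * (-10 - 8 * r + 9 * p + 9 * m + 2 * n + 9 * i + 10 * e + 7 * f) ^ 2
      + 152874 * (9 + r - 10 * p - m + 2 * n - i - 6 * e - 6 * f - 4 * r * r - r * p - r * m - 14 * r * n + 7 * r * i + 6 * r * e - r * f - 3 * p * m + 6 * p * n - 4 * p * i - 4 * p * e + p * f - 3 * m * m - 3 * m * n + m * i + m * e - 3 * n * n + 3 * n * i - 4 * n * e - 4 * n * f - 2 * i * i - 3 * i * e + 4 * e * e - e * f + 5 * f * f) ^ 2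
      + 152142 * c9 * (-4 - 14 * r + 10 * p - 4 * m + n + 2 * i - 2 * e) ^ 2 := by positivity

private theorem part14_10 {r p m n i e f c7 c8 c9 c10 c11 c12 : ℝ} (hr : 0 ≤ r) (hp : 0 ≤ p) (hm : 0 ≤ m) (hn : 0 ≤ n) (hi : 0 ≤ i) (he : 0 ≤ e) (hf : 0 ≤ f) (hc7 : 0 ≤ c7) (hc8 : 0 ≤ c8) (hc9 : 0 ≤ c9) (hc10 : 0 ≤ c10) (hc11 : 0 ≤ c11) (hc12 : 0 ≤ c12) :
    0 ≤ 52078680 * c11 * c11
      + 46089807 * r * n * c7 * c12
      + 429811266 * p * i * f * c8
      + 7141146 * i * i * i * c7
      + 161845566 * r * n * i * c11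
      + 161039223 * r * c8 * c9 * c12
      + 455768346 * m * i * c8 * c8
      + 32562009 * n * n * c9 * c11
      + 531118020 * r * r * e * c10
      + 482763873 * e * f * f * c7
      + 73159866 * i * c7 * c7 * c7
      + 121504236 * i * i * c7 * c10
      + 296563158 * n * n * c7 * c8
      + 75954681 * i * e * c12
      + 162753396 * m * m * e * c9
      + 12895149 * n * n * f * c12
      + 1296594 * r * c9 * (4 - 4 * r - p - m - 5 * n - 2 * e - 10 * f) ^ 2
      + 106415535 * m * c7 * c8 * c12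
      + 320253660 * e * e * f * c8
      + 81905628 * m * i * c8 * c12 := by positivity

private theorem part14_11 {r p m n i e f c7 c8 c9 c10 c11 c12 : ℝ} (hr : 0 ≤ r) (hp : 0 ≤ p) (hm : 0 ≤ m) (hn : 0 ≤ n) (hi : 0 ≤ i) (he : 0 ≤ e) (hf : 0 ≤ f) (hc7 : 0 ≤ c7) (hc8 : 0 ≤ c8) (hc9 : 0 ≤ c9) (hc10 : 0 ≤ c10) (hc11 : 0 ≤ c11) (hc12 : 0 ≤ c12) :
    0 ≤ 403387713 * r * i * i * c8
      + 39228 * p * c11 * (-4 + 13 * r - 5 * p + 2 * m + 10 * n + i - 7 * e - 2 * f) ^ 2
      + 326684820 * r * i * c8 * c12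
      + 1411749 * n * c8 * c12
      + 141319359 * n * f * f * c12
      + 195985293 * f * c7 * c7
      + 1884477 * r * c11 * (-4 * r + 2 * m + 6 * n - 3 * i - 4 * e + 10 * f) ^ 2
      + 27547320 * m * n * e * c9
      + 63717378 * m * f * c7 * c12
      + 5052192 * m * i * c12
      + 11626734 * e * f * c12 * c12
      + 339537 * e * f * (-10 * e + 10 * f) ^ 2
      + 249014064 * f * c8 * c12
      + 267960771 * p * e * c7 * c10
      + 135824634 * i * f * c7 * c7
      + 182057646 * m * m * i * c11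
      + 210338874 * r * m * e * c12
      + 110489412 * p * p * f * c12
      + 627798 * c8 * c8 * (-6 - 17 * r + 10 * p - 8 * m + 6 * n - 2 * i - e + 2 * f) ^ 2
      + 447551475 * e * c8 * c12 := by positivity

private theorem part14_12 {r p m n i e f c7 c8 c9 c11 c12 : ℝ} (hr : 0 ≤ r) (hp : 0 ≤ p) (hm : 0 ≤ m) (hn : 0 ≤ n) (hi : 0 ≤ i) (he : 0 ≤ e) (hf : 0 ≤ f) (hc7 : 0 ≤ c7) (hc8 : 0 ≤ c8) (hc9 : 0 ≤ c9) (hc11 : 0 ≤ c11) (hc12 : 0 ≤ c12) :
    0 ≤ 1942035 * m * i * (-1 + 14 * r - 10 * p + 4 * m - 3 * n - 3 * i) ^ 2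
      + 105620490 * m * m * i * c7
      + 706667982 * i * f * f * c7
      + 445708767 * m * f * c11 * c11
      + 14850693 * r * c11 * c12
      + 60186309 * n * i * c11
      + 465902226 * r * i * c7 * c8
      + 210456822 * r * f * f * c12
      + 356649072 * e * f * c11
      + 44825319 * f * c11 * c12
      + 533365257 * m * n * f * c11
      + 13991958 * n * i * c9 * c12
      + 497548677 * p * i * c8 * c8
      + 351131352 * m * m * e * c7
      + 53261847 * i * f * f * c12
      + 112673775 * p * c8 * c9 * c12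
      + 29420826 * m * f * f * c8
      + 134622243 * m * f * c8 * c8
      + 362828403 * c7 * c7 * c11
      + 23215809 * c9 * c9 * c12 := by positivity

private theorem part14_13 {r p m n i e f c7 c8 c9 c10 c11 c12 : ℝ} (hr : 0 ≤ r) (hp : 0 ≤ p) (hm : 0 ≤ m) (hn : 0 ≤ n) (hi : 0 ≤ i) (he : 0 ≤ e) (hf : 0 ≤ f) (hc7 : 0 ≤ c7) (hc8 : 0 ≤ c8) (hc9 : 0 ≤ c9) (hc10 : 0 ≤ c10) (hc11 : 0 ≤ c11) (hc12 : 0 ≤ c12) :
    0 ≤ 75398376 * r * p * e * c12
      + 55730745 * n * n * c8 * c11
      + 519328551 * f * c8 * c11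
      + 23970135 * n * f * f * c10
      + 30624816 * m * f * c8 * c9
      + 42661824 * e * e * e * c12
      + 45472377 * e * f * f * c12
      + 200403414 * c7 * c7 * c7 * c7
      + 29966499 * r * e * f * c12
      + 364590 * i * e * (2 - 17 * r + 10 * p - 6 * m + n + 6 * i - 5 * e + 2 * f) ^ 2
      + 267739401 * n * i * e * c11
      + 11667705 * m * n * c7 * c12
      + 214529139 * i * c8 * c11
      + 271551 * c9 * c11 * (-6 + 12 * r - 10 * p - 4 * m + 3 * i + 2 * e + f) ^ 2
      + 28766436 * e * c8 * c8 * c8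
      + 246600213 * i * f * f * c11
      + 23098533 * m * c9 * c9 * c12
      + 314238348 * p * i * f * c11
      + 252877467 * r * p * c7 * c12
      + 172423842 * p * n * e * c12 := by positivity

private theorem part14_14 {r p m n i e f c7 c8 c9 c10 c11 c12 : ℝ} (hr : 0 ≤ r) (hp : 0 ≤ p) (hm : 0 ≤ m) (hn : 0 ≤ n) (hi : 0 ≤ i) (he : 0 ≤ e) (hf : 0 ≤ f) (hc7 : 0 ≤ c7) (hc8 : 0 ≤ c8) (hc9 : 0 ≤ c9) (hc10 : 0 ≤ c10) (hc11 : 0 ≤ c11) (hc12 : 0 ≤ c12) :
    0 ≤ 25809 * c8 * c9 * (5 + 16 * r - 10 * p + 6 * m - 2 * n - i + 2 * e - f) ^ 2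
      + 184119558 * r * f * c7 * c8
      + 162328926 * r * r * f * c12
      + 210954363 * n * f * f * c11
      + 206742357 * e * e * f * c7
      + 357042405 * p * f * c8 * c12
      + 121086408 * p * p * c8 * c12
      + 93361290 * p * e * f * c12
      + 21689127 * p * p * m * c11
      + 23687418 * p * i * i * c12
      + 511980216 * i * i * f * c12
      + 142112943 * n * e * c8 * c12
      + 1696290 * c7 * c10 * (4 + 14 * r - 10 * p - 10 * m - 3 * n + 2 * i) ^ 2
      + 31397100 * n * n * n * c11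
      + 3391 * r
      + 2829 * r * m
      + 3375 * r * m * m
      + 4024 * r * m * n
      + 2537 * r * r * i
      + 3155 * r * p * p := by positivity

private theorem part14_15 {r p m n i e f : ℝ} (hr : 0 ≤ r) (hp : 0 ≤ p) (hm : 0 ≤ m) (hn : 0 ≤ n) (hi : 0 ≤ i) (he : 0 ≤ e) (hf : 0 ≤ f) :
    0 ≤ 2786 * r * n * e
      + 2609 * r * n * f
      + 3232 * r * e
      + 3016 * r * f
      + 3005 * r * r
      + 3103 * r * p * m
      + 2128 * r * m * e
      + 2291 * r * m * f
      + 2069 * r * r * m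
      + 3164 * m
      + 2934 * m * m
      + 2817 * m * n
      + 2463 * r * i
      + 3421 * p * p
      + 2644 * n * e
      + 2986 * n * f
      + 3232 * e
      + 3042 * f
      + 2628 * p * m
      + 2850 * m * e := by positivity

private theorem part14_16 {r p m n i e f : ℝ} (hr : 0 ≤ r) (hp : 0 ≤ p) (hm : 0 ≤ m) (hn : 0 ≤ n) (hi : 0 ≤ i) (he : 0 ≤ e) (hf : 0 ≤ f) :
    0 ≤ 3249 * m * f
      + 3201 * m * m * m
      + 3018 * m * m * n
      + 2390 * r * m * i
      + 3465 * p * p * m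
      + 3474 * m * n * e
      + 2823 * m * n * f
      + 2832 * p * m * m
      + 3031 * m * m * e
      + 2853 * m * m * f
      + 2331 * r * m * m * m
      + 2760 * r * m * m * n
      + 3561 * r * r * m * i
      + 3159 * r * p * p * m
      + 3579 * r * m * n * e
      + 3672 * r * m * n * f
      + 1947 * r * p * m * m
      + 4320 * r * m * m * e
      + 166084596 * r * m * m * f
      + 3990 * r * r * m * m := by positivity

private theorem part14_17 {p n i e f : ℝ} (hp : 0 ≤ p) (hn : 0 ≤ n) (hi : 0 ≤ i) (he : 0 ≤ e) (hf : 0 ≤ f) :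
    0 ≤ 2577 * p
      + 3012 * n
      + 3720 * p * n
      + 2980 * i
      + 3408 * p * i
      + 2784 * p * e
      + 3063 * p * f
      + 2900 * n * n
      + 2959 * n * i
      + 3044 * i * i
      + 2524 * i * e
      + 2911 * i * f
      + 1120043 * e * e
      + 2719 * e * f
      + 2960 * f * f
      + 2704 * p * n * n
      + 2708 * p * n * i
      + 3350 * p * n * e
      + 3185 * p * n * f
      + 2698 * p * i * i := by positivity

private theorem part14_18 {r p m n i e f : ℝ} (hr : 0 ≤ r) (hp : 0 ≤ p) (hm : 0 ≤ m) (hn : 0 ≤ n) (hi : 0 ≤ i) (he : 0 ≤ e) (hf : 0 ≤ f) :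
    0 ≤ 3314 * p * i * e
      + 2774 * p * i * f
      + 3049 * p * e * e
      + 2912 * p * e * f
      + 3031 * p * f * f
      + 2686 * p * p * p
      + 2741 * p * p * n
      + 2855 * p * p * i
      + 3398 * p * p * e
      + 2999 * p * p * f
      + 3132 * m * i
      + 2980 * r * r * e
      + 2449 * m * m * i
      + 269466321 * r * m * e * e
      + 2757 * m * m * e * e
      + 2895 * i * i * f
      + 2967 * r * i * i * f
      + 3144 * p * i * i * f
      + 3288 * r * p * m * f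
      + 3750 * r * p * e * f := by positivity

private theorem part14_19 {r p m n i e f : ℝ} (hr : 0 ≤ r) (hp : 0 ≤ p) (hm : 0 ≤ m) (hn : 0 ≤ n) (hi : 0 ≤ i) (he : 0 ≤ e) (hf : 0 ≤ f) :
    0 ≤ 3051 * r * p * f * f
      + 2217 * p * m * m * f
      + 3150 * p * m * e * f
      + 3057 * p * m * f * f
      + 2841 * r * r * m * f
      + 2763 * r * r * e * f
      + 3015 * r * r * f * f
      + 2697 * p * m * n
      + 3366 * m * n * n
      + 3297 * m * n * i
      + 3156 * r * r * m * n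
      + 3201 * r * p * m * n
      + 2370 * r * m * n * n
      + 3621 * r * m * n * i
      + 3861 * r * m * m * i
      + 2667 * p * p * m * n
      + 3444 * p * p * m * m
      + 3372 * p * m * m * n
      + 3027 * p * m * m * m
      + 3192 * p * m * n * n := by positivity

private theorem part14_20 {p m n i e f : ℝ} (hp : 0 ≤ p) (hm : 0 ≤ m) (hn : 0 ≤ n) (hi : 0 ≤ i) (he : 0 ≤ e) (hf : 0 ≤ f) :
    0 ≤ 2439 * p * m * n * i
      + 3213 * p * m * i
      + 2859 * p * m * m * i
      + 2535 * p * m * n * e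
      + 3531 * p * m * e
      + 2361 * p * m * m * e
      + 2574 * p * m * n * f
      + 3318 * p * m * f
      + 3042 * m * m * m * n
      + 3018 * m * m * m * m
      + 2745 * m * m * n * n
      + 3099 * m * m * n * i
      + 3153 * m * m * m * i
      + 2709 * m * m * n * e
      + 2946 * m * m * m * e
      + 2946 * m * m * n * f
      + 3138 * m * m * m * f
      + 2913 * m * n * n * n
      + 3162 * m * n * n * i
      + 3021 * m * n * n * e := by positivity

private theorem part14_21 {r p m n i e f : ℝ} (hr : 0 ≤ r) (hp : 0 ≤ p) (hm : 0 ≤ m) (hn : 0 ≤ n) (hi : 0 ≤ i) (he : 0 ≤ e) (hf : 0 ≤ f) :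
    0 ≤ 3234 * m * n * n * f
      + 3252 * m * n * i * i
      + 3147 * m * i * i
      + 3225 * m * m * i * i
      + 3141 * m * n * i * e
      + 3858 * m * i * e
      + 2886 * m * m * i * e
      + 3081 * m * n * i * f
      + 3204 * m * i * f
      + 3132 * m * m * i * f
      + 2880 * m * n * e * e
      + 3594 * m * e * e
      + 3231 * m * n * e * f
      + 3198 * m * e * f
      + 438709944 * m * m * e * f
      + 3291 * m * n * f * f
      + 2859 * m * f * f
      + 3024 * m * m * f * f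
      + 3375 * r * r * p * m
      + 123218379 * r * r * m * e := by positivity

private theorem part14_22 {r p m i e f : ℝ} (hr : 0 ≤ r) (hp : 0 ≤ p) (hm : 0 ≤ m) (hi : 0 ≤ i) (he : 0 ≤ e) (hf : 0 ≤ f) :
    0 ≤ 2832 * r * p * m * i
      + 3852 * r * p * m * e
      + 3117 * r * m * i * i
      + 3357 * r * m * i * e
      + 3069 * r * m * i * f
      + 3009 * r * m * e * f
      + 2895 * r * m * f * f
      + 2718 * p * p * p * m
      + 2862 * p * p * m * i
      + 2562 * p * p * m * e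
      + 2844 * p * p * m * f
      + 2763 * p * m * i * i
      + 151797522 * p * m * i * e
      + 2871 * p * m * i * f
      + 2907 * p * m * e * e
      + 3258 * m * i * i * i
      + 899876799 * m * i * i * e
      + 3177 * m * i * i * f
      + 2820 * m * i * e * e
      + 2811 * m * i * e * f := by positivity

private theorem part14_23 {r p m n i e f : ℝ} (hr : 0 ≤ r) (hp : 0 ≤ p) (hm : 0 ≤ m) (hn : 0 ≤ n) (hi : 0 ≤ i) (he : 0 ≤ e) (hf : 0 ≤ f) :
    0 ≤ 3069 * m * i * f * f
      + 55924815 * m * e * e * e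
      + 39576192 * m * e * e * f
      + 3081 * m * e * f * f
      + 3090 * m * f * f * f
      + 3048
      + 2310 * r * n
      + 3174 * r * n * n
      + 3237 * r * n * i
      + 2919 * i * f * f
      + 3585 * r * i * f * f
      + 2739 * p * i * f * f
      + 2907 * p * n * i * e
      + 3549 * r * r * n
      + 3420 * r * r * r * n
      + 2022 * r * r * r
      + 3201 * r * r * r * m
      + 2937 * r * r * p * n
      + 4209 * r * r * p
      + 3042 * r * e * f := by positivity

private theorem part14_24 {r p n i e f : ℝ} (hr : 0 ≤ r) (hp : 0 ≤ p) (hn : 0 ≤ n) (hi : 0 ≤ i) (he : 0 ≤ e) (hf : 0 ≤ f) :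
    0 ≤ 3078 * n * i * i
      + 125485758 * i * i * i
      + 3114 * i * i * e
      + 3174 * r * p * n
      + 2397 * r * p
      + 2484 * r * p * p * n
      + 2412 * r * p * e
      + 2622 * r * i * e
      + 3078 * r * e * e
      + 2469 * r * r * f
      + 3774 * r * p * i
      + 3270 * r * p * f
      + 2847 * r * i * i
      + 3366 * r * i * f
      + 2970 * r * f * f
      + 2889 * r * n * n * n
      + 2970 * r * n * n * e
      + 3216 * r * n * n * f
      + 2958 * n * n * n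
      + 3180 * p * n * n * n := by positivity

private theorem part14_25 {r p n i e f : ℝ} (hr : 0 ≤ r) (hp : 0 ≤ p) (hn : 0 ≤ n) (hi : 0 ≤ i) (he : 0 ≤ e) (hf : 0 ≤ f) :
    0 ≤ 2991 * p * p * e * e
      + 2631 * p * p * e * f
      + 14360370 * r * p * e * e
      + 3045 * p * p * i * e
      + 435581172 * p * i * i * e
      + 79543824 * p * i * e * e
      + 400972368 * p * i * e * f
      + 2892 * r * n * i * e
      + 3510 * r * r * i * f
      + 2100 * r * p * i * f
      + 3411 * r * r * p * i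
      + 2589 * r * r * n * i
      + 2721 * r * r * i * i
      + 2925 * r * r * i * e
      + 2577 * r * p * p * i
      + 3627 * r * p * n * i
      + 3336 * r * p * i * i
      + 3105 * r * p * i * e
      + 2829 * n * n * e
      + 3114 * n * i * e := by positivity

private theorem part14_26 {r p n i e f : ℝ} (hr : 0 ≤ r) (hp : 0 ≤ p) (hn : 0 ≤ n) (hi : 0 ≤ i) (he : 0 ≤ e) (hf : 0 ≤ f) :
    0 ≤ 3090 * n * e * e
      + 3003 * n * e * f
      + 3201 * i * e * e
      + 151582524 * i * e * f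
      + 9508542 * e * e * e
      + 3201 * e * e * f
      + 3123 * e * f * f
      + 3117 * r * r * p * e
      + 2619 * r * r * n * e
      + 2787 * r * r * e * e
      + 2736 * r * p * p * e
      + 3270 * r * p * n * e
      + 71443056 * r * n * e * e
      + 3402 * r * n * e * f
      + 3000 * r * i * i * e
      + 173889018 * r * i * e * e
      + 3483 * r * i * e * f
      + 13867056 * r * e * e * e
      + 2895 * r * e * e * f
      + 2910 * r * e * f * f := by positivity

private theorem part14_27 {p n i e f : ℝ} (hp : 0 ≤ p) (hn : 0 ≤ n) (hi : 0 ≤ i) (he : 0 ≤ e) (hf : 0 ≤ f) :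
    0 ≤ 3111 * p * p * p * e
      + 2919 * p * p * n * e
      + 3093 * p * n * n * e
      + 2724 * p * n * e * e
      + 2652 * p * n * e * f
      + 14066940 * p * e * e * e
      + 2967 * p * e * e * f
      + 43084668 * p * e * f * f
      + 2928 * n * n * n * e
      + 2832 * n * n * i * e
      + 2874 * n * n * e * e
      + 2859 * n * n * e * f
      + 2751 * n * i * i * e
      + 2601 * n * i * e * e
      + 3027 * n * i * e * f
      + 2850 * n * e * e * e
      + 139500666 * n * e * e * f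
      + 2775 * n * e * f * f
      + 104283240 * i * i * i * e
      + 563776545 * i * i * e * e := by positivity

private theorem part14_28 {p n i e f : ℝ} (hp : 0 ≤ p) (hn : 0 ≤ n) (hi : 0 ≤ i) (he : 0 ≤ e) (hf : 0 ≤ f) :
    0 ≤ 194374854 * i * i * e * f
      + 678650889 * i * e * e * e
      + 742850889 * i * e * e * f
      + 92280954 * i * e * f * f
      + 36486261 * e * e * e * e
      + 3009 * e * e * e * f
      + 2925 * e * e * f * f
      + 2814 * e * f * f * f
      + 84044037 * f * f * f * f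
      + 2898 * n * n * i
      + 2886 * n * i * f
      + 2886 * p * p * n * i
      + 2925 * p * p * i * i
      + 2991 * p * n * n * i
      + 3102 * p * n * i * i
      + 20617524 * p * i * i * i
      + 3087 * p * n * i * f
      + 3003 * n * n * n * i
      + 2970 * n * n * i * i
      + 2982 * n * i * i * i := by positivity

private theorem part14_29 {r p n i f : ℝ} (hr : 0 ≤ r) (hp : 0 ≤ p) (hn : 0 ≤ n) (hi : 0 ≤ i) (hf : 0 ≤ f) :
    0 ≤ 2850 * n * n * i * f
      + 2925 * n * i * i * f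
      + 538770 * i * i * i * i
      + 1012477155 * i * i * i * f
      + 2964 * n * i * f * f
      + 597807321 * i * i * f * f
      + 2451 * r * r * p * p
      + 3087 * r * p * p * p
      + 3042 * p * p * p * p
      + 3144 * r * f * f * f
      + 2679 * n * n * f
      + 2850 * n * f * f
      + 2979 * f * f * f
      + 2871 * r * r * p * f
      + 3018 * r * r * n * f
      + 2799 * r * p * p * f
      + 2700 * r * p * n * f
      + 2667 * r * n * i * f
      + 3516 * r * n * f * f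
      + 3186 * p * p * p * f := by positivity

private theorem part14_30 {r p n i e f : ℝ} (hr : 0 ≤ r) (hp : 0 ≤ p) (hn : 0 ≤ n) (hi : 0 ≤ i) (he : 0 ≤ e) (hf : 0 ≤ f) :
    0 ≤ 3192 * p * p * n * f
      + 2934 * p * p * f * f
      + 2991 * p * n * n * f
      + 2721 * p * n * f * f
      + 2931 * p * f * f * f
      + 2949 * n * n * n * f
      + 2859 * n * n * f * f
      + 2955 * n * f * f * f
      + 3018 * i * f * f * f
      + 3219 * p * p * i * f
      + 3264 * r * r * r * p
      + 2892 * r * r * r * i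
      + 107381331 * r * r * r * e
      + 3057 * r * r * r * f
      + 1683 * r * r * n * n
      + 4161 * r * p * n * n
      + 2532 * r * n * n * i
      + 2820 * r * n * i * i
      + 30292650 * r * i * i * i
      + 2769 * p * p * n * n := by positivity

private theorem part14_31 {r p n i : ℝ} (hr : 0 ≤ r) (hp : 0 ≤ p) (hn : 0 ≤ n) (hi : 0 ≤ i) :
    0 ≤ 2949 * n * n * n * n
      + 3351 * r * r * r * r
      + 3237 * p * p * p * n
      + 3153 * p * p * p * i := by positivity

theorem leaf14 {r p m n i e f : ℝ} (h0 : 0 ≤ r) (h1 : 0 ≤ p) (h2 : 0 ≤ m) (h3 : 0 ≤ n) (h4 : 0 ≤ i) (h5 : 0 ≤ e) (h6 : 0 ≤ f) (h7 : 0 ≤ r - m) (h8 : 0 ≤ 1 - r - p) (h9 : 0 ≤ 1 - m - n - i) (h10 : 0 ≤ m - e - f) (h11 : 0 ≤ p - n - i - e - f) (h12 : 0 ≤ -1 + m + 2 * n) :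
    0 ≤ 47500000 * r - 348000000 * p + 196250000 * m + 180000000 * n + 212500000 * i - 87500000 * e - 120000000 * f + 95000000 * r * r - 401250000 * r * m - 327000000 * r * i + 163000000 * r * e + 190000000 * r * f + 568000000 * p * p - 300000000 * p * m + 330000000 * p * n + 330000000 * p * i + 330000000 * p * e + 330000000 * p * f + 843750000 * m * m - 300000000 * m * n + 120000000 * m * i - 165000000 * m * e - 285000000 * m * f - 276250000 * n * n - 552500000 * n * i - 252500000 * n * e - 252500000 * n * f - 276250000 * i * i - 552500000 * i * e - 552500000 * i * f - 276250000 * e * e - 552500000 * e * f - 276250000 * f * f + 485000000 * r * r * m - 10000000 * r * r * i - 200000000 * r * r * e - 190000000 * r * p * p + 190000000 * r * p * m - 1083750000 * r * m * m + 190000000 * r * m * n - 985000000 * r * m * i + 85000000 * r * m * e + 485000000 * r * m * f - 190000000 * r * n * e - 190000000 * r * n * f - 200000000 * p * p * p + 585000000 * p * p * m - 400000000 *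 p * p * n - 400000000 * p * p * i - 400000000 * p * p * e - 400000000 * p * p * f - 585000000 * p * m * m + 148750000 * p * n * n + 297500000 * p * n * i + 297500000 * p * n * e + 297500000 * p * n * f + 148750000 * p * i * i + 297500000 * p * i * e + 297500000 * p * i * f + 148750000 * p * e * e + 297500000 * p * e * f + 148750000 * p * f * f - 1316250000 * m * m * m - 585000000 * m * m * n + 220000000 * m * m * i + 805000000 * m * m * e + 585000000 * m * m * f + 585000000 * m * n * e + 585000000 * m * n * f - 195000000 * r * r * m * m + 675000000 * r * r * m * i - 675000000 * r * p * p * m + 1635000000 * r * p * m * m + 1518750000 * r * m * m * m + 675000000 * r * m * m * n - 675000000 * r * m * m * e - 675000000 * r * m * m * f - 675000000 * r * m * n * e - 675000000 * r * m * n * f := by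
  have t0 := part14_0 (n := n) h0 h1 h2 h4 h5 h6 h7 h8 h9 h10 h11 h12
  have t1 := part14_1 h0 h1 h2 h3 h4 h5 h6 h7 h8 h10 h11 h12
  have t2 := part14_2 (n := n) h0 h1 h2 h4 h5 h6 h7 h8 h9 h10 h11 h12
  have t3 := part14_3 (r := r) h1 h2 h3 h4 h5 h6 h7 h8 h10 h11 h12
  have t4 := part14_4 h0 h1 h2 h3 h4 h5 h6 h7 h8 h9 h10 h11 h12
  have t5 := part14_5 h0 h1 h2 h3 h4 h5 h6 h7 h8 h10 h11 h12
  have t6 := part14_6 (m := m) h0 h1 h3 h4 h5 h6 h7 h8 h10 h11 h12
  have t7 := part14_7 h0 h1 h2 h3 h4 h5 h6 h7 h8 h9 h10 h11 h12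
  have t8 := part14_8 h0 h1 h2 h3 h4 h5 h6 h7 h8 h10 h11 h12
  have t9 := part14_9 h0 h1 h2 h3 h4 h5 h6 h7 h8 h9 h10 h11 h12
  have t10 := part14_10 h0 h1 h2 h3 h4 h5 h6 h7 h8 h9 h10 h11 h12
  have t11 := part14_11 h0 h1 h2 h3 h4 h5 h6 h7 h8 h9 h10 h11 h12
  have t12 := part14_12 h0 h1 h2 h3 h4 h5 h6 h7 h8 h9 h11 h12
  have t13 := part14_13 h0 h1 h2 h3 h4 h5 h6 h7 h8 h9 h10 h11 h12
  have t14 := part14_14 h0 h1 h2 h3 h4 h5 h6 h7 h8 h9 h10 h11 h12
  have t15 := part14_15 h0 h1 h2 h3 h4 h5 h6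
  have t16 := part14_16 h0 h1 h2 h3 h4 h5 h6
  have t17 := part14_17 h1 h3 h4 h5 h6
  have t18 := part14_18 h0 h1 h2 h3 h4 h5 h6
  have t19 := part14_19 h0 h1 h2 h3 h4 h5 h6
  have t20 := part14_20 h1 h2 h3 h4 h5 h6
  have t21 := part14_21 h0 h1 h2 h3 h4 h5 h6
  have t22 := part14_22 h0 h1 h2 h4 h5 h6
  have t23 := part14_23 h0 h1 h2 h3 h4 h5 h6
  have t24 := part14_24 h0 h1 h3 h4 h5 h6
  have t25 := part14_25 h0 h1 h3 h4 h5 h6
  have t26 := part14_26 h0 h1 h3 h4 h5 h6
  have t27 := part14_27 h1 h3 h4 h5 h6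
  have t28 := part14_28 h1 h3 h4 h5 h6
  have t29 := part14_29 h0 h1 h3 h4 h6
  have t30 := part14_30 h0 h1 h3 h4 h5 h6
  have t31 := part14_31 h0 h1 h3 h4
  linarith only [t0, t1, t2, t3, t4, t5, t6, t7, t8, t9, t10, t11, t12, t13, t14, t15, t16, t17, t18, t19, t20, t21, t22, t23, t24, t25, t26, t27, t28, t29, t30, t31]

end Vale.Agent.P038.K4
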