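import Mathlib

/-
P038: one corner of the polynomial inequality for K4-free graphs (exact nonnegativity certificate).
-/

namespace Vale.Agent.P038.K4

private theorem part15_0 {r p m n i e f c7 c8 c9 c10 c11 c12 : ℝ} (hr : 0 ≤ r) (hp : 0 ≤ p) (hm : 0 ≤ m) (hn : 0 ≤ n) (hi : 0 ≤ i) (he : 0 ≤ e) (hf : 0 ≤ f) (hc7 : 0 ≤ c7) (hc8 : 0 ≤ c8) (hc9 : 0 ≤ c9) (hc10 : 0 ≤ c10) (hc11 : 0 ≤ c11) (hc12 : 0 ≤ c12) :
    0 ≤ 933762 * p * f * (-5 - 15 * r + 10 * p - 4 * m + 2 * i - e + f) ^ 2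
      + 126636 * c8 * (1 - 14 * r + 10 * p - 4 * m + n + e + f) ^ 2
      + 24786249 * r * m * f * c7
      + 426642 * i * c12 * (2 + 16 * r - 10 * p + 2 * m - 3 * n - e - f) ^ 2
      + 74591202 * e * f * c8
      + 1328679 * c7 * c7 * (8 - 10 * r + 9 * p - 10 * m + 8 * n + 2 * i - 2 * e - 2 * f) ^ 2
      + 11982114 * e * f * f * c12
      + 20225718 * c8 * c8
      + 127014 * c8 * c8 * (6 + 13 * r - 10 * p + n - e + 3 * f) ^ 2
      + 1484439 * c8 * (7 + 3 * r - 7 * p - 10 * m + 2 * e + 4 * f) ^ 2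
      + 4263954 * p * p * p * c7
      + 114826680 * r * p * e * c8
      + 5636145 * m * n * f * c8
      + 78864 * i * f * (2 - 11 * r + 8 * p + 2 * m + 6 * n - 8 * i - 3 * e + 10 * f) ^ 2
      + 1847091 * i * i * e * c10
      + 171429 * e * f * (-6 + 11 * r - 10 * p + m - 7 * n + 4 * i - 3 * e - f) ^ 2
      + 1330290 * m * n * e * c12
      + 272813691 * i * c11
      + 80401491 * p * p * e * c8
      + 38619318 * i * i * i * c9 := by positivity

private theorem part15_1 {r p m n i e f c7 c8 c9 c11 c12 : ℝ} (hr : 0 ≤ r) (hp : 0 ≤ p) (hm : 0 ≤ m) (hn : 0 ≤ n) (hi : 0 ≤ i) (he : 0 ≤ e) (hf : 0 ≤ f) (hc7 : 0 ≤ c7) (hc8 : 0 ≤ c8) (hc9 : 0 ≤ c9) (hc11 : 0 ≤ c11) (hc12 : 0 ≤ c12) :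
    0 ≤ 105342 * e * e * (3 + 6 * r - 4 * p - 7 * m + 10 * n - 3 * i - e + 9 * f) ^ 2
      + 19162314 * r * i * i * c11
      + 46193349 * p * n * f * c9
      + 51287118 * c11 * c12
      + 15675 * n * c12 * (3 + 16 * r - 10 * p + 6 * m - 4 * n) ^ 2
      + 127005864 * m * i * c7 * c7
      + 382269 * p * m * (-1 + 14 * r - 10 * p + 4 * m - 3 * n - 3 * i) ^ 2
      + 8220432 * i * i * i * c7
      + 239912154 * f * c11
      + 207687624 * p * c7 * c7 * c7
      + 3285 * c12 * (-8 - 18 * r + 10 * p - m + 8 * n - 2 * i + 2 * e + 4 * f) ^ 2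
      + 50460894 * p * p * f * c12
      + 287718 * p * e * (7 + 16 * r - 10 * p + 4 * m - n - i - e + f) ^ 2
      + 481998 * r * c11 * (6 - 18 * r + 8 * p - 10 * m - n + 2 * i + 2 * e + 4 * f) ^ 2
      + 33350979 * m * i * c12
      + 81015 * r * (-1 - 15 * r + 10 * p - 5 * m + 2 * n + 2 * i) ^ 2
      + 139536 * e * c11 * (9 + 15 * r - 5 * p + 10 * m + 5 * n + 6 * i + 10 * e + 6 * f) ^ 2
      + 92043 * r * f * (-3 - 11 * r + 7 * p + 7 * m - 3 * n + 2 * i - 3 * e + 10 * f) ^ 2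
      + 223331520 * r * p * i * c8
      + 246513 * p * e * (3 - 14 * r + 10 * p - 3 * m + 2 * n + 2 * i + 3 * e + f) ^ 2 := by positivity

private theorem part15_2 {r p m n i e f c7 c8 c10 c11 c12 : ℝ} (hr : 0 ≤ r) (hp : 0 ≤ p) (hm : 0 ≤ m) (hn : 0 ≤ n) (hi : 0 ≤ i) (he : 0 ≤ e) (hf : 0 ≤ f) (hc7 : 0 ≤ c7) (hc8 : 0 ≤ c8) (hc10 : 0 ≤ c10) (hc11 : 0 ≤ c11) (hc12 : 0 ≤ c12) :
    0 ≤ 38908449 * n * c7 * c8 * c12
      + 21938937 * r * i * f * c10
      + 318957 * p * p * (2 - r + 8 * p - m - 10 * n - 7 * i + f) ^ 2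
      + 228320796 * r * n * i * c8
      + 31255833 * m * n * f * c10
      + 16542855 * p * e * e * c8
      + 174497826 * m * n * c7 * c7
      + 127020036 * p * p * c8 * c11
      + 882810 * m * e * (-1 - 3 * r + 2 * p + 2 * m + 4 * n - 10 * i + 7 * e - 2 * f) ^ 2
      + 342375 * c7 * c8 * (7 + 4 * r - 3 * p - 7 * m + 10 * n - 5 * i) ^ 2
      + 4374987 * e * e * e * c12
      + 493998 * c8 * c8 * (-2 - 17 * r + 10 * p - 6 * m + 2 * n - 4 * i + 2 * f) ^ 2
      + 1521006 * e * c7 * (5 - 3 * r + 2 * p - 5 * m + 7 * n - 10 * i + 4 * e - 2 * f) ^ 2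
      + 133327134 * r * r * c7 * c7
      + 14833131 * c7 * c12
      + 15117813 * p * i * c11 * c12
      + 20155065 * f * f * f * c11
      + 110451 * n * f * (-3 + 3 * r - 2 * p + 3 * m - 10 * n + 3 * i - 2 * e + 8 * f) ^ 2
      + 448251348 * p * m * c7 * c12
      + 74276814 * m * n * n * c7 := by positivity

private theorem part15_3 {r p m n i e f c7 c8 c9 c10 c11 c12 : ℝ} (hr : 0 ≤ r) (hp : 0 ≤ p) (hm : 0 ≤ m) (hn : 0 ≤ n) (he : 0 ≤ e) (hf : 0 ≤ f) (hc7 : 0 ≤ c7) (hc8 : 0 ≤ c8) (hc9 : 0 ≤ c9) (hc10 : 0 ≤ c10) (hc11 : 0 ≤ c11) (hc12 : 0 ≤ c12) :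
    0 ≤ 29241687 * n * f * f * c12
      + 101271996 * m * c7 * c7 * c8
      + 92841912 * m * e * c12
      + 459255 * f * c8 * (-5 + 12 * r - 2 * p - 3 * m - 4 * i - e + 3 * f) ^ 2
      + 654690 * m * c8 * (-3 - 14 * r + 10 * p - n + 4 * i + e) ^ 2
      + 316185 * f * c10 * (4 + 8 * r - 7 * p - 2 * m + 2 * n - 2 * i + 6 * e - 10 * f) ^ 2
      + 22667121 * r * f * c8 * c9
      + 538926 * n * e * (2 - 11 * r + 10 * p - 2 * m - 2 * n + 7 * i + 4 * e + f) ^ 2
      + 6631503 * r * e * c12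
      + 745770 * c8 * c12
      + 84509544 * p * p * c8 * c8
      + 1230105 * f * (-6 * r + 2 * p - m + 3 * n + 10 * e + 3 * f) ^ 2
      + 15628212 * p * p * f * c7
      + 22279812 * m * e * c10 * c10
      + 29871660 * m * f * f * c11
      + 61607517 * p * c8 * c12
      + 684624 * e * c9 * (3 + 6 * r - 2 * p - 7 * m + 10 * n - i + 3 * e - f) ^ 2
      + 64482 * c10 * c12 * (6 + 16 * r - 8 * p + 10 * m - 7 * n + 6 * i + e) ^ 2
      + 250287 * p * c8 * (-1 - 9 * r + 2 * p + 10 * m - 7 * n + 9 * i + e - f) ^ 2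
      + 22089 * p * p * (-2 * p + 2 * n + 2 * i + 8 * e + 10 * f) ^ 2 := by positivity

private theorem part15_4 {r p m n i e f c7 c8 c10 c11 c12 : ℝ} (hr : 0 ≤ r) (hp : 0 ≤ p) (hm : 0 ≤ m) (hn : 0 ≤ n) (hi : 0 ≤ i) (he : 0 ≤ e) (hf : 0 ≤ f) (hc7 : 0 ≤ c7) (hc8 : 0 ≤ c8) (hc10 : 0 ≤ c10) (hc11 : 0 ≤ c11) (hc12 : 0 ≤ c12) :
    0 ≤ 70401 * e * f * (1 + r + m - i - 9 * e + 10 * f) ^ 2
      + 96279 * f * c12 * (10 + 16 * r - 6 * p + 9 * m - 6 * n + 6 * i + 3 * e + 5 * f) ^ 2
      + 77853 * i * c7 * (-2 - 15 * r + 10 * p - 5 * m + 3 * i - e + f) ^ 2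
      + 146074260 * p * i * c8
      + 16736304 * m * i * e * c11
      + 563695134 * i * e * c7
      + 42779976 * n * f * c12
      + 125046 * m * (-3 + 15 * r - 10 * p + 5 * m + n - 6 * i) ^ 2
      + 33764400 * i * e * f * c12
      + 107479191 * i * i * c7 * c10
      + 154018728 * i * e * c12
      + 32066661 * e * e * c12
      + 56021025 * n * i * c7 * c7
      + 7404678 * n * n * n * c11
      + 94644 * e * c12 * (5 - 12 * r + 8 * p - 5 * m + 10 * n - i - 10 * e + 3 * f) ^ 2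
      + 8632716 * n * n * c8 * c12
      + 109588245 * r * m * e * c12
      + 128799 * e * (10 - 6 * r + 5 * p + 9 * m - 4 * e + 4 * f) ^ 2
      + 4636815 * n * e * c12
      + 51503253 * f * f * c12 := by positivity

private theorem part15_5 {r p m n i e f c7 c8 c9 c12 : ℝ} (hr : 0 ≤ r) (hp : 0 ≤ p) (hm : 0 ≤ m) (hn : 0 ≤ n) (hi : 0 ≤ i) (he : 0 ≤ e) (hf : 0 ≤ f) (hc7 : 0 ≤ c7) (hc8 : 0 ≤ c8) (hc9 : 0 ≤ c9) (hc12 : 0 ≤ c12) :
    0 ≤ 80349072 * r * n * e * c7
      + 36633366 * p * p * c8 * c12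
      + 21995904 * p * n * e * c8
      + 437808 * c7 * (5 + 16 * r - 10 * p + 10 * m - 6 * n - 3 * i + e + f) ^ 2
      + 875052 * n * c7 * (10 * r - 5 * p + 10 * m - 5 * n + e + 3 * f) ^ 2
      + 112670910 * r * m * c8 * c12
      + 241555764 * m * e * c8
      + 42195075 * n * n * e * c8
      + 416376 * r * n * (3 - 14 * r + 10 * p - 4 * m - 4 * n + 10 * i) ^ 2
      + 107221425 * i * i * c7 * c7
      + 5758620 * i * i * f * c12
      + 278412 * m * f * (-10 - 5 * r - 4 * m + 2 * n - 6 * e + 7 * f) ^ 2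
      + 694023 * r * i * (-1 + 14 * r - 10 * p + 4 * m - 3 * n - 3 * i) ^ 2
      + 12594393 * n * i * f * c12
      + 264885 * i * i * (1 - 11 * r + 3 * p - 8 * m + 5 * n - 10 * i) ^ 2
      + 270668160 * r * r * c7 * c8
      + 6898155 * n * n * c9 * c9
      + 45765 * c8 * (-8 + 11 * r - 10 * p + m - n - 8 * i) ^ 2
      + 108028788 * m * m * m * c12
      + 929145 * r * e * (-2 + 8 * r + 2 * p - m - 5 * n + 5 * i - 4 * e + 3 * f) ^ 2 := by positivity

private theorem part15_6 {r p m n i e f c7 c8 c9 c10 c11 c12 : ℝ} (hr : 0 ≤ r) (hp : 0 ≤ p) (hm : 0 ≤ m) (hn : 0 ≤ n) (hi : 0 ≤ i) (he : 0 ≤ e) (hf : 0 ≤ f) (hc7 : 0 ≤ c7) (hc8 : 0 ≤ c8) (hc9 : 0 ≤ c9) (hc10 : 0 ≤ c10) (hc11 : 0 ≤ c11) (hc12 : 0 ≤ c12) :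
    0 ≤ 25039698 * i * i * c7 * c12
      + 20789922 * p * m * m * c11
      + 9549363 * i * f * c7
      + 5363703 * e * e * f * c9
      + 88275675 * e * c8
      + 12017679 * p * f * c10 * c12
      + 114402 * p * f * (10 - 4 * r + 4 * p - 5 * m + 5 * n + i + 5 * e - 2 * f) ^ 2
      + 1241694 * r * e * (10 - 2 * r + 2 * p - 8 * m - 2 * i - e + 3 * f) ^ 2
      + 161542020 * p * e * c8
      + 27920085 * p * n * i * c9
      + 108046695 * i * e * c7 * c12
      + 96109179 * p * e * e * c10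
      + 567394974 * p * c7 * c8
      + 159168 * p * c7 * (3 + 15 * r - 10 * p + 7 * m - n - 6 * i) ^ 2
      + 1990548 * c7 * c8 * (9 * r - 6 * p + 10 * m - n - 6 * i - 2 * e + f) ^ 2
      + 133149 * p * c8 * (1 - 3 * r + 2 * m - i - 9 * e + 10 * f) ^ 2
      + 1299 * i * f * (5 - 13 * r + 10 * p - 8 * m + 2 * n + 9 * i - 3 * f) ^ 2
      + 15470439 * n * n * c8 * c8
      + 146380956 * f * c9
      + 45400680 * r * r * c9 * c12 := by positivity

private theorem part15_7 {r p m n i e f c7 c8 c9 c10 c11 c12 : ℝ} (hr : 0 ≤ r) (hp : 0 ≤ p) (hm : 0 ≤ m) (hn : 0 ≤ n) (hi : 0 ≤ i) (he : 0 ≤ e) (hf : 0 ≤ f) (hc7 : 0 ≤ c7) (hc8 : 0 ≤ c8) (hc9 : 0 ≤ c9) (hc10 : 0 ≤ c10) (hc11 : 0 ≤ c11) (hc12 : 0 ≤ c12) :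
    0 ≤ 67039983 * m * f * f * c8
      + 138076101 * r * n * f * c8
      + 105638001 * i * c8 * c9
      + 232818 * p * f * (3 + 5 * r - 4 * p - 6 * m + n + 10 * i + 2 * e - 6 * f) ^ 2
      + 10606659 * p * e * c9
      + 135870690 * p * i * e * c11
      + 1392270 * m * c8 * (4 - 6 * r + 5 * p - m - 5 * n + 10 * i) ^ 2
      + 5056191 * n * n * f * c9
      + 164040087 * i * c7 * c7
      + 88554 * c10 * (-4 - 5 * r + 8 * p + 10 * m - 6 * n - 2 * i + 10 * e - 3 * f) ^ 2
      + 119607552 * i * i * f * c7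
      + 34451094 * r * n * c10 * c11
      + 322377285 * e * c11
      + 84571386 * r * p * n * c11
      + 45732885 * r * i * i * c9
      + 881004 * i * c8 * (-8 + 11 * r - 10 * p + m - 6 * n - 2 * i) ^ 2
      + 17033247 * m * n * i * c12
      + 159248103 * p * p * f * c8
      + 2761941 * i * i * f * c8
      + 16576791 * r * f * f * c8 := by positivity

private theorem part15_8 {r p m n i e f c7 c8 c9 c10 c11 c12 : ℝ} (hr : 0 ≤ r) (hp : 0 ≤ p) (hm : 0 ≤ m) (hn : 0 ≤ n) (hi : 0 ≤ i) (he : 0 ≤ e) (hf : 0 ≤ f) (hc7 : 0 ≤ c7) (hc8 : 0 ≤ c8) (hc9 : 0 ≤ c9) (hc10 : 0 ≤ c10) (hc11 : 0 ≤ c11) (hc12 : 0 ≤ c12) :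
    0 ≤ 64893 * c7 * c12 * (10 + 8 * r - 3 * p + 5 * m + 6 * n - 5 * i + 3 * e) ^ 2
      + 1977015 * r * n * n * c11
      + 66527706 * m * i * c8 * c9
      + 116559399 * r * i * e * c12
      + 110893605 * r * f * c7
      + 14077998 * n * n * i * c11
      + 101964243 * r * r * c7 * c12
      + 3019899 * p * n * f * c12
      + 17364537 * n * n * f * c10
      + 135584088 * m * e * e * c8
      + 469470 * c11 * (8 - 4 * r - 4 * p - 10 * m + 9 * n - e + f) ^ 2
      + 16979178 * p * m * f * c10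
      + 77122539 * p * m * i * c7
      + 153903 * f * c10 * (-2 + 19 * r - 10 * p + 9 * m - 6 * n + i + 3 * e + 6 * f) ^ 2
      + 171560172 * p * f * c8
      + 335058 * i * (-4 + 13 * r - 10 * p + 3 * m - 3 * n - 3 * i) ^ 2
      + 70849182 * r * c8 * c11 * c12
      + 795960 * p * c10 * (-1 + 14 * r - 10 * p + 4 * m - 3 * n - 3 * i) ^ 2
      + 3375894 * m * m * e * c9
      + 480252 * m * n * (3 - 14 * r + 10 * p - 4 * m - 4 * n + 10 * i) ^ 2 := by positivity

private theorem part15_9 {r p m n i e f c7 c8 c9 c10 c11 c12 : ℝ} (hr : 0 ≤ r) (hp : 0 ≤ p) (hm : 0 ≤ m) (hn : 0 ≤ n) (hi : 0 ≤ i) (he : 0 ≤ e) (hf : 0 ≤ f) (hc7 : 0 ≤ c7) (hc8 : 0 ≤ c8) (hc9 : 0 ≤ c9) (hc10 : 0 ≤ c10) (hc11 : 0 ≤ c11) (hc12 : 0 ≤ c12) :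
    0 ≤ 524118 * e * f * (10 + 5 * r - m + 2 * n + 5 * i + 5 * e + f) ^ 2
      + 64186518 * c7 * c7
      + 112116930 * m * e * c7 * c8
      + 85528938 * m * m * f * c7
      + 35276379 * m * e * e * c12
      + 274494 * n * i * i * c12
      + 76207914 * n * c9 * c11
      + 64424730 * c7 * c10 * c11
      + 474 * (2 - 14 * r + 10 * p - 4 * m + 3 * n + 3 * i - 6 * r * r - 8 * r * m - 3 * r * n - 3 * r * i + 2 * p * p + 4 * p * m + 3 * p * n + 3 * p * i - 4 * m * m + 2 * n * n + 2 * n * i + 2 * i * i) ^ 2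
      + 234064764 * m * i * e * c8
      + 193275 * r * c11 * (2 - 7 * r + 6 * p + 5 * m - 7 * n + 4 * i + 8 * e - 10 * f) ^ 2
      + 20146239 * n * f * c7 * c12
      + 32293836 * n * n * e * c12
      + 12287229 * i * i * c7
      + 24549909 * n * f * f * c10
      + 116835 * c9 * (-5 + 15 * r - 10 * p + 6 * m - 2 * n - i + f) ^ 2
      + 43005882 * n * i * f * c10
      + 13683297 * e * f * f * c8
      + 203821017 * m * m * c8 * c9
      + 89563920 * p * m * e * c8 := by positivity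

private theorem part15_10 {r p m n i e f c7 c8 c9 c10 c11 c12 : ℝ} (hr : 0 ≤ r) (hp : 0 ≤ p) (hm : 0 ≤ m) (hn : 0 ≤ n) (hi : 0 ≤ i) (he : 0 ≤ e) (hf : 0 ≤ f) (hc7 : 0 ≤ c7) (hc8 : 0 ≤ c8) (hc9 : 0 ≤ c9) (hc10 : 0 ≤ c10) (hc11 : 0 ≤ c11) (hc12 : 0 ≤ c12) :
    0 ≤ 146536431 * r * r * i * c8
      + 501930 * r * i * (1 - r - p + 9 * e - 10 * f) ^ 2
      + 5155590 * i * i * i * c10
      + 102941523 * m * m * f * c12
      + 93882639 * n * e * e * c8
      + 48534783 * f * c8 * c12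
      + 21569466 * n * i * i * c10
      + 34316655 * p * p * m * c11
      + 37806372 * m * c7 * c12
      + 133166841 * r * r * i * c11
      + 19038690 * r * p * c7
      + 61187454 * r * n * c11
      + 109210980 * m * e * e * c7
      + 59692401 * m * f * c9
      + 718377 * r * f * (-2 + 17 * r - 10 * p + 7 * m - 4 * n + 3 * f) ^ 2
      + 217665984 * r * r * c11
      + 85948047 * p * m * c8 * c12
      + 42757827 * r * r * e * c9
      + 46328277 * n * e * e * c12
      + 394251 * p * c8 * (7 - 11 * r + 10 * p - m + 6 * n + 3 * i) ^ 2 := by positivity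

private theorem part15_11 {r p m n i e f c7 c8 c9 c11 c12 : ℝ} (hr : 0 ≤ r) (hp : 0 ≤ p) (hm : 0 ≤ m) (hn : 0 ≤ n) (hi : 0 ≤ i) (he : 0 ≤ e) (hf : 0 ≤ f) (hc7 : 0 ≤ c7) (hc8 : 0 ≤ c8) (hc9 : 0 ≤ c9) (hc11 : 0 ≤ c11) (hc12 : 0 ≤ c12) :
    0 ≤ 65125137 * e * f * c7 * c7
      + 68502657 * i * f * c12
      + 39752979 * c11 * c11 * c11
      + 30026010 * i * i * c8
      + 8105889 * r * f * c9 * c12
      + 33327033 * p * n * e * c7
      + 95046 * c11 * (-8 + 18 * r - 10 * p + 5 * m - 3 * n + e + 3 * f) ^ 2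
      + 47292378 * n * c8 * c9
      + 234135 * p * n * (-3 * p + 3 * n + 3 * i - 9 * e + 10 * f) ^ 2
      + 329205 * c8 * c8 * (-3 - r - p + 5 * m - 5 * n - 10 * i - 3 * e + 4 * f) ^ 2
      + 109083 * f * c12 * (-10 + 6 * r - 5 * p + 7 * m + n - 8 * i + 7 * e - 5 * f) ^ 2
      + 47502096 * m * m * m * c11
      + 210687 * e * (-4 + 2 * r + 2 * m - 10 * n + 4 * i + 2 * e + 8 * f) ^ 2
      + 17064333 * m * m * f * c11
      + 47941449 * m * m * c11 * c12
      + 109025139 * m * c7 * c7 * c7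
      + 15131166 * p * n * c11 * c11
      + 73834584 * r * n * i * c12
      + 104116035 * e * f * c12
      + 10770345 * f * f * c7 * c9 := by positivity

private theorem part15_12 {r p m n i e f c7 c8 c9 c10 c11 c12 : ℝ} (hr : 0 ≤ r) (hp : 0 ≤ p) (hm : 0 ≤ m) (hn : 0 ≤ n) (hi : 0 ≤ i) (he : 0 ≤ e) (hf : 0 ≤ f) (hc7 : 0 ≤ c7) (hc8 : 0 ≤ c8) (hc9 : 0 ≤ c9) (hc10 : 0 ≤ c10) (hc11 : 0 ≤ c11) (hc12 : 0 ≤ c12) :
    0 ≤ 46769271 * c7 * c11
      + 36366 * n * f * (1 - 9 * r + 6 * p + m - 4 * n + 3 * i - e + 10 * f) ^ 2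
      + 39590076 * r * r * i * c10
      + 136708161 * m * m * m * c7
      + 11381652 * m * i * c11
      + 42360594 * p * c11
      + 344298 * c7
      + 1835184 * r * m * (6 - 9 * r - p - 5 * m - 3 * n - 7 * i + 8 * e + 5 * f) ^ 2
      + 253780449 * p * n * i * c7
      + 7022523 * i * i * c12
      + 432168513 * p * m * c7
      + 15035001 * r * p * i * c11
      + 236150031 * p * m * c7 * c8
      + 105308535 * n * f * c7
      + 62572665 * p * p * i * c11
      + 32056002 * n * i * f * c7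
      + 27050211 * p * i * i * c12
      + 115992204 * p * f * c7
      + 24542817 * i * e * e * c12
      + 8165388 * i * f * f * c9 := by positivity

private theorem part15_13 {r p m n i e f c7 c8 c9 c12 : ℝ} (hr : 0 ≤ r) (hp : 0 ≤ p) (hm : 0 ≤ m) (hn : 0 ≤ n) (hi : 0 ≤ i) (he : 0 ≤ e) (hf : 0 ≤ f) (hc7 : 0 ≤ c7) (hc8 : 0 ≤ c8) (hc9 : 0 ≤ c9) (hc12 : 0 ≤ c12) :
    0 ≤ 41814120 * n * i * e * c12
      + 417882 * e * c8 * (-10 + 13 * r - 8 * p - m + 2 * n - 6 * i - 4 * e + 4 * f) ^ 2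
      + 16277004 * m * c9 * c12
      + 4947234 * p * n * c9 * c12
      + 87565065 * r * c8 * c8
      + 22385343 * e * e * e * c7
      + 85371855 * r * e * f * c8
      + 183498 * r * r * (-6 * r + 7 * p + 6 * m - 7 * n - 7 * i + 10 * e - 10 * f) ^ 2
      + 2539 * r
      + 2386 * r * m
      + 3551 * r * m * m
      + 2915 * r * r * i
      + 2024 * r * p * p
      + 3620 * r * r
      + 3490 * r * p * m
      + 3170 * r * r * m
      + 3085 * m
      + 2829 * m * m
      + 2847 * r * i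
      + 2437 * p * p := by positivity

private theorem part15_14 {r p m n i e f : ℝ} (hr : 0 ≤ r) (hp : 0 ≤ p) (hm : 0 ≤ m) (hn : 0 ≤ n) (hi : 0 ≤ i) (he : 0 ≤ e) (hf : 0 ≤ f) :
    0 ≤ 2739 * p * m
      + 2922 * m * m * m
      + 1967 * r * m * i
      + 2760 * p * p * m
      + 3297 * p * m * m
      + 3435 * r * m * m * m
      + 3489 * r * r * m * i
      + 3063 * r * p * p * m
      + 2559 * r * p * m * m
      + 3390 * r * r * m * m
      + 3543 * p
      + 2744 * n
      + 3594 * p * n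
      + 3058 * i
      + 3210 * p * i
      + 2929 * e
      + 2916 * p * e
      + 2724 * f
      + 3138 * p * f
      + 3158 * n * n := by positivity

private theorem part15_15 {p n i e f : ℝ} (hp : 0 ≤ p) (hn : 0 ≤ n) (hi : 0 ≤ i) (he : 0 ≤ e) (hf : 0 ≤ f) :
    0 ≤ 2746 * n * i
      + 3040 * n * e
      + 3259 * n * f
      + 2969 * i * i
      + 140187940 * i * e
      + 216668119 * i * f
      + 20973533 * e * e
      + 3373 * e * f
      + 27900104 * f * f
      + 2767 * p * n * n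
      + 3059 * p * n * i
      + 2951 * p * n * e
      + 3194 * p * n * f
      + 3097 * p * i * i
      + 76596356 * p * i * e
      + 2891 * p * i * f
      + 2464 * p * e * e
      + 3281 * p * e * f
      + 16919125 * p * f * f
      + 3538 * p * p * p := by positivity

private theorem part15_16 {r p m n i e f : ℝ} (hr : 0 ≤ r) (hp : 0 ≤ p) (hm : 0 ≤ m) (hn : 0 ≤ n) (hi : 0 ≤ i) (he : 0 ≤ e) (hf : 0 ≤ f) :
    0 ≤ 2711 * p * p * n
      + 2312 * p * p * i
      + 3509 * p * p * e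
      + 3125 * p * p * f
      + 3073
      + 3363 * r * e
      + 3129 * m * i
      + 3225 * m * e
      + 3049 * r * r * e
      + 3230 * r * m * e
      + 2962 * m * m * i
      + 3196 * m * m * e
      + 2787 * p * m * m * m
      + 2880 * p * m * m * n
      + 2511 * r * p * f
      + 2844 * p * m * f
      + 253183860 * r * r * p * f
      + 3060 * r * p * p * f
      + 3567 * r * p * m * f
      + 2970 * r * p * i * f := by positivity

private theorem part15_17 {r p m n i e f : ℝ} (hr : 0 ≤ r) (hp : 0 ≤ p) (hm : 0 ≤ m) (hn : 0 ≤ n) (hi : 0 ≤ i) (he : 0 ≤ e) (hf : 0 ≤ f) :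
    0 ≤ 1371 * r * p * e * f
      + 2682 * r * p * f * f
      + 3027 * p * p * p * f
      + 2835 * p * p * m * f
      + 123514953 * p * p * i * f
      + 3315 * p * p * e * f
      + 3165 * p * p * f * f
      + 3363 * p * m * m * f
      + 51894309 * p * m * i * f
      + 32221671 * p * m * e * f
      + 2892 * p * m * f * f
      + 3183 * p * i * i * f
      + 111576582 * p * i * e * f
      + 6873420 * p * i * f * f
      + 2568 * p * e * e * f
      + 2628 * p * e * f * f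
      + 2952 * p * f * f * f
      + 2874 * r * p
      + 2292 * r * n
      + 3360 * r * f := by positivity

private theorem part15_18 {r p m n e f : ℝ} (hr : 0 ≤ r) (hp : 0 ≤ p) (hm : 0 ≤ m) (hn : 0 ≤ n) (he : 0 ≤ e) (hf : 0 ≤ f) :
    0 ≤ 3447 * r * r * r
      + 3159 * r * r * p
      + 2244 * r * r * n
      + 3867 * r * p * n
      + 1902 * r * p * e
      + 2718 * r * r * f
      + 3351 * m * n
      + 3360 * r * m * n
      + 2367 * p * m * n
      + 2295 * p * m * e
      + 3243 * m * f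
      + 13898733 * r * m * f
      + 3675 * r * n * n
      + 3174 * r * n * e
      + 3033 * r * n * f
      + 4115025 * r * e * e
      + 2457 * r * e * f
      + 2712 * r * f * f
      + 2199 * r * r * m * f
      + 2520 * r * m * m * f := by positivity

private theorem part15_19 {r p m n i e f : ℝ} (hr : 0 ≤ r) (hp : 0 ≤ p) (hm : 0 ≤ m) (hn : 0 ≤ n) (hi : 0 ≤ i) (he : 0 ≤ e) (hf : 0 ≤ f) :
    0 ≤ 3483 * r * n * i
      + 3189 * m * n * i
      + 2967 * n * n * i
      + 3132 * n * i * e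
      + 3231 * n * i * f
      + 2946 * r * r * n * i
      + 2436 * r * p * n * i
      + 3636 * r * p * i
      + 2703 * r * p * m * i
      + 3456 * r * m * n * i
      + 3213 * r * m * m * i
      + 2745 * r * n * n * i
      + 2760 * r * n * i * e
      + 3924 * r * i * e
      + 3306 * r * m * i * e
      + 2508 * r * n * i * f
      + 3027 * r * i * f
      + 80198058 * r * m * i * f
      + 3207 * p * p * n * i
      + 3156 * p * p * m * i := by positivity

private theorem part15_20 {p m n i e f : ℝ} (hp : 0 ≤ p) (hm : 0 ≤ m) (hn : 0 ≤ n) (hi : 0 ≤ i) (he : 0 ≤ e) (hf : 0 ≤ f) :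
    0 ≤ 3105 * p * m * n * i
      + 2610 * p * m * m * i
      + 3147 * p * n * n * i
      + 3006 * p * n * i * e
      + 131998425 * p * m * i * e
      + 3447 * p * n * i * f
      + 3138 * m * m * n * i
      + 10842108 * m * m * m * i
      + 2802 * m * n * n * i
      + 3606 * m * n * i * e
      + 373105857 * m * m * i * e
      + 2781 * m * n * i * f
      + 32480481 * m * m * i * f
      + 3018 * n * n * n * i
      + 3246 * n * n * i * e
      + 3099 * n * n * i * f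
      + 3330 * n * i * e * e
      + 177454020 * i * e * e
      + 3726 * m * i * e * e
      + 3090 * n * i * e * f := by positivity

private theorem part15_21 {r p m n i e f : ℝ} (hr : 0 ≤ r) (hp : 0 ≤ p) (hm : 0 ≤ m) (hn : 0 ≤ n) (hi : 0 ≤ i) (he : 0 ≤ e) (hf : 0 ≤ f) :
    0 ≤ 238986984 * i * e * f
      + 78947952 * m * i * e * f
      + 3210 * n * i * f * f
      + 130759896 * i * f * f
      + 3120 * m * i * f * f
      + 3123 * m * m * n
      + 201610497 * m * m * f
      + 2529 * r * r * r * r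
      + 2688 * r * r * r * p
      + 2565 * r * r * p * m
      + 3471 * r * r * r * n
      + 3855 * r * r * m * n
      + 2631 * r * r * r * i
      + 56678781 * r * r * r * e
      + 471783159 * r * r * m * e
      + 3747 * r * r * r * f
      + 3426 * r * r * p * p
      + 2931 * p * p * m * m
      + 2754 * r * r * p * n
      + 1809 * r * p * m * n := by positivity

private theorem part15_22 {r p m n i e f : ℝ} (hr : 0 ≤ r) (hp : 0 ≤ p) (hm : 0 ≤ m) (hn : 0 ≤ n) (hi : 0 ≤ i) (he : 0 ≤ e) (hf : 0 ≤ f) :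
    0 ≤ 3030 * r * r * p * i
      + 2388 * r * r * p * e
      + 3090 * r * p * m * e
      + 7309803 * p * m * m * e
      + 3153 * m * m * m * m
      + 3711 * r * m * m * n
      + 2961 * m * m * m * n
      + 2565 * r * m * m * e
      + 96172203 * m * m * m * e
      + 2859 * m * m * m * f
      + 3534 * r * r * n * n
      + 2652 * r * m * n * n
      + 2871 * m * m * n * n
      + 2409 * r * r * n * e
      + 3084 * r * m * n * e
      + 3318 * m * m * n * e
      + 2895 * r * r * n * f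
      + 3225 * r * m * n * f
      + 3168 * m * m * n * f
      + 3228 * r * r * i * i := by positivity

private theorem part15_23 {r p m n i e f : ℝ} (hr : 0 ≤ r) (hp : 0 ≤ p) (hm : 0 ≤ m) (hn : 0 ≤ n) (hi : 0 ≤ i) (he : 0 ≤ e) (hf : 0 ≤ f) :
    0 ≤ 3012 * r * m * i * i
      + 3075 * m * m * i * i
      + 2946 * r * r * i * e
      + 3159 * r * r * i * f
      + 3369 * r * r * e * e
      + 3069 * r * m * e * e
      + 3018 * m * m * e * e
      + 4059 * r * r * e * f
      + 3816 * r * m * e * f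
      + 34008921 * m * m * e * f
      + 3402 * r * r * f * f
      + 3630 * r * m * f * f
      + 3003 * m * m * f * f
      + 2913 * n * e * f * f
      + 1599750 * e * f * f
      + 105249726 * m * e * f * f
      + 3273 * r * p * p * p
      + 2988 * r * p * p * n
      + 3477 * r * p * p * e
      + 2835 * p * p * p * p := by positivity

private theorem part15_24 {r p m n i e f : ℝ} (hr : 0 ≤ r) (hp : 0 ≤ p) (hm : 0 ≤ m) (hn : 0 ≤ n) (hi : 0 ≤ i) (he : 0 ≤ e) (hf : 0 ≤ f) :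
    0 ≤ 2853 * p * p * p * n
      + 2889 * p * p * p * e
      + 2511 * r * p * n * n
      + 3177 * p * p * n * n
      + 3537 * r * p * n * e
      + 2814 * p * p * n * e
      + 3288 * r * p * n * f
      + 2916 * p * p * n * f
      + 2433 * r * p * e * e
      + 45030492 * p * p * e * e
      + 3210 * p * p * p * m
      + 2682 * m * n * f
      + 2859 * p * m * n * f
      + 3135 * m * i * f
      + 125560824 * i * i * f
      + 2946 * r * i * i * f
      + 3513 * r * i * e * f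
      + 3177 * r * i * f * f
      + 2916 * m * i * i * f
      + 3045 * n * i * i * f := by positivity

private theorem part15_25 {r p m n i e f : ℝ} (hr : 0 ≤ r) (hp : 0 ≤ p) (hm : 0 ≤ m) (hn : 0 ≤ n) (hi : 0 ≤ i) (he : 0 ≤ e) (hf : 0 ≤ f) :
    0 ≤ 3075 * i * i * i * f
      + 3183 * i * i * e * f
      + 22272417 * i * i * f * f
      + 19746039 * i * e * e * f
      + 25853838 * i * e * f * f
      + 26751210 * i * f * f * f
      + 2892 * m * i * i * e
      + 18558885 * i * i * e * e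
      + 3021 * m * e * f
      + 3438 * n * e * f
      + 3417 * e * e * f
      + 3450 * r * n * e * f
      + 121304622 * r * e * e * f
      + 55980024 * r * e * f * f
      + 2670 * p * n * e * f
      + 3405 * m * n * e * f
      + 3750 * m * e * e * f
      + 3096 * n * n * e * f
      + 3543 * n * e * e * f
      + 25013571 * e * e * e * f := by positivity

private theorem part15_26 {r p m n i e f : ℝ} (hr : 0 ≤ r) (hp : 0 ≤ p) (hm : 0 ≤ m) (hn : 0 ≤ n) (hi : 0 ≤ i) (he : 0 ≤ e) (hf : 0 ≤ f) :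
    0 ≤ 3435 * e * e * f * f
      + 22200030 * e * f * f * f
      + 3480 * m * n * n * e
      + 2739 * m * n * e
      + 2970 * i * i * i
      + 3237 * m * i * i * i
      + 65104026 * n * i * i * i
      + 12128922 * i * i * i * i
      + 124934019 * m * e * e
      + 3357 * n * e * e
      + 72945072 * e * e * e
      + 2811 * r * n * e * e
      + 259142889 * r * i * e * e
      + 1279155 * r * e * e * e
      + 2745 * p * m * e * e
      + 3282 * p * n * e * e
      + 102581658 * p * i * e * e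
      + 71539020 * p * e * e * e
      + 3363 * m * n * e * e
      + 3060 * m * e * e * e := by positivity

private theorem part15_27 {r p m n i e f : ℝ} (hr : 0 ≤ r) (hp : 0 ≤ p) (hm : 0 ≤ m) (hn : 0 ≤ n) (hi : 0 ≤ i) (he : 0 ≤ e) (hf : 0 ≤ f) :
    0 ≤ 3606 * n * n * e * e
      + 3030 * n * e * e * e
      + 36227484 * i * e * e * e
      + 13848258 * e * e * e * e
      + 2571 * r * p * i * i
      + 2961 * r * n * i * i
      + 3279 * r * i * i * i
      + 3342 * r * i * i * e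
      + 2871 * p * n * n * f
      + 3090 * m * n * n
      + 2799 * n * n * n
      + 2796 * r * n * n * n
      + 3465 * p * p * m * n
      + 2931 * p * m * n * n
      + 3153 * p * n * n * n
      + 3018 * m * n * n * n
      + 3027 * n * n * n * n
      + 3339 * p * m * i
      + 2880 * p * m * i * i
      + 3072 * n * n * e := by positivity

private theorem part15_28 {r p m n i e f : ℝ} (hr : 0 ≤ r) (hp : 0 ≤ p) (hm : 0 ≤ m) (hn : 0 ≤ n) (hi : 0 ≤ i) (he : 0 ≤ e) (hf : 0 ≤ f) :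
    0 ≤ 2856 * n * n * f
      + 3000 * n * i * i
      + 3099 * m * i * i
      + 3399 * m * i * e
      + 3393 * n * f * f
      + 3228 * m * f * f
      + 4042269 * r * p * i * e
      + 97421793 * p * p * m * e
      + 3123 * p * p * i * e
      + 2853 * p * m * n * e
      + 2199 * p * n * n * e
      + 146147352 * p * i * i * e
      + 3153 * r * i * i
      + 2823 * r * p * p * i
      + 4230 * r * n * n * e
      + 3267 * r * n * n * f
      + 2343 * r * n * f * f
      + 3354 * r * f * f * f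
      + 109249221 * i * i * e
      + 2538 * n * n * n * e := by positivity

private theorem part15_29 {r p m n i e f : ℝ} (hr : 0 ≤ r) (hp : 0 ≤ p) (hm : 0 ≤ m) (hn : 0 ≤ n) (hi : 0 ≤ i) (he : 0 ≤ e) (hf : 0 ≤ f) :
    0 ≤ 3108 * n * i * i * e
      + 10863510 * i * i * i * e
      + 3039 * p * p * p * i
      + 62833740 * p * p * i * i
      + 2898 * m * n * f * f
      + 2688 * r * r * r * m
      + 3078 * p * n * i * i
      + 2994 * n * f * f * f
      + 57314073 * f * f * f * f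
      + 3420 * p * n * f * f
      + 3135 * m * n * n * f
      + 2895 * n * n * n * f
      + 2991 * n * n * f * f
      + 2816187 * f * f * f
      + 3205338 * m * f * f * f
      + 2982 * m * n * i * i
      + 19411428 * p * i * i * i
      + 3042 * n * n * i * i := by positivity

theorem leaf15 {r p m n i e f : ℝ} (h0 : 0 ≤ r) (h1 : 0 ≤ p) (h2 : 0 ≤ m) (h3 : 0 ≤ n) (h4 : 0 ≤ i) (h5 : 0 ≤ e) (h6 : 0 ≤ f) (h7 : 0 ≤ r - m) (h8 : 0 ≤ 1 - r - p) (h9 : 0 ≤ 1 - m - n - i) (h10 : 0 ≤ m - e - f) (h11 : 0 ≤ p - n - i - e - f) (h12 : 0 ≤ -1 + m + 2 * n) :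
    0 ≤ 107500000 + 47500000 * r - 348000000 * p - 211250000 * m + 72500000 * n + 212500000 * i + 212500000 * e + 180000000 * f + 95000000 * r * r - 211250000 * r * m - 327000000 * r * i - 27000000 * r * e + 568000000 * p * p - 300000000 * p * m + 330000000 * p * n + 330000000 * p * i + 330000000 * p * e + 330000000 * p * f + 558750000 * m * m + 120000000 * m * i + 120000000 * m * e - 276250000 * n * n - 552500000 * n * i - 552500000 * n * e - 552500000 * n * f - 276250000 * i * i - 552500000 * i * e - 552500000 * i * f - 276250000 * e * e - 552500000 * e * f - 276250000 * f * f + 485000000 * r * r * m - 10000000 * r * r * i - 200000000 * r * r * e - 190000000 * r * p * p + 190000000 * r * p * m - 598750000 * r * m * m - 985000000 * r * m * i - 400000000 * r * m * e - 200000000 * p * p * p + 585000000 * p * p * m - 400000000 * p * p * n - 400000000 * p * p * i - 400000000 * p * p * e - 400000000 * p * p * f - 105000000 * p * m * m + 148750000 * p *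 n * n + 297500000 * p * n * i + 297500000 * p * n * e + 297500000 * p * n * f + 148750000 * p * i * i + 297500000 * p * i * e + 297500000 * p * i * f + 148750000 * p * e * e + 297500000 * p * e * f + 148750000 * p * f * f - 731250000 * m * m * m + 220000000 * m * m * i + 220000000 * m * m * e - 195000000 * r * r * m * m + 675000000 * r * r * m * i - 675000000 * r * p * p * m + 1635000000 * r * p * m * m + 843750000 * r * m * m * m - 480000000 * p * m * m * m - 480000000 * p * m * m * n := by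
  have t0 := part15_0 h0 h1 h2 h3 h4 h5 h6 h7 h8 h9 h10 h11 h12
  have t1 := part15_1 h0 h1 h2 h3 h4 h5 h6 h7 h8 h9 h11 h12
  have t2 := part15_2 h0 h1 h2 h3 h4 h5 h6 h7 h8 h10 h11 h12
  have t3 := part15_3 (i := i) h0 h1 h2 h3 h5 h6 h7 h8 h9 h10 h11 h12
  have t4 := part15_4 h0 h1 h2 h3 h4 h5 h6 h7 h8 h10 h11 h12
  have t5 := part15_5 h0 h1 h2 h3 h4 h5 h6 h7 h8 h9 h12
  have t6 := part15_6 h0 h1 h2 h3 h4 h5 h6 h7 h8 h9 h10 h11 h12
  have t7 := part15_7 h0 h1 h2 h3 h4 h5 h6 h7 h8 h9 h10 h11 h12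
  have t8 := part15_8 h0 h1 h2 h3 h4 h5 h6 h7 h8 h9 h10 h11 h12
  have t9 := part15_9 h0 h1 h2 h3 h4 h5 h6 h7 h8 h9 h10 h11 h12
  have t10 := part15_10 h0 h1 h2 h3 h4 h5 h6 h7 h8 h9 h10 h11 h12
  have t11 := part15_11 h0 h1 h2 h3 h4 h5 h6 h7 h8 h9 h11 h12
  have t12 := part15_12 h0 h1 h2 h3 h4 h5 h6 h7 h8 h9 h10 h11 h12
  have t13 := part15_13 h0 h1 h2 h3 h4 h5 h6 h7 h8 h9 h12
  have t14 := part15_14 h0 h1 h2 h3 h4 h5 h6
  have t15 := part15_15 h1 h3 h4 h5 h6
  have t16 := part15_16 h0 h1 h2 h3 h4 h5 h6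
  have t17 := part15_17 h0 h1 h2 h3 h4 h5 h6
  have t18 := part15_18 h0 h1 h2 h3 h5 h6
  have t19 := part15_19 h0 h1 h2 h3 h4 h5 h6
  have t20 := part15_20 h1 h2 h3 h4 h5 h6
  have t21 := part15_21 h0 h1 h2 h3 h4 h5 h6
  have t22 := part15_22 h0 h1 h2 h3 h4 h5 h6
  have t23 := part15_23 h0 h1 h2 h3 h4 h5 h6
  have t24 := part15_24 h0 h1 h2 h3 h4 h5 h6
  have t25 := part15_25 h0 h1 h2 h3 h4 h5 h6
  have t26 := part15_26 h0 h1 h2 h3 h4 h5 h6
  have t27 := part15_27 h0 h1 h2 h3 h4 h5 h6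
  have t28 := part15_28 h0 h1 h2 h3 h4 h5 h6
  have t29 := part15_29 h0 h1 h2 h3 h4 h5 h6
  linarith only [t0, t1, t2, t3, t4, t5, t6, t7, t8, t9, t10, t11, t12, t13, t14, t15, t16, t17, t18, t19, t20, t21, t22, t23, t24, t25, t26, t27, t28, t29]

end Vale.Agent.P038.K4
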