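import Mathlib

/-
P038: one corner of the polynomial inequality for K4-free graphs (exact nonnegativity certificate).
-/

namespace Vale.Agent.P038.K4

private theorem part16_0 {r p m n i e f c7 c8 c10 c11 c12 : ℝ} (hr : 0 ≤ r) (hp : 0 ≤ p) (hm : 0 ≤ m) (hn : 0 ≤ n) (hi : 0 ≤ i) (he : 0 ≤ e) (hf : 0 ≤ f) (hc7 : 0 ≤ c7) (hc8 : 0 ≤ c8) (hc10 : 0 ≤ c10) (hc11 : 0 ≤ c11) (hc12 : 0 ≤ c12) :
    0 ≤ 16560 * r * c7
      + 244798692 * i * c11
      + 15477 * e * c10 * (1 - 5 * r - 5 * m + 8 * n - 10 * i + 6 * e + 8 * f) ^ 2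
      + 44796471 * n * n * i * c8
      + 28087947 * p * m * e * c11
      + 203250 * i * f * (16 * r - 10 * p + 5 * m - n - 5 * i - 3 * e + 4 * f) ^ 2
      + 11509599 * m * m * n * c11
      + 36907344 * m * n * e * c12
      + 31885194 * i * i * i * c10
      + 83127 * c11 * c12 * (-3 - 15 * r + 10 * p - 4 * m - 3 * n - f) ^ 2
      + 357567 * c8 * c11 * (2 + 13 * r - 10 * p + m + n + i + e + 2 * f) ^ 2
      + 2166423 * p * e * f * c10
      + 9914286 * i * i * f * c10
      + 166638 * r * p * (-3 - 16 * r + 10 * p - 6 * m + 2 * n + 2 * i) ^ 2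
      + 137202 * e * c12 * (10 + r + 8 * p - 6 * m - 2 * n - 2 * i - 4 * e + 4 * f) ^ 2
      + 114179988 * p * f * c7 * c10
      + 241899 * e * c8 * (-2 + 10 * r - 6 * m + 6 * n - 10 * i + 4 * e + f) ^ 2
      + 72848688 * m * i * c8 * c8
      + 144513 * m * n * (1 - 7 * r + 3 * p + 6 * m - 10 * n + 2 * i + 6 * e + 3 * f) ^ 2
      + 15339 * c12 * (10 + 5 * r - p + m - 9 * n - 9 * i + 6 * e + 3 * f) ^ 2 := by positivity

private theorem part16_1 {r p m n i e f c7 c8 c9 c10 c11 c12 : ℝ} (hr : 0 ≤ r) (hp : 0 ≤ p) (hm : 0 ≤ m) (hn : 0 ≤ n) (hi : 0 ≤ i) (he : 0 ≤ e) (hf : 0 ≤ f) (hc7 : 0 ≤ c7) (hc8 : 0 ≤ c8) (hc9 : 0 ≤ c9) (hc10 : 0 ≤ c10) (hc11 : 0 ≤ c11) (hc12 : 0 ≤ c12) :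
    0 ≤ 23237304 * n * n * i * c11
      + 352950 * r * i * (-3 - 16 * r + 10 * p - 6 * m + 2 * n + 2 * i) ^ 2
      + 44588385 * p * p * m * c11
      + 93308745 * m * n * e * c11
      + 2601015 * p * p * i * c12
      + 106586646 * p * p * c11 * c11
      + 38165295 * n * n * c7 * c7
      + 65154 * i * c7 * (-6 - 18 * r + 10 * p - 6 * m - n + i + 2 * e) ^ 2
      + 41522298 * m * c8 * c8 * c8
      + 47178 * m * e * (7 + 18 * r - 10 * p + 8 * m - n - 9 * i + 8 * e) ^ 2
      + 468687 * p * c7 * (-2 - 4 * r + 4 * p + 9 * m - 10 * i - 3 * e - f) ^ 2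
      + 612717 * p * c10 * (-1 + 14 * r - 10 * p + 4 * m - 3 * n - 3 * i) ^ 2
      + 12585201 * n * i * f * c12
      + 3598869 * m * n * c9 * c12
      + 28199910 * r * n * i * c12
      + 265041 * p * p * f * c11
      + 750 * p * c8 * (6 - 12 * r + 10 * p - 2 * m + 5 * n + 2 * f) ^ 2
      + 27113289 * f * c8 * c12
      + 323147316 * e * c11
      + 16827240 * m * c7 * c7 * c7 := by positivity

private theorem part16_2 {r p m n i e f c7 c8 c9 c10 c11 c12 : ℝ} (hr : 0 ≤ r) (hp : 0 ≤ p) (hm : 0 ≤ m) (hn : 0 ≤ n) (hi : 0 ≤ i) (he : 0 ≤ e) (hf : 0 ≤ f) (hc7 : 0 ≤ c7) (hc8 : 0 ≤ c8) (hc9 : 0 ≤ c9) (hc10 : 0 ≤ c10) (hc11 : 0 ≤ c11) (hc12 : 0 ≤ c12) :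
    0 ≤ 96876 * f * c11 * (-3 - r + p - 3 * m - n - 3 * i - e + 10 * f) ^ 2
      + 106920927 * r * p * e * c8
      + 39109305 * m * n * c12
      + 20661 * i * (-4 + 13 * r - 10 * p + 3 * m - 3 * n - 3 * i) ^ 2
      + 110883 * p * m * (-1 + 14 * r - 10 * p + 4 * m - 3 * n - 3 * i) ^ 2
      + 131946 * c12 * (-9 - 15 * r + 5 * p - 5 * m + 7 * n - 6 * i + e + 3 * f) ^ 2
      + 20693781 * m * f * c10 * c10
      + 645957 * m * e * (5 - 9 * r + 6 * p - 10 * m + 6 * n + 5 * i + 4 * e - 9 * f) ^ 2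
      + 40606911 * i * f * c12
      + 608580 * c7 * c8 * (6 - 9 * r + 5 * p - 6 * m + 10 * n - 7 * i - 4 * e + 2 * f) ^ 2
      + 83609232 * p * p * f * c10
      + 931476 * p * f * f * c8
      + 92013756 * p * e * c8 * c8
      + 11478165 * i * c7 * c9
      + 67409994 * m * e * f * c12
      + 3301443 * r * r * c10 * c12
      + 115152207 * i * e * f * c10
      + 172867239 * p * n * i * c8
      + 16692657 * p * e * c11 * c12
      + 50668539 * p * c10 * c12 := by positivity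

private theorem part16_3 {r p m n i e f c7 c8 c10 c11 c12 : ℝ} (hr : 0 ≤ r) (hp : 0 ≤ p) (hm : 0 ≤ m) (hn : 0 ≤ n) (hi : 0 ≤ i) (he : 0 ≤ e) (hf : 0 ≤ f) (hc7 : 0 ≤ c7) (hc8 : 0 ≤ c8) (hc10 : 0 ≤ c10) (hc11 : 0 ≤ c11) (hc12 : 0 ≤ c12) :
    0 ≤ 61750338 * r * i * f * c8
      + 41751 * e * (-1 + 13 * r - 5 * p - 9 * m + 2 * n + 10 * i + 5 * e - 6 * f) ^ 2
      + 71997 * i * i * e * c12
      + 144475533 * i * c8
      + 20801106 * i * f * c7 * c12
      + 121056003 * p * m * f * c8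
      + 10410780 * i * i * i * c7
      + 78603942 * r * e * c8 * c10
      + 47392401 * p * m * m * c12
      + 1092 * p * c11 * (10 - 9 * r + 10 * p - 2 * n + 2 * e - f) ^ 2
      + 398220 * i * i * i * c11
      + 241164 * e * f * (2 - 4 * r + 2 * p + 8 * m + 10 * n + i - 10 * f) ^ 2
      + 40379652 * c8 * c8 * c8
      + 34757322 * p * e * e * c8
      + 90417132 * e * c7 * c10
      + 16074 * i * i * (2 - 14 * r + 10 * p - 4 * m + 2 * n + 4 * i) ^ 2
      + 69134331 * n * e * c8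
      + 182727 * r * f * (-1 + 3 * r + 2 * m - 2 * n + 10 * i - e - 3 * f) ^ 2
      + 163413321 * f * c7 * c7
      + 226413366 * p * m * c7 * c8 := by positivity

private theorem part16_4 {r p m n i e f c7 c8 c9 c10 c11 c12 : ℝ} (hr : 0 ≤ r) (hp : 0 ≤ p) (hm : 0 ≤ m) (hn : 0 ≤ n) (hi : 0 ≤ i) (he : 0 ≤ e) (hf : 0 ≤ f) (hc7 : 0 ≤ c7) (hc8 : 0 ≤ c8) (hc9 : 0 ≤ c9) (hc10 : 0 ≤ c10) (hc11 : 0 ≤ c11) (hc12 : 0 ≤ c12) :
    0 ≤ 4888638 * i * i * c12 * c12
      + 23071059 * m * i * i * c11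
      + 559557 * c9 * (3 + 14 * r - 10 * p + 3 * m - i + e + f) ^ 2
      + 634128 * r * c7 * (-3 - 15 * r + 10 * p + m - n + 3 * i + 3 * e + f) ^ 2
      + 21814479 * r * c7 * c10
      + 82286304 * r * i * c8 * c9
      + 7941090 * p * i * e * c12
      + 212130360 * i * e * c8
      + 32649 * n * n * (1 + 15 * r - 10 * p + 5 * m + 4 * n - 9 * i) ^ 2
      + 52046304 * i * e * c12
      + 25537440 * p * n * c8 * c12
      + 3005577 * m * n * i * c12
      + 34332411 * p * e * c7 * c7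
      + 38676912 * p * p * e * c8
      + 927 * e * e * (-5 - 17 * r + 10 * p - 7 * m + n + 9 * i - 7 * e) ^ 2
      + 52176303 * m * e * c8 * c12
      + 50585406 * c8 * c12
      + 253407558 * i * f * c8
      + 13050723 * f * f * c8 * c8
      + 42410046 * p * m * c11 * c12 := by positivity

private theorem part16_5 {r p m n i e f c7 c8 c10 c11 c12 : ℝ} (hr : 0 ≤ r) (hp : 0 ≤ p) (hm : 0 ≤ m) (hn : 0 ≤ n) (hi : 0 ≤ i) (he : 0 ≤ e) (hf : 0 ≤ f) (hc7 : 0 ≤ c7) (hc8 : 0 ≤ c8) (hc10 : 0 ≤ c10) (hc11 : 0 ≤ c11) (hc12 : 0 ≤ c12) :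
    0 ≤ 46673367 * i * e * c10
      + 85968024 * r * p * e * c12
      + 57078 * e * c8 * (-3 + 11 * r - 7 * p + 7 * m + 2 * n + 10 * e + 3 * f) ^ 2
      + 341796 * e * c8 * (7 + r + 4 * p + 9 * m + 2 * n + 4 * i + 10 * e + 5 * f) ^ 2
      + 2235351 * e * e * e * c11
      + 23128398 * f * c12
      + 118985259 * p * p * i * c10
      + 397671 * m * f * (-3 - 6 * r + 7 * p + 10 * m - 2 * n - 6 * i + 8 * e - 8 * f) ^ 2
      + 59204202 * p * i * i * c8
      + 24131364 * r * c7 * c8 * c12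
      + 21157056 * f * f * f * c7
      + 188520 * c11 * (1 + 6 * r - 5 * p - 5 * m + 4 * n + 10 * i - 5 * f) ^ 2
      + 44850957 * r * f * c7 * c7
      + 842544 * n * n * f * c12
      + 71062461 * p * i * i * c10
      + 41385930 * e * f * c8
      + 202770663 * p * n * e * c8
      + 51607338 * r * r * f * c12
      + 31998 * r * c11 * (9 + 19 * r - 10 * p + 8 * m + 5 * n + 8 * i + 7 * e + 7 * f) ^ 2
      + 689811 * r * c8 * (-4 - 15 * r + 10 * p - 3 * m - n + 7 * i + e) ^ 2 := by positivity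

private theorem part16_6 {r p m n i e f c7 c8 c10 c11 c12 : ℝ} (hr : 0 ≤ r) (hp : 0 ≤ p) (hm : 0 ≤ m) (hn : 0 ≤ n) (hi : 0 ≤ i) (he : 0 ≤ e) (hf : 0 ≤ f) (hc7 : 0 ≤ c7) (hc8 : 0 ≤ c8) (hc10 : 0 ≤ c10) (hc11 : 0 ≤ c11) (hc12 : 0 ≤ c12) :
    0 ≤ 248613 * f * c8 * (-8 + 11 * r - 10 * p + 2 * m - 5 * n - 2 * i + e + f) ^ 2
      + 34845444 * i * f * f * c7
      + 15441303 * p * i * f * c12
      + 14083800 * f * c10 * c10 * c12
      + 191955174 * i * i * c8
      + 23285328 * p * f * c7 * c7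
      + 38990988 * e * e * c8 * c10
      + 104321712 * m * c7 * c10 * c10
      + 12988560 * f * c12 * c12
      + 25654842 * r * m * m * c12
      + 63212952 * p * m * c10 * c11
      + 40939560 * r * i * f * c11
      + 7178511 * r * n * e * c12
      + 13952733 * n * n * e * c12
      + 20998566 * i * e * e * c7
      + 13197567 * r * e * e * c10
      + 26827557 * i * c7 * c8
      + 47654691 * n * f * f * c8
      + 29691 * e * f * (-10 + 4 * r - 6 * p + m + 5 * n - 7 * i - e) ^ 2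
      + 256119 * i * c8 * (3 - 17 * r + 10 * p - 2 * m + 4 * n + 4 * i - 2 * e) ^ 2 := by positivity

private theorem part16_7 {r p m n i e f c7 c8 c9 c10 c11 c12 : ℝ} (hp : 0 ≤ p) (hm : 0 ≤ m) (hn : 0 ≤ n) (hi : 0 ≤ i) (he : 0 ≤ e) (hf : 0 ≤ f) (hc7 : 0 ≤ c7) (hc8 : 0 ≤ c8) (hc9 : 0 ≤ c9) (hc10 : 0 ≤ c10) (hc11 : 0 ≤ c11) (hc12 : 0 ≤ c12) :
    0 ≤ 148299120 * p * p * c8 * c11
      + 215076531 * i * c8 * c11
      + 4512 * p * (1 + 15 * r - 10 * p + 5 * m - n - 4 * i) ^ 2
      + 68313 * f * c9 * (7 * r - 4 * p + 3 * m - n - 10 * i + 9 * f) ^ 2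
      + 12569766 * n * n * i * c12
      + 181363620 * n * i * c8
      + 11845236 * p * p * c8 * c12
      + 14016075 * n * c8 * c11
      + 2397636 * n * n * c7 * c12
      + 35005539 * e * e * c7 * c7
      + 41166552 * m * i * c12
      + 16830516 * n * n * c8 * c11
      + 3306279 * n * n * c7 * c10
      + 206775 * c8 * c8 * (-9 - 15 * r + 9 * p - 10 * m + 7 * n - 4 * i - e + 3 * f) ^ 2
      + 8513664 * f * f * c12
      + 24806535 * n * i * i * c8
      + 378156 * m * f * (1 + 18 * r - 10 * p + 8 * m - 3 * n - 3 * i + 5 * f) ^ 2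
      + 88529562 * p * n * f * c8
      + 6999471 * n * e * f * c12
      + 59029977 * e * e * c7 * c8 := by positivity

private theorem part16_8 {r p m n i e f c7 c8 c9 c10 c11 c12 : ℝ} (hr : 0 ≤ r) (hp : 0 ≤ p) (hm : 0 ≤ m) (hn : 0 ≤ n) (hi : 0 ≤ i) (he : 0 ≤ e) (hf : 0 ≤ f) (hc7 : 0 ≤ c7) (hc8 : 0 ≤ c8) (hc9 : 0 ≤ c9) (hc10 : 0 ≤ c10) (hc11 : 0 ≤ c11) (hc12 : 0 ≤ c12) :
    0 ≤ 31070304 * n * f * c8 * c11
      + 63803745 * m * m * c8 * c8
      + 505350 * m * c10 * (-3 - r + 4 * p + 4 * m - 4 * n + 2 * i + e + 10 * f) ^ 2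
      + 141085842 * r * m * e * c12
      + 17842794 * i * i * c8 * c11
      + 129468 * m * i * (-1 + 14 * r - 10 * p + 4 * m - 3 * n - 3 * i) ^ 2
      + 27825372 * r * n * f * c11
      + 611304 * c8 * c8 * (1 + 12 * r - 10 * p + 4 * m - n - 3 * i - e + f) ^ 2
      + 80974533 * f * f * c7 * c7
      + 446937 * c8 * c11 * (-10 + 4 * r - p + 7 * m - n - 2 * i - 5 * f) ^ 2
      + 7159527 * r * r * n * c12
      + 2427801 * i * e * e * c11
      + 140361324 * p * c10 * c11
      + 38290398 * i * c7 * c7 * c7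
      + 3436212 * e * e * c12
      + 2918046 * m * m * (5 - 3 * r - 4 * p - 10 * m - 2 * i + 2 * e + 2 * f) ^ 2
      + 209980845 * m * c7 * c12
      + 194651415 * r * p * m * c12
      + 162032265 * r * f * c10
      + 80573400 * p * c7 * c8 * c9 := by positivity

private theorem part16_9 {r p m n i e f c7 c8 c10 c12 : ℝ} (hr : 0 ≤ r) (hp : 0 ≤ p) (hm : 0 ≤ m) (hi : 0 ≤ i) (he : 0 ≤ e) (hf : 0 ≤ f) (hc7 : 0 ≤ c7) (hc8 : 0 ≤ c8) (hc10 : 0 ≤ c10) (hc12 : 0 ≤ c12) :
    0 ≤ 106261737 * r * c7 * c12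
      + 230835 * m * c7 * (3 + 3 * r - p + 7 * m - 4 * n - i + 4 * e - 10 * f) ^ 2
      + 7437288 * m * m * i * c12
      + 525825 * p * f * (3 + 15 * r - 10 * p + 3 * m - 2 * i - e) ^ 2
      + 65981775 * m * e * c7 * c7
      + 62340042 * r * m * i * c12
      + 19261896 * p * i * c8 * c8
      + 403590 * c7 * c8 * (10 + 8 * r - 4 * p - 8 * m + 6 * n + 3 * i - 2 * e - 7 * f) ^ 2
      + 4783176 * e * c10
      + 229248 * i * c8 * (-3 - 5 * r - 5 * p + 4 * m + 2 * n - 10 * i + 5 * e + 6 * f) ^ 2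
      + 14451051 * e * f * f * c10
      + 11332659 * p * p * f * c8
      + 119474148 * p * i * e * c8
      + 806490 * i * (3 - 12 * r + 2 * p + 9 * m - 6 * n - 4 * i + 3 * e + 3 * f) ^ 2
      + 32302731 * m * m * f * c12
      + 112218 * r * c12 * (-3 - 16 * r + 10 * p - 6 * m + 8 * i - 4 * e + 5 * f) ^ 2
      + 5412 * c8 * (-2 + 4 * p - 3 * m - n - 5 * i + 10 * e) ^ 2
      + 1231458 * p * m * (-3 - 16 * r + 10 * p - 6 * m + 2 * n + 2 * i) ^ 2
      + 6932193 * m * i * e * c12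
      + 39745224 * p * p * c7 * c12 := by positivity

private theorem part16_10 {r p m n i e f c7 c8 c9 c10 c11 c12 : ℝ} (hr : 0 ≤ r) (hp : 0 ≤ p) (hm : 0 ≤ m) (hn : 0 ≤ n) (hi : 0 ≤ i) (he : 0 ≤ e) (hf : 0 ≤ f) (hc7 : 0 ≤ c7) (hc8 : 0 ≤ c8) (hc9 : 0 ≤ c9) (hc10 : 0 ≤ c10) (hc11 : 0 ≤ c11) (hc12 : 0 ≤ c12) :
    0 ≤ 25424634 * r * n * c12
      + 7466850 * p * n * c9 * c12
      + 91720989 * r * r * c7 * c8
      + 251022 * m * (1 + 15 * r - 10 * p + 5 * m - 2 * n - 2 * i) ^ 2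
      + 5520 * n * i * (-15 * r + 10 * p - 5 * m + 5 * i) ^ 2
      + 5345475 * p * i * f * c10
      + 191577720 * r * p * c7 * c7
      + 51793599 * r * m * f * c12
      + 78702894 * r * m * f * c8
      + 140200086 * m * i * c11
      + 29496255 * c10 * c12
      + 26418426 * p * c7 * c11
      + 171611589 * r * p * p * c11
      + 12551844 * r * c7 * c7 * c12
      + 28480689 * n * n * e * c11
      + 64113684 * p * f * c8 * c8
      + 22810686 * r * i * c8 * c12
      + 23606712 * p * m * n * c12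
      + 137040 * p * i * (1 - 15 * r + 10 * p - 5 * m + n + 4 * i) ^ 2
      + 342238482 * m * m * m * c7 := by positivity

private theorem part16_11 {r p m n i e f c7 c8 c9 c10 c11 c12 : ℝ} (hr : 0 ≤ r) (hp : 0 ≤ p) (hm : 0 ≤ m) (hn : 0 ≤ n) (hi : 0 ≤ i) (he : 0 ≤ e) (hf : 0 ≤ f) (hc7 : 0 ≤ c7) (hc8 : 0 ≤ c8) (hc9 : 0 ≤ c9) (hc10 : 0 ≤ c10) (hc11 : 0 ≤ c11) (hc12 : 0 ≤ c12) :
    0 ≤ 355783608 * m * m * m * c11
      + 30599070 * p * f * c9 * c12
      + 169188615 * m * m * m * c12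
      + 265203 * c7 * c7 * (-6 + 13 * r - 10 * p + 6 * m - 5 * n - 2 * e + 8 * f) ^ 2
      + 3807651 * i * i * f * c12
      + 94093635 * r * e * f * c8
      + 231927 * f * c10 * (-1 + 16 * r - 10 * p + 6 * m - 4 * n - i + 2 * f) ^ 2
      + 4867728 * m * n * f * c12
      + 67927779 * p * i * f * c8
      + 17740986 * n * f * f * c11
      + 20764251 * r * i * c8
      + 105885 * n * c8 * (5 - 17 * r + 9 * p - 8 * m + 10 * n - 3 * i - 2 * f) ^ 2
      + 5157630 * f * f * c10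
      + 37125 * c11 * (-5 + 2 * r + p + 5 * m - 8 * n + 3 * i + 7 * e - 10 * f) ^ 2
      + 101231034 * r * r * e * c7
      + 1007952 * c7 * c11 * (10 + 6 * r - 5 * p + 6 * m + i + e + 2 * f) ^ 2
      + 12852 * p * f * (10 * r - 6 * p + 4 * m - 2 * n - 10 * i + 9 * f) ^ 2
      + 9898782 * e * e * e * c12
      + 84738630 * r * e * c8
      + 144813606 * c7 * c10 * c11 := by positivity

private theorem part16_12 {r p m n i e f c7 c8 c10 c11 c12 : ℝ} (hr : 0 ≤ r) (hp : 0 ≤ p) (hm : 0 ≤ m) (hn : 0 ≤ n) (hi : 0 ≤ i) (he : 0 ≤ e) (hf : 0 ≤ f) (hc7 : 0 ≤ c7) (hc8 : 0 ≤ c8) (hc10 : 0 ≤ c10) (hc11 : 0 ≤ c11) (hc12 : 0 ≤ c12) :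
    0 ≤ 91162026 * p * p * e * c10
      + 111165447 * c11 * c12
      + 14351853 * r * e * e * c12
      + 245690178 * f * c11
      + 80631 * i * e * (-15 * r + 10 * p - 5 * m + 3 * n + 4 * i - e) ^ 2
      + 1100187 * m * c8 * (1 - 15 * r + 10 * p + 2 * m - n + 8 * i + 2 * e + f) ^ 2
      + 26971614 * f * f * f * c8
      + 45268779 * m * c8 * c12
      + 1312224 * p * c7 * (-1 - 2 * r + p + 10 * m - 6 * n + 4 * i + 5 * e + 5 * f) ^ 2
      + 18608823 * n * e * c12
      + 10228491 * e * e * c10 * c12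
      + 15320205 * m * f * c12
      + 358392696 * m * f * c7
      + 3710889 * r * i * c11 * c12
      + 11790 * e * e * (10 - 2 * r + 2 * p + 2 * m - 7 * e) ^ 2
      + 23216049 * n * i * e * c12
      + 141602907 * r * e * f * c7
      + 135469734 * r * f * c7 * c8
      + 12538401 * n * e * e * c12
      + 9713580 * n * f * f * c12 := by positivity

private theorem part16_13 {r p m n i e f c7 c8 c9 c10 c11 c12 : ℝ} (hr : 0 ≤ r) (hp : 0 ≤ p) (hm : 0 ≤ m) (hn : 0 ≤ n) (hi : 0 ≤ i) (he : 0 ≤ e) (hf : 0 ≤ f) (hc7 : 0 ≤ c7) (hc8 : 0 ≤ c8) (hc9 : 0 ≤ c9) (hc10 : 0 ≤ c10) (hc11 : 0 ≤ c11) (hc12 : 0 ≤ c12) :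
    0 ≤ 28779 * f * f * (2 + 17 * r - 10 * p + 7 * m - 2 * n - 6 * i + 6 * f) ^ 2
      + 32196195 * p * m * i * c12
      + 982677 * m * c7 * (-5 - 16 * r + 10 * p + 2 * m - 7 * i + 3 * e) ^ 2
      + 292776 * p * e * (-2 - 16 * r + 10 * p - 6 * m + 2 * n + 5 * i - 3 * e) ^ 2
      + 61393656 * f * c7 * c8
      + 6390 * c9 * (1 + 12 * r - 6 * p + 6 * m - 2 * n - 10 * i + 8 * e + 4 * f) ^ 2
      + 5759847 * i * f * f * c8
      + 156858972 * p * c8 * c11
      + 240675 * n * f * c7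
      + 28389 * i * e * (-1 + p - 7 * n + 8 * i + 10 * e - f) ^ 2
      + 110787747 * p * c8 * c12
      + 62286213 * r * r * i * c8
      + 970884 * n * n * c9 * c11
      + 1728675 * m * e * c10 * c11
      + 22907784 * r * r * p * c11
      + 40463937 * p * e * e * c12
      + 16870086 * f * f * c8
      + 18700719 * e * e * e * c7
      + 7998501 * n * f * f * c7
      + 4291578 * p * f * c10 * c12 := by positivity

private theorem part16_14 {r p m i : ℝ} (hr : 0 ≤ r) (hp : 0 ≤ p) (hm : 0 ≤ m) (hi : 0 ≤ i) :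
    0 ≤ 3088 * r
      + 3046 * r * m
      + 2561 * r * m * m
      + 2933 * r * r * i
      + 2426 * r * p * p
      + 2684 * r * r
      + 2932 * r * p * m
      + 2762 * r * r * m
      + 3216 * m
      + 2730 * m * m
      + 3243 * r * i
      + 2890 * p * p
      + 2328 * p * m
      + 3012 * m * m * m
      + 2564 * r * m * i
      + 3408 * p * p * m
      + 3294 * p * m * m
      + 2895 * r * m * m * m
      + 3825 * r * r * m * i
      + 3645 * r * p * p * m := by positivity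

private theorem part16_15 {r p m n i e f : ℝ} (hr : 0 ≤ r) (hp : 0 ≤ p) (hm : 0 ≤ m) (hn : 0 ≤ n) (hi : 0 ≤ i) (he : 0 ≤ e) (hf : 0 ≤ f) :
    0 ≤ 2937 * r * p * m * m
      + 3309 * r * r * m * m
      + 2970 * p
      + 2391 * n
      + 3804 * p * n
      + 82678 * i
      + 3003 * p * i
      + 3123 * e
      + 3264 * p * e
      + 2699 * f
      + 3552 * p * f
      + 3422 * n * n
      + 2896 * n * i
      + 2593 * n * e
      + 2683 * n * f
      + 3053 * i * i
      + 50750770 * i * e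
      + 5855140 * i * f
      + 2852 * e * e
      + 19435864 * e * f := by positivity

private theorem part16_16 {r p m n i e f : ℝ} (hr : 0 ≤ r) (hp : 0 ≤ p) (hm : 0 ≤ m) (hn : 0 ≤ n) (hi : 0 ≤ i) (he : 0 ≤ e) (hf : 0 ≤ f) :
    0 ≤ 73799 * f * f
      + 2872 * p * n * n
      + 3347 * p * n * i
      + 2366 * p * n * e
      + 3179 * p * n * f
      + 3253 * p * i * i
      + 2618 * p * i * e
      + 3311 * p * i * f
      + 3148 * p * e * e
      + 3461 * p * e * f
      + 3292 * p * f * f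
      + 3238 * p * p * p
      + 2690 * p * p * n
      + 3302 * p * p * i
      + 3014 * p * p * e
      + 2579 * p * p * f
      + 3000 * r * e
      + 3354 * m * i
      + 3054 * m * e
      + 2767 * r * r * e := by positivity

private theorem part16_17 {r p m n i e f : ℝ} (hr : 0 ≤ r) (hp : 0 ≤ p) (hm : 0 ≤ m) (hn : 0 ≤ n) (hi : 0 ≤ i) (he : 0 ≤ e) (hf : 0 ≤ f) :
    0 ≤ 1778 * r * m * e
      + 2704 * m * m * i
      + 3193 * m * m * e
      + 3168 * p * m * m * m
      + 3063 * p * m * m * e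
      + 2931 * p * m * m * f
      + 2871 * r * e * e
      + 2676 * r * e * f
      + 2943 * m * e * e
      + 136312356 * m * e * f
      + 3573 * m * n * e
      + 3342 * n * e * e
      + 2649 * n * e * f
      + 3120 * m * i * e
      + 28448916 * i * e * e
      + 3045 * i * e * f
      + 3078 * e * e * e
      + 3060 * e * e * f
      + 45133713 * e * f * f
      + 3369 * r * r * m * e := by positivity

private theorem part16_18 {r m n i e f : ℝ} (hr : 0 ≤ r) (hm : 0 ≤ m) (hn : 0 ≤ n) (hi : 0 ≤ i) (he : 0 ≤ e) (hf : 0 ≤ f) :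
    0 ≤ 2916 * r * r * e * e
      + 3843 * r * r * e * f
      + 3015 * r * m * m * e
      + 2310 * r * m * e * e
      + 3609 * r * m * e * f
      + 3327 * r * m * n * e
      + 3033 * r * n * e * e
      + 6901962 * r * n * e * f
      + 210193863 * r * m * i * e
      + 3519 * r * i * e * e
      + 92061906 * r * i * e * f
      + 2565 * r * e * e * e
      + 20032068 * r * e * e * f
      + 3006 * r * e * f * f
      + 125109276 * m * m * m * e
      + 92337882 * m * m * e * e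
      + 3369 * m * m * e * f
      + 2958 * m * m * n * e
      + 2781 * m * n * e * e
      + 2631 * m * n * e * f := by positivity

private theorem part16_19 {m n i e f : ℝ} (hm : 0 ≤ m) (hn : 0 ≤ n) (hi : 0 ≤ i) (he : 0 ≤ e) (hf : 0 ≤ f) :
    0 ≤ 19864401 * m * m * i * e
      + 3603 * m * i * e * e
      + 3246 * m * i * e * f
      + 2697 * m * e * e * e
      + 2640 * m * e * e * f
      + 3258 * m * e * f * f
      + 2898 * m * n * n * e
      + 3024 * n * n * e * e
      + 3048 * n * n * e * f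
      + 3192 * m * n * i * e
      + 2577 * n * i * e * e
      + 763968 * n * i * e * f
      + 3075 * n * e * e * e
      + 5124696 * n * e * e * f
      + 3312 * n * e * f * f
      + 3415611 * m * i * i * e
      + 3222 * i * i * e * e
      + 5807754 * i * i * e * f
      + 3183 * i * e * e * e
      + 112247436 * i * e * e * f := by positivity

private theorem part16_20 {r p m n i e f : ℝ} (hr : 0 ≤ r) (hp : 0 ≤ p) (hm : 0 ≤ m) (hn : 0 ≤ n) (hi : 0 ≤ i) (he : 0 ≤ e) (hf : 0 ≤ f) :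
    0 ≤ 114252246 * i * e * f * f
      + 2169390 * e * e * e * e
      + 4345500 * e * e * e * f
      + 15086727 * e * e * f * f
      + 2967 * e * f * f * f
      + 2979 * n * n * i
      + 3249 * r * n * n * i
      + 2913 * p * n * n * i
      + 2451 * p * p * m * e
      + 3051 * p * m * n * e
      + 137077518 * p * m * i * e
      + 3474 * p * m * e * e
      + 2286 * p * m * e * f
      + 3093 * r * r * i * f
      + 2877 * r * p * i * f
      + 57223479 * r * m * i * f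
      + 3408 * r * n * i * f
      + 3279 * r * i * i * f
      + 3078 * r * i * f * f
      + 2841 * p * p * i * f := by positivity

private theorem part16_21 {p m n i e f : ℝ} (hp : 0 ≤ p) (hm : 0 ≤ m) (hn : 0 ≤ n) (hi : 0 ≤ i) (he : 0 ≤ e) (hf : 0 ≤ f) :
    0 ≤ 171953724 * p * m * i * f
      + 2928 * p * n * i * f
      + 2889 * p * i * i * f
      + 3039 * p * i * e * f
      + 17400897 * p * i * f * f
      + 61974321 * m * m * i * f
      + 3039 * m * n * i * f
      + 3018063 * m * i * i * f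
      + 3009 * m * i * f * f
      + 2997 * n * n * i * f
      + 2898 * n * i * i * f
      + 3162 * n * i * f * f
      + 34905348 * i * i * i * f
      + 3153 * i * i * f * f
      + 7300773 * i * f * f * f
      + 2859 * p * m * m * n
      + 2958 * m * m * n * n
      + 3051 * m * m * n * i
      + 3108 * m * m * n * f
      + 3003 * m * i * i * i := by positivity

private theorem part16_22 {r p m n i e f : ℝ} (hr : 0 ≤ r) (hp : 0 ≤ p) (hm : 0 ≤ m) (hn : 0 ≤ n) (hi : 0 ≤ i) (he : 0 ≤ e) (hf : 0 ≤ f) :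
    0 ≤ 29176422 * i * i * i * e
      + 3255 * m * n
      + 2985 * m * f
      + 3009 * r * p * n
      + 3141 * r * p
      + 3210 * r * n * n
      + 2349 * r * n
      + 3480 * r * m * n
      + 2742 * r * n * i
      + 3261 * r * n * e
      + 3876 * r * n * f
      + 3456 * r * f
      + 2604 * r * m * f
      + 2532 * p * m * n
      + 2778 * p * m * i
      + 2844 * p * m * e
      + 2997 * p * m * f
      + 3063 * m * n * n
      + 2991 * m * m * n
      + 3129 * m * n * i := by positivity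

private theorem part16_23 {r p m n i e f : ℝ} (hr : 0 ≤ r) (hp : 0 ≤ p) (hm : 0 ≤ m) (hn : 0 ≤ n) (hi : 0 ≤ i) (he : 0 ≤ e) (hf : 0 ≤ f) :
    0 ≤ 3231 * m * n * f
      + 3423 * m * m * f
      + 2895 * n * n * n
      + 3234 * n * n * e
      + 2787 * n * n * f
      + 3015 * n * i * f
      + 3039 * m * i * f
      + 2766 * n * f * f
      + 3249 * m * f * f
      + 2364 * r * r * p * n
      + 3204 * r * r * p
      + 2925 * r * r * p * m
      + 3819 * r * r * n * n
      + 2964 * r * r * n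
      + 2595 * r * r * m * n
      + 4686 * r * r * n * i
      + 3612 * r * r * n * e
      + 3687 * r * r * n * f
      + 2421 * r * r * f
      + 3549 * r * r * m * f := by positivity

private theorem part16_24 {r p m n i e f : ℝ} (hr : 0 ≤ r) (hp : 0 ≤ p) (hm : 0 ≤ m) (hn : 0 ≤ n) (hi : 0 ≤ i) (he : 0 ≤ e) (hf : 0 ≤ f) :
    0 ≤ 3369 * r * p * p * n
      + 2349 * r * p * n * n
      + 2238 * r * p * m * n
      + 1647 * r * p * n * i
      + 2664 * r * p * i
      + 3087 * r * p * m * i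
      + 2109 * r * p * n * e
      + 3303 * r * p * e
      + 3390 * r * p * m * e
      + 1992 * r * p * n * f
      + 3084 * r * p * f
      + 3141 * r * p * m * f
      + 3504 * r * m * n * n
      + 3210 * r * m * m * n
      + 3567 * r * m * n * i
      + 3084 * r * m * m * i
      + 3696 * r * m * n * f
      + 2754 * r * m * m * f
      + 3138 * r * n * n * n
      + 3249 * r * n * n * e := by positivity

private theorem part16_25 {r p m n i e f : ℝ} (hr : 0 ≤ r) (hp : 0 ≤ p) (hm : 0 ≤ m) (hn : 0 ≤ n) (hi : 0 ≤ i) (he : 0 ≤ e) (hf : 0 ≤ f) :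
    0 ≤ 3366 * r * n * n * f
      + 3624 * r * i * f
      + 2889 * r * n * f * f
      + 3081 * r * f * f
      + 3009 * r * m * f * f
      + 2976 * p * p * p * n
      + 2787 * p * p * p * m
      + 3183 * p * p * n * n
      + 3342 * p * p * m * n
      + 3123 * p * p * n * i
      + 2967 * p * p * m * i
      + 3051 * p * p * n * e
      + 3327 * p * p * n * f
      + 2757 * p * p * m * f
      + 2994 * p * p * m * m
      + 2766 * p * m * n * n
      + 2598 * p * m * n * i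
      + 2901 * p * m * m * i
      + 2610 * p * m * n * f
      + 2826 * p * n * n * n := by positivity

private theorem part16_26 {p m n i e f : ℝ} (hp : 0 ≤ p) (hm : 0 ≤ m) (hn : 0 ≤ n) (hi : 0 ≤ i) (he : 0 ≤ e) (hf : 0 ≤ f) :
    0 ≤ 3000 * p * n * n * e
      + 2916 * p * n * n * f
      + 2772 * p * n * e * f
      + 3186 * p * n * f * f
      + 2913 * p * m * f * f
      + 3159 * m * m * m * n
      + 196400448 * m * m * m * i
      + 3045 * m * m * m * f
      + 3105 * m * n * n * n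
      + 3045 * m * n * n * i
      + 3021 * m * n * n * f
      + 2937 * m * n * f * f
      + 93016452 * m * m * f * f
      + 3018 * n * n * n * n
      + 3018 * n * n * n * i
      + 3009 * n * n * n * e
      + 3027 * n * n * n * f
      + 3042 * n * n * f * f
      + 2736 * i * f * f
      + 2937 * n * f * f * f := by positivity

private theorem part16_27 {r p m n i e f : ℝ} (hr : 0 ≤ r) (hp : 0 ≤ p) (hm : 0 ≤ m) (hn : 0 ≤ n) (hi : 0 ≤ i) (he : 0 ≤ e) (hf : 0 ≤ f) :
    0 ≤ 2952 * f * f * f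
      + 2847 * m * f * f * f
      + 2766 * r * i * i
      + 3684 * r * i * e
      + 2361 * r * r * r * p
      + 3090 * r * r * r * n
      + 3543 * r * r * r * i
      + 3507 * r * r * r * e
      + 3252 * r * r * r * f
      + 3837 * r * r * p * p
      + 2781 * r * r * p * i
      + 3117 * r * r * p * e
      + 2253 * r * r * p * f
      + 3096 * r * p * p * p
      + 3030 * r * p * p * i
      + 2037 * r * p * p * e
      + 2859 * r * p * p * f
      + 3399 * r * r * i * i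
      + 3015 * r * r * i * e
      + 2562 * r * p * i * i := by positivity

private theorem part16_28 {r p m n i e f : ℝ} (hr : 0 ≤ r) (hp : 0 ≤ p) (hm : 0 ≤ m) (hn : 0 ≤ n) (hi : 0 ≤ i) (he : 0 ≤ e) (hf : 0 ≤ f) :
    0 ≤ 2460 * r * p * i * e
      + 3390 * r * p * e * e
      + 2295 * r * p * e * f
      + 3516 * r * r * f * f
      + 2442 * r * p * f * f
      + 2736 * p * p * p * p
      + 2907 * p * p * p * i
      + 3399 * p * p * p * e
      + 3381 * p * p * p * f
      + 2841 * p * p * i * i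
      + 21862080 * p * p * i * e
      + 62842302 * p * p * e * e
      + 2991 * p * p * e * f
      + 3084 * p * p * f * f
      + 121496829 * m * i * i
      + 252549 * r * m * i * i
      + 3120 * p * m * i * i
      + 2997 * n * i * i
      + 3393 * n * i * e
      + 2787 * r * n * i * i := by positivity

private theorem part16_29 {r p m n i e f : ℝ} (hr : 0 ≤ r) (hp : 0 ≤ p) (hm : 0 ≤ m) (hn : 0 ≤ n) (hi : 0 ≤ i) (he : 0 ≤ e) (hf : 0 ≤ f) :
    0 ≤ 13794846 * r * n * i * e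
      + 3117 * p * n * i * i
      + 3060 * p * n * i * e
      + 3111 * p * n * e * e
      + 3114 * i * i * i
      + 52926861 * i * i * e
      + 71424615 * i * i * f
      + 2973 * r * i * i * i
      + 3297 * r * i * i * e
      + 3157815 * p * i * i * i
      + 44285499 * p * i * i * e
      + 20912562 * p * i * e * e
      + 3162 * p * e * e * e
      + 2940 * p * e * e * f
      + 1977681 * p * e * f * f
      + 4449537 * r * f * f * f
      + 2934 * p * f * f * f
      + 3039 * n * n * i * e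
      + 2814 * n * i * i * e
      + 2955 * m * n * i * i := by positivity

private theorem part16_30 {r m n i f : ℝ} (hr : 0 ≤ r) (hm : 0 ≤ m) (hn : 0 ≤ n) (hi : 0 ≤ i) (hf : 0 ≤ f) :
    0 ≤ 3150
      + 3003 * n * n * i * i
      + 19772562 * m * m * i * i
      + 2301 * r * r * r * m
      + 2934 * m * m * m * m
      + 9579264 * f * f * f * f
      + 3720 * r * r * r
      + 2946 * r * r * r * r
      + 3036 * n * i * i * i
      + 141036 * i * i * i * i := by positivity

theorem leaf16 {r p m n i e f : ℝ} (h0 : 0 ≤ r) (h1 : 0 ≤ p) (h2 : 0 ≤ m) (h3 : 0 ≤ n) (h4 : 0 ≤ i) (h5 : 0 ≤ e) (h6 : 0 ≤ f) (h7 : 0 ≤ r - m) (h8 : 0 ≤ 1 - r - p) (h9 : 0 ≤ 1 - m - n - i) (h10 : 0 ≤ m - e - f) (h11 : 0 ≤ p - n - i - e - f) (h12 : 0 ≤ -1 + m + 2 * n) :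
    0 ≤ 47500000 * r - 348000000 * p + 3750000 * m + 180000000 * n + 212500000 * i + 105000000 * e + 72500000 * f + 95000000 * r * r - 211250000 * r * m - 327000000 * r * i - 27000000 * r * e + 568000000 * p * p - 300000000 * p * m + 330000000 * p * n + 330000000 * p * i + 330000000 * p * e + 330000000 * p * f + 558750000 * m * m + 120000000 * m * i + 120000000 * m * e - 276250000 * n * n - 552500000 * n * i - 552500000 * n * e - 552500000 * n * f - 276250000 * i * i - 552500000 * i * e - 552500000 * i * f - 276250000 * e * e - 552500000 * e * f - 276250000 * f * f + 485000000 * r * r * m - 10000000 * r * r * i - 200000000 * r * r * e - 190000000 * r * p * p + 190000000 * r * p * m - 598750000 * r * m * m - 985000000 * r * m * i - 400000000 * r * m * e - 200000000 * p * p * p + 585000000 * p * p * m - 400000000 * p * p * n - 400000000 * p * p * i - 400000000 * p * p * e - 400000000 * p * p * f - 585000000 * p * m * m + 148750000 * p * n * n + 297500000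 * p * n * i + 297500000 * p * n * e + 297500000 * p * n * f + 148750000 * p * i * i + 297500000 * p * i * e + 297500000 * p * i * f + 148750000 * p * e * e + 297500000 * p * e * f + 148750000 * p * f * f - 731250000 * m * m * m + 220000000 * m * m * i + 220000000 * m * m * e - 195000000 * r * r * m * m + 675000000 * r * r * m * i - 675000000 * r * p * p * m + 1635000000 * r * p * m * m + 843750000 * r * m * m * m + 480000000 * p * m * m * m - 480000000 * p * m * m * e - 480000000 * p * m * m * f := by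
  have t0 := part16_0 h0 h1 h2 h3 h4 h5 h6 h7 h8 h10 h11 h12
  have t1 := part16_1 h0 h1 h2 h3 h4 h5 h6 h7 h8 h9 h10 h11 h12
  have t2 := part16_2 h0 h1 h2 h3 h4 h5 h6 h7 h8 h9 h10 h11 h12
  have t3 := part16_3 h0 h1 h2 h3 h4 h5 h6 h7 h8 h10 h11 h12
  have t4 := part16_4 h0 h1 h2 h3 h4 h5 h6 h7 h8 h9 h10 h11 h12
  have t5 := part16_5 h0 h1 h2 h3 h4 h5 h6 h7 h8 h10 h11 h12
  have t6 := part16_6 h0 h1 h2 h3 h4 h5 h6 h7 h8 h10 h11 h12
  have t7 := part16_7 (r := r) h1 h2 h3 h4 h5 h6 h7 h8 h9 h10 h11 h12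
  have t8 := part16_8 h0 h1 h2 h3 h4 h5 h6 h7 h8 h9 h10 h11 h12
  have t9 := part16_9 (n := n) h0 h1 h2 h4 h5 h6 h7 h8 h10 h12
  have t10 := part16_10 h0 h1 h2 h3 h4 h5 h6 h7 h8 h9 h10 h11 h12
  have t11 := part16_11 h0 h1 h2 h3 h4 h5 h6 h7 h8 h9 h10 h11 h12
  have t12 := part16_12 h0 h1 h2 h3 h4 h5 h6 h7 h8 h10 h11 h12
  have t13 := part16_13 h0 h1 h2 h3 h4 h5 h6 h7 h8 h9 h10 h11 h12
  have t14 := part16_14 h0 h1 h2 h4
  have t15 := part16_15 h0 h1 h2 h3 h4 h5 h6
  have t16 := part16_16 h0 h1 h2 h3 h4 h5 h6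
  have t17 := part16_17 h0 h1 h2 h3 h4 h5 h6
  have t18 := part16_18 h0 h2 h3 h4 h5 h6
  have t19 := part16_19 h2 h3 h4 h5 h6
  have t20 := part16_20 h0 h1 h2 h3 h4 h5 h6
  have t21 := part16_21 h1 h2 h3 h4 h5 h6
  have t22 := part16_22 h0 h1 h2 h3 h4 h5 h6
  have t23 := part16_23 h0 h1 h2 h3 h4 h5 h6
  have t24 := part16_24 h0 h1 h2 h3 h4 h5 h6
  have t25 := part16_25 h0 h1 h2 h3 h4 h5 h6
  have t26 := part16_26 h1 h2 h3 h4 h5 h6
  have t27 := part16_27 h0 h1 h2 h3 h4 h5 h6
  have t28 := part16_28 h0 h1 h2 h3 h4 h5 h6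
  have t29 := part16_29 h0 h1 h2 h3 h4 h5 h6
  have t30 := part16_30 h0 h2 h3 h4 h6
  linarith only [t0, t1, t2, t3, t4, t5, t6, t7, t8, t9, t10, t11, t12, t13, t14, t15, t16, t17, t18, t19, t20, t21, t22, t23, t24, t25, t26, t27, t28, t29, t30]

end Vale.Agent.P038.K4
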