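import Mathlib

/-
P038: one corner of the polynomial inequality for K4-free graphs (exact nonnegativity certificate).
-/

namespace Vale.Agent.P038.K4

private theorem part17_0 {r p m n i e f c7 c8 c9 c10 c11 c12 : ℝ} (hr : 0 ≤ r) (hp : 0 ≤ p) (hm : 0 ≤ m) (hn : 0 ≤ n) (hi : 0 ≤ i) (he : 0 ≤ e) (hf : 0 ≤ f) (hc7 : 0 ≤ c7) (hc8 : 0 ≤ c8) (hc9 : 0 ≤ c9) (hc10 : 0 ≤ c10) (hc11 : 0 ≤ c11) (hc12 : 0 ≤ c12) :
    0 ≤ 78538410 * p * c10 * c10
      + 29105556 * p * p * f * c8
      + 1790724 * p * m * f * c7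
      + 51989520 * i * c8 * c12
      + 194983095 * i * c8
      + 251439 * r * i * (-1 + 14 * r - 10 * p + 4 * m - 3 * n - 3 * i) ^ 2
      + 164848923 * e * c11
      + 39779280 * n * c9 * c11
      + 770898 * p * n * c8 * c9
      + 252848997 * f * c11
      + 37085325 * e * e * c8
      + 25017060 * i * c12
      + 1517547 * m * c8 * (-3 - 14 * r + 10 * p + m - n + 4 * i + e + f) ^ 2
      + 118514757 * p * f * c8
      + 17877054 * n * n * n * c7
      + 86087838 * p * p * p * c7
      + 55544232 * m * m * f * c12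
      + 40685415 * r * i * i * c8
      + 106724883 * i * f * c8 * c8
      + 145289931 * r * r * p * c12 := by positivity

private theorem part17_1 {r p m n i e f c7 c8 c9 c10 c11 c12 : ℝ} (hr : 0 ≤ r) (hp : 0 ≤ p) (hm : 0 ≤ m) (hn : 0 ≤ n) (hi : 0 ≤ i) (he : 0 ≤ e) (hf : 0 ≤ f) (hc7 : 0 ≤ c7) (hc8 : 0 ≤ c8) (hc9 : 0 ≤ c9) (hc10 : 0 ≤ c10) (hc11 : 0 ≤ c11) (hc12 : 0 ≤ c12) :
    0 ≤ 11373840 * m * e * c10 * c10
      + 49361442 * r * r * p * c8
      + 8296701 * c8 * c9
      + 244652475 * m * m * c8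
      + 146913921 * p * e * e * c7
      + 136594890 * p * f * f * c7
      + 50774298 * m * m * m * c12
      + 27762648 * m * i * i * c12
      + 108352341 * m * m * f * c7
      + 338418 * m * f * (-10 - 8 * r + 2 * p - 6 * m + 6 * n - i - 7 * e + 6 * f) ^ 2
      + 3089787 * p * p * c7 * c12
      + 63584481 * n * e * c7
      + 14609556 * m * m * e * c12
      + 33064704 * m * i * f * c12
      + 551385 * p * f * (-5 - 15 * r + 10 * p - 3 * m + i + e + f) ^ 2
      + 25675383 * r * p * n * c8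
      + 14057514 * e * f * c7 * c7
      + 13009614 * i * e * c7 * c7
      + 353835183 * i * c11
      + 132831978 * i * f * c7 := by positivity

private theorem part17_2 {r p m n i e f c7 c8 c9 c10 c12 : ℝ} (hr : 0 ≤ r) (hp : 0 ≤ p) (hm : 0 ≤ m) (hn : 0 ≤ n) (hi : 0 ≤ i) (he : 0 ≤ e) (hf : 0 ≤ f) (hc7 : 0 ≤ c7) (hc8 : 0 ≤ c8) (hc9 : 0 ≤ c9) (hc10 : 0 ≤ c10) (hc12 : 0 ≤ c12) :
    0 ≤ 34811442 * m * i * c8 * c8
      + 5741886 * n * i * i * c12
      + 133528695 * p * m * c10 * c10
      + 26818248 * r * n * n * c9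
      + 2609079 * n * n * i * c12
      + 40726896 * m * i * e * c12
      + 64201737 * m * e * f * c12
      + 125477040 * c7 * c7
      + 36544170 * n * n * c7
      + 60834345 * p * n * c8
      + 30960 * m * e * (-6 + 7 * r - 5 * p + 10 * m - 6 * n - 6 * i - 3 * e + 9 * f) ^ 2
      + 299336313 * r * f * c7 * c7
      + 17329743 * c7
      + 275824143 * p * e * c8
      + 39472842 * p * e * e * c8
      + 40187730 * r * n * c8
      + 85359417 * r * f * c8
      + 1907970 * n * n * f * c12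
      + 351108264 * m * m * m * c7
      + 38032866 * p * p * i * c9 := by positivity

private theorem part17_3 {r p m n i e f c7 c8 c9 c10 c11 c12 : ℝ} (hr : 0 ≤ r) (hp : 0 ≤ p) (hm : 0 ≤ m) (hn : 0 ≤ n) (hi : 0 ≤ i) (he : 0 ≤ e) (hf : 0 ≤ f) (hc7 : 0 ≤ c7) (hc8 : 0 ≤ c8) (hc9 : 0 ≤ c9) (hc10 : 0 ≤ c10) (hc11 : 0 ≤ c11) (hc12 : 0 ≤ c12) :
    0 ≤ 20835 * c8 * (-5 - 14 * r + 10 * p - 3 * m + 2 * n + 4 * f) ^ 2
      + 56744547 * p * f * f * c8
      + 65799 * p * n * i * c12
      + 77877 * f * c11 * (7 + 13 * r - 4 * p + 9 * m + 7 * n + 7 * i + 7 * e + 10 * f) ^ 2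
      + 130087044 * r * r * c11
      + 391368663 * r * r * c7 * c10
      + 254082 * (2 + 9 * r - 7 * p + 2 * m + n - 3 * i - e - 2 * f + 8 * r * r - 16 * r * p - 12 * r * m + 6 * r * n - 6 * r * i - 6 * r * e - 5 * r * f + 7 * p * p + 6 * p * m - 3 * p * n + 3 * p * i + 4 * p * e + 3 * p * f - 10 * m * m + 4 * m * n + 2 * m * i - 2 * m * e - m * f - n * i + n * e - i * i + i * e + i * f + f * f) ^ 2
      + 25494072 * f * c12
      + 3508773 * n * i * i * c8
      + 207549612 * e * c7 * c7 * c7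
      + 247812 * m * n * f * c12
      + 41486919 * n * f * f * c7
      + 90939750 * p * i * f * c12
      + 112671690 * p * p * c8
      + 54816081 * e * e * f * c12
      + 41708319 * e * e * c12
      + 81534 * i * c9 * (-10 - r + 7 * m - 8 * n - 5 * i + e + f) ^ 2
      + 156594381 * r * c11
      + 4400640 * p * m * n * c12
      + 377388423 * r * m * m * c12 := by positivity

private theorem part17_4 {r p m n i e f c7 c8 c10 c11 c12 : ℝ} (hr : 0 ≤ r) (hp : 0 ≤ p) (hm : 0 ≤ m) (hn : 0 ≤ n) (hi : 0 ≤ i) (he : 0 ≤ e) (hf : 0 ≤ f) (hc7 : 0 ≤ c7) (hc8 : 0 ≤ c8) (hc10 : 0 ≤ c10) (hc11 : 0 ≤ c11) (hc12 : 0 ≤ c12) :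
    0 ≤ 28839711 * p * n * f * c12
      + 47232123 * e * f * c12
      + 71704602 * p * i * e * c12
      + 108951405 * m * m * n * c8
      + 31956069 * p * i * i * c12
      + 41551635 * r * r * i * c8
      + 102620583 * p * e * f * c12
      + 19406175 * p * p * e * c7
      + 123450390 * c11 * c12
      + 45634869 * p * i * c7
      + 53432484 * i * e * f * c12
      + 42664836 * p * p * f * c12
      + 25821591 * i * f * c7 * c7
      + 70562652 * m * c7 * c12
      + 97371243 * m * c8 * c8 * c8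
      + 41388222 * n * f * c8
      + 2445246 * n * i * c7 * c7
      + 62464155 * m * e * c8
      + 12695871 * p * e * c7 * c7
      + 152059527 * r * r * i * c10 := by positivity

private theorem part17_5 {r p m n i e f c7 c8 c9 c10 c11 c12 : ℝ} (hr : 0 ≤ r) (hp : 0 ≤ p) (hm : 0 ≤ m) (hn : 0 ≤ n) (hi : 0 ≤ i) (he : 0 ≤ e) (hf : 0 ≤ f) (hc7 : 0 ≤ c7) (hc8 : 0 ≤ c8) (hc9 : 0 ≤ c9) (hc10 : 0 ≤ c10) (hc11 : 0 ≤ c11) (hc12 : 0 ≤ c12) :
    0 ≤ 224810724 * r * m * c7
      + 209537142 * c7 * c8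
      + 60279567 * r * n * c7 * c7
      + 37919271 * p * p * p * c8
      + 36829758 * r * r * f * c12
      + 36094887 * n * n * c8 * c9
      + 11537325 * c11
      + 54113148 * n * n * c8
      + 33748524 * c8
      + 287973906 * p * m * m * c7
      + 22517928 * r * r * e * c12
      + 2587845 * m * m * (3 - 3 * r - 4 * p - 10 * m + 2 * n + 2 * e + f) ^ 2
      + 19953780 * r * n * e * c12
      + 4763679 * m * i * i * c9
      + 285429 * e * c11 * (7 + 12 * r - 3 * p + 10 * m + 6 * n + 8 * i + 10 * e + 7 * f) ^ 2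
      + 31395615 * e * e * e * c12
      + 16734870 * r * i * i * c7
      + 120016983 * r * r * r * c8
      + 8411634 * c10 * c12
      + 17874225 * r * p * n * c12 := by positivity

private theorem part17_6 {r p m n i e f c7 c8 c9 c11 c12 : ℝ} (hr : 0 ≤ r) (hp : 0 ≤ p) (hm : 0 ≤ m) (hn : 0 ≤ n) (hi : 0 ≤ i) (he : 0 ≤ e) (hf : 0 ≤ f) (hc7 : 0 ≤ c7) (hc8 : 0 ≤ c8) (hc9 : 0 ≤ c9) (hc11 : 0 ≤ c11) (hc12 : 0 ≤ c12) :
    0 ≤ 66556443 * p * p * e * c8
      + 7192884 * r * i * i * c9
      + 10325679 * r * n * c7 * c12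
      + 36990039 * p * p * e * c12
      + 31946355 * p * p * i * c12
      + 136625481 * p * p * m * c11
      + 407500662 * r * m * m * c11
      + 9604782 * r * f * f * c8
      + 386850 * c11 * (-2 * r + 2 * p + m - 5 * n + 10 * i - 2 * e + 2 * f) ^ 2
      + 48157032 * m * m * e * c9
      + 58622967 * m * i * i * c7
      + 170867499 * m * c7 * c8 * c11
      + 350899605 * m * m * c7
      + 201590880 * r * p * c7 * c7
      + 43148634 * n * i * f * c7
      + 44701728 * m * n * c9
      + 5199123 * f * f * c12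
      + 344577 * m * e * (10 - 6 * r + 5 * p + 4 * m - 5 * e + 3 * f) ^ 2
      + 691119 * p * c9
      + 925317 * m * f * (-10 - r + 10 * m - 2 * n - 5 * i + 4 * e) ^ 2 := by positivity

private theorem part17_7 {r p m n i e f c7 c8 c9 c10 c12 : ℝ} (hr : 0 ≤ r) (hp : 0 ≤ p) (hm : 0 ≤ m) (hn : 0 ≤ n) (hi : 0 ≤ i) (he : 0 ≤ e) (hf : 0 ≤ f) (hc7 : 0 ≤ c7) (hc8 : 0 ≤ c8) (hc9 : 0 ≤ c9) (hc10 : 0 ≤ c10) (hc12 : 0 ≤ c12) :
    0 ≤ 18313884 * p * m * c12
      + 289068 * p * e * (-6 - 16 * r + 10 * p - 3 * m + n + 2 * e + f) ^ 2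
      + 23270508 * p * n * e * c12
      + 77412 * r * c12 * (-8 - 17 * r + 8 * p - 4 * m + 3 * n - 8 * i - 2 * e + 10 * f) ^ 2
      + 19328442 * f * c8
      + 12221394 * r * i * f * c10
      + 7357812 * n * f * f * c12
      + 10724949 * e * c9
      + 28092288 * p * e * e * c12
      + 11965788 * p * n * e * c8
      + 25267755 * m * n * n * c7
      + 5137710 * n * n * e * c12
      + 89818797 * p * e * f * c8
      + 56015586 * r * e * e * c12
      + 63065658 * r * e * f * c12
      + 9720696 * m * f * f * c10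
      + 2440581 * r * n * f * c12
      + 58734 * f * (-3 - 12 * r + 3 * p - 8 * m + 10 * n - 3 * i - 7 * e + 2 * f) ^ 2
      + 186781914 * p * i * c8
      + 7894056 * m * n * n * c12 := by positivity

private theorem part17_8 {r p m n i e f c7 c8 c9 c10 c11 c12 : ℝ} (hr : 0 ≤ r) (hp : 0 ≤ p) (hm : 0 ≤ m) (hn : 0 ≤ n) (hi : 0 ≤ i) (he : 0 ≤ e) (hf : 0 ≤ f) (hc7 : 0 ≤ c7) (hc8 : 0 ≤ c8) (hc9 : 0 ≤ c9) (hc10 : 0 ≤ c10) (hc11 : 0 ≤ c11) (hc12 : 0 ≤ c12) :
    0 ≤ 41263581 * i * f * f * c7
      + 118988097 * m * i * c9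
      + 82194063 * p * p * m * c7
      + 257854281 * i * c7 * c7
      + 200169 * i * (-4 + 13 * r - 10 * p + 3 * m - 3 * n - 3 * i) ^ 2
      + 6121347 * m * e * c12
      + 18100416 * e * e * f * c7
      + 51527679 * c8 * c8 * c8
      + 32273130 * r * p * i * c12
      + 68022 * p * c8 * (5 - 2 * r + 5 * p + 9 * m + 8 * n + 10 * i + 10 * e + 10 * f) ^ 2
      + 9602679 * r * m * f * c12
      + 14275047 * n * n * c8 * c12
      + 91880988 * r * e * e * c8
      + 804030 * p * c10 * (-1 + 14 * r - 10 * p + 4 * m - 3 * n - 3 * i) ^ 2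
      + 77269299 * p * f * f * c12
      + 98677677 * r * r * n * c8
      + 21315 * m * c12 * (-5 + 12 * r - 8 * p + 10 * m - 7 * n - i + 2 * e + f) ^ 2
      + 838977 * p * c11 * (-2 + 4 * r + 2 * p + 9 * m + 3 * n + 6 * i + 10 * e + 10 * f) ^ 2
      + 22848108 * n * e * f * c12
      + 71382303 * m * m * c9 := by positivity

private theorem part17_9 {r p m n i e f c7 c8 c9 c10 c11 c12 : ℝ} (hr : 0 ≤ r) (hp : 0 ≤ p) (hm : 0 ≤ m) (hn : 0 ≤ n) (hi : 0 ≤ i) (he : 0 ≤ e) (hf : 0 ≤ f) (hc7 : 0 ≤ c7) (hc8 : 0 ≤ c8) (hc9 : 0 ≤ c9) (hc10 : 0 ≤ c10) (hc11 : 0 ≤ c11) (hc12 : 0 ≤ c12) :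
    0 ≤ 4063440 * r * r * i * c12
      + 18438582 * n * i * e * c12
      + 43364100 * p * m * i * c12
      + 1060938 * p * m * (-1 + 14 * r - 10 * p + 4 * m - 3 * n - 3 * i) ^ 2
      + 2345205 * n * f * c12
      + 9650298 * p * p * n * c8
      + 166561065 * p * c9 * c11
      + 44526600 * p * m * e * c12
      + 17519451 * m * n * e * c12
      + 33000471 * p * m * c7 * c12
      + 49692399 * r * m * m * c7
      + 79224 * c12 * (-6 - 14 * r + 4 * p - 3 * m + 6 * n - 5 * i + 3 * e + 4 * f) ^ 2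
      + 33638223 * m * m * i * c7
      + 1187397 * p * (-2 - 8 * r + 6 * p + 10 * m - 5 * n - 4 * i - 3 * e - 6 * f) ^ 2
      + 385059 * c9 * (-14 * r + 10 * p - 4 * m + n + i) ^ 2
      + 17937447 * r * n * n * c8
      + 733740 * p * c10 * (n - 2 * i - 9 * e + 10 * f) ^ 2
      + 8008893 * n * e * c12
      + 344301 * c11 * (-9 + 5 * r + 3 * p + 10 * m - 9 * n - 4 * i + 2 * e - 3 * f) ^ 2
      + 32225067 * i * i * c8 * c8 := by positivity

private theorem part17_10 {r p m n i e f c7 c8 c9 c10 c11 c12 : ℝ} (hr : 0 ≤ r) (hp : 0 ≤ p) (hm : 0 ≤ m) (hn : 0 ≤ n) (hi : 0 ≤ i) (he : 0 ≤ e) (hf : 0 ≤ f) (hc7 : 0 ≤ c7) (hc8 : 0 ≤ c8) (hc9 : 0 ≤ c9) (hc10 : 0 ≤ c10) (hc11 : 0 ≤ c11) (hc12 : 0 ≤ c12) :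
    0 ≤ 53623848 * f * c7 * c8
      + 30358041 * p * n * f * c8
      + 750 * n * c11 * c12 * c12
      + 875412 * m * c10 * (2 + 8 * r + 2 * p - 4 * m - 3 * n - 5 * i - 8 * e + 6 * f) ^ 2
      + 50365641 * m * m * f * c10
      + 64985250 * m * n * i * c9
      + 22134867 * n * e * e * c12
      + 1602987 * p * p * i * c8
      + 22280991 * i * i * e * c12
      + 53445711 * i * e * e * c12
      + 55475100 * m * e * e * c12
      + 26934 * i * c7 * (1 - 2 * r - 3 * p - 3 * m + 3 * n - 10 * i - f) ^ 2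
      + 4948596 * n * i * f * c12
      + 118245 * r * c7 * (-2 - 15 * r + 10 * p + m - n + 5 * i + e + f) ^ 2
      + 123714474 * r * e * e * c7
      + 12065763 * m * m * i * c12
      + 4024938 * i * i * i * c12
      + 4447914 * i * f * c12
      + 86259 * m * i * (-1 + 14 * r - 10 * p + 4 * m - 3 * n - 3 * i) ^ 2
      + 5645820 * i * i * f * c12 := by positivity

private theorem part17_11 {r p m n i e f c7 c8 c10 c11 c12 : ℝ} (hr : 0 ≤ r) (hp : 0 ≤ p) (hm : 0 ≤ m) (hn : 0 ≤ n) (hi : 0 ≤ i) (he : 0 ≤ e) (hf : 0 ≤ f) (hc7 : 0 ≤ c7) (hc8 : 0 ≤ c8) (hc10 : 0 ≤ c10) (hc11 : 0 ≤ c11) (hc12 : 0 ≤ c12) :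
    0 ≤ 238110 * c8 * c8 * (-8 - 18 * r + 10 * p - 7 * m + 4 * n - 4 * i + 4 * f) ^ 2
      + 33756723 * r * p * p * c11
      + 25599780 * n * f * f * c8
      + 26919399 * r * p * e * c8
      + 103873266 * p * i * f * c8
      + 33444024 * e * f * f * c12
      + 9049344 * r * p * c10 * c12
      + 106795461 * n * f * c7
      + 13326288 * r * m * e * c12
      + 44742249 * p * m * f * c12
      + 14404248 * i * f * f * c12
      + 14117985 * r * c12
      + 43867281 * r * i * e * c12
      + 104731008 * e * c10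
      + 9343656 * f * f * f * c12
      + 60771 * i * f * (1 + 18 * r - 10 * p + 3 * m + 2 * n - 6 * i - 4 * e + 5 * f) ^ 2
      + 2785 * r
      + 3178 * r * m
      + 2852 * r * m * m
      + 3386 * r * r * i := by positivity

private theorem part17_12 {r p m n i : ℝ} (hr : 0 ≤ r) (hp : 0 ≤ p) (hm : 0 ≤ m) (hn : 0 ≤ n) (hi : 0 ≤ i) :
    0 ≤ 2816 * r * p * p
      + 3143 * r * r
      + 3154 * r * p * m
      + 3299 * r * r * m
      + 2903 * m
      + 6904605 * m * m
      + 3072 * r * i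
      + 2662 * p * p
      + 3168 * p * m
      + 2811 * m * m * m
      + 3107 * r * m * i
      + 2589 * p * p * m
      + 3186 * p * m * m
      + 3300 * r * m * m * m
      + 3102 * r * r * m * i
      + 3534 * r * p * p * m
      + 162747300 * r * p * m * m
      + 2910 * r * r * m * m
      + 3288 * p
      + 3173 * n := by positivity

private theorem part17_13 {p n i e f : ℝ} (hp : 0 ≤ p) (hn : 0 ≤ n) (hi : 0 ≤ i) (he : 0 ≤ e) (hf : 0 ≤ f) :
    0 ≤ 2850 * p * n
      + 2782 * i
      + 34428183 * p * i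
      + 2997 * e
      + 2686002 * p * e
      + 3050 * f
      + 2877 * p * f
      + 2663 * n * n
      + 3073 * n * i
      + 2818 * n * e
      + 2647 * n * f
      + 61861103 * i * i
      + 3052 * i * e
      + 3055 * i * f
      + 3044 * e * e
      + 39578683 * e * f
      + 2963 * f * f
      + 3187 * p * n * n
      + 3149 * p * n * i
      + 3005 * p * n * e := by positivity

private theorem part17_14 {r p m n i e f : ℝ} (hr : 0 ≤ r) (hp : 0 ≤ p) (hm : 0 ≤ m) (hn : 0 ≤ n) (hi : 0 ≤ i) (he : 0 ≤ e) (hf : 0 ≤ f) :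
    0 ≤ 3227 * p * n * f
      + 2986 * p * i * i
      + 108125207 * p * i * e
      + 184090307 * p * i * f
      + 2926 * p * e * e
      + 2900 * p * e * f
      + 3984205 * p * f * f
      + 3199 * p * p * p
      + 3281 * p * p * n
      + 2750 * p * p * i
      + 3110 * p * p * e
      + 3398 * p * p * f
      + 2917
      + 105101103 * r * e
      + 3180 * m * i
      + 20622363 * m * e
      + 3061 * r * r * e
      + 3056 * r * m * e
      + 2944 * m * m * i
      + 2974 * m * m * e := by positivity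

private theorem part17_15 {r p m n i e f : ℝ} (hr : 0 ≤ r) (hp : 0 ≤ p) (hm : 0 ≤ m) (hn : 0 ≤ n) (hi : 0 ≤ i) (he : 0 ≤ e) (hf : 0 ≤ f) :
    0 ≤ 2859 * p * m * m * n
      + 25246257 * p * m * m * e
      + 2829 * p * m * m * f
      + 2964 * p * m * e
      + 43554786 * p * m * f
      + 3231 * r * p * p * f
      + 2808 * p * p * p * f
      + 2601 * r * p * m * f
      + 3090 * r * n * i
      + 3180 * p * m * i
      + 2805 * r * p * i
      + 3123 * r * i * i
      + 2637 * r * r * r * i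
      + 3039 * r * r * p * i
      + 2550 * r * r * n * i
      + 3003 * r * r * i * i
      + 36751980 * r * p * p * i
      + 2607 * r * p * m * i
      + 3162 * r * p * n * i
      + 2805 * r * p * i * i := by positivity

private theorem part17_16 {r p m n i e f : ℝ} (hr : 0 ≤ r) (hp : 0 ≤ p) (hm : 0 ≤ m) (hn : 0 ≤ n) (hi : 0 ≤ i) (he : 0 ≤ e) (hf : 0 ≤ f) :
    0 ≤ 590604306 * r * m * m * i
      + 2790 * r * m * n * i
      + 2772 * r * m * i * i
      + 3084 * r * n * n * i
      + 2943 * r * n * i * i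
      + 2889 * r * i * i * i
      + 2991 * p * m * n
      + 3117 * m * n * n
      + 3243 * m * n * i
      + 3051 * m * n * e
      + 2886 * m * n * f
      + 3075 * n * n * n
      + 2673 * n * n * i
      + 3183 * n * n * e
      + 3207 * n * n * f
      + 3048 * n * i * i
      + 2874 * n * i * e
      + 2778 * n * i * f
      + 2691 * r * p * n
      + 2976 * r * p * m * n := by positivity

private theorem part17_17 {r p m n i e f : ℝ} (hr : 0 ≤ r) (hp : 0 ≤ p) (hm : 0 ≤ m) (hn : 0 ≤ n) (hi : 0 ≤ i) (he : 0 ≤ e) (hf : 0 ≤ f) :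
    0 ≤ 2835 * r * p * n * n
      + 2919 * p * p * m * n
      + 2943 * p * p * n * n
      + 2922 * p * p * n * i
      + 56413479 * r * e * e
      + 3180 * m * n
      + 2706 * r * m * n
      + 3228 * m * f
      + 122593548 * r * m * f
      + 2223 * r * r * r * m
      + 2853 * r * r * p * m
      + 3072 * r * r * m * n
      + 2946 * r * r * m * e
      + 3003 * r * p * m * e
      + 3561 * r * r * m * f
      + 2820 * p * p * p * m
      + 3186 * p * p * m * m
      + 31264944 * p * p * m * i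
      + 2832 * p * p * m * e
      + 3033 * p * p * m * f := by positivity

private theorem part17_18 {r p m n i e f : ℝ} (hr : 0 ≤ r) (hp : 0 ≤ p) (hm : 0 ≤ m) (hn : 0 ≤ n) (hi : 0 ≤ i) (he : 0 ≤ e) (hf : 0 ≤ f) :
    0 ≤ 2973 * p * m * m * m
      + 2961 * m * m * n
      + 3300 * r * m * m * n
      + 286059828 * p * m * m * i
      + 2937 * r * m * m * e
      + 3177 * m * m * f
      + 3006 * r * m * m * f
      + 2775 * r * m * n * n
      + 3141 * p * m * n * n
      + 3003 * p * m * n * i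
      + 3276 * r * m * n * e
      + 2628 * p * m * n * e
      + 3123 * r * m * n * f
      + 2793 * p * m * n * f
      + 102302676 * m * i * i
      + 59655027 * p * m * i * i
      + 37697100 * m * i * e
      + 3129 * r * m * i * e
      + 50124258 * p * m * i * e
      + 3138 * m * i * f := by positivity

private theorem part17_19 {r p m n i e f : ℝ} (hr : 0 ≤ r) (hp : 0 ≤ p) (hm : 0 ≤ m) (hn : 0 ≤ n) (hi : 0 ≤ i) (he : 0 ≤ e) (hf : 0 ≤ f) :
    0 ≤ 3354 * r * m * i * f
      + 143847366 * p * m * i * f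
      + 68119806 * m * e * e
      + 2988 * r * m * e * e
      + 2859 * p * m * e * e
      + 48198522 * m * e * f
      + 3336 * r * m * e * f
      + 2451 * p * m * e * f
      + 44205783 * m * f * f
      + 132202638 * r * m * f * f
      + 2973 * p * m * f * f
      + 2502 * r * p * f
      + 2985 * r * n * n * n
      + 3072 * m * n * n * n
      + 3156 * r * p * p * p
      + 3093 * m * m * n * f
      + 3048 * m * m * m * f
      + 3000 * r * i * f
      + 3564 * r * r * i * f
      + 2196 * r * p * i * f := by positivity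

private theorem part17_20 {r p m n i e f : ℝ} (hr : 0 ≤ r) (hp : 0 ≤ p) (hm : 0 ≤ m) (hn : 0 ≤ n) (hi : 0 ≤ i) (he : 0 ≤ e) (hf : 0 ≤ f) :
    0 ≤ 3111 * p * p * i * f
      + 3714 * r * r * p * n
      + 2337 * r * r * p
      + 271592160 * m * m * m * e
      + 3192 * m * m * e * e
      + 3063 * m * m * e * f
      + 61449648 * m * e * e * e
      + 3429 * m * e * e * f
      + 3021 * m * e * f * f
      + 2445 * r * r * r * p
      + 3342 * r * r * p * p
      + 3510 * r * n
      + 2709 * r * p * e * e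
      + 2685 * r * p * f * f
      + 2976 * m * m * m * n
      + 3174 * m * m * m * m
      + 2931 * m * n * i * i
      + 9593457 * m * m * i * i
      + 130330365 * m * m * i * f
      + 2868 * m * m * f * f := by positivity

private theorem part17_21 {r p m n i e f : ℝ} (hr : 0 ≤ r) (hp : 0 ≤ p) (hm : 0 ≤ m) (hn : 0 ≤ n) (hi : 0 ≤ i) (he : 0 ≤ e) (hf : 0 ≤ f) :
    0 ≤ 3120 * m * n * n * f
      + 3186 * m * n * i * f
      + 3414 * m * n * e * f
      + 3255 * m * n * f * f
      + 4108719 * m * i * i * f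
      + 108094032 * m * i * e * f
      + 3165 * m * i * f * f
      + 34234848 * m * f * f * f
      + 2814 * r * p * p * n
      + 2913 * r * n * e
      + 3243 * m * m * n * e
      + 25382718 * r * r * p * f
      + 191985693 * r * p * e * f
      + 2952 * p * p * e * f
      + 2973 * p * p * f * f
      + 125030652 * p * i * i * f
      + 282682494 * p * i * e * f
      + 135656634 * p * i * f * f
      + 100094280 * p * e * e * f
      + 142101315 * p * e * f * f := by positivity

private theorem part17_22 {r p m n i e f : ℝ} (hr : 0 ≤ r) (hp : 0 ≤ p) (hm : 0 ≤ m) (hn : 0 ≤ n) (hi : 0 ≤ i) (he : 0 ≤ e) (hf : 0 ≤ f) :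
    0 ≤ 141177963 * p * f * f * f
      + 24724065 * r * r * e * f
      + 156610023 * r * r * i * e
      + 3174 * m * m * i * e
      + 3042 * n * n * i * i
      + 2781 * r * n * n
      + 3018 * n * n * n * i
      + 59367450 * m * n * n * i
      + 3126 * m * n * i * e
      + 3000 * m * n * n * e
      + 3237 * m * n * e * e
      + 42451869 * m * i * i * e
      + 119324991 * m * i * e * e
      + 150194100 * r * r * r * f
      + 2634 * r * p * e
      + 2991 * p * p * e * e
      + 2757 * r * r * n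
      + 3084 * r * f
      + 257078040 * r * r * f
      + 3033 * n * n * n * f := by positivity

private theorem part17_23 {r p n i e f : ℝ} (hr : 0 ≤ r) (hp : 0 ≤ p) (hn : 0 ≤ n) (hi : 0 ≤ i) (he : 0 ≤ e) (hf : 0 ≤ f) :
    0 ≤ 2925 * p * p * i * i
      + 3219 * r * p
      + 3516 * r * r * r
      + 3120 * r * n * f
      + 3198 * r * f * f
      + 2988 * p * n * n * i
      + 100145754 * r * e * f
      + 3174 * n * e * f
      + 3183 * n * f * f
      + 81102276 * i * i * f
      + 123545226 * i * e * f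
      + 63878691 * i * f * f
      + 123200355 * e * e * f
      + 79523205 * e * f * f
      + 25673937 * f * f * f
      + 3747 * r * r * n * f
      + 8420628 * r * r * f * f
      + 2223 * r * p * n * f
      + 3012 * r * n * n * f
      + 3654 * r * n * i * f := by positivity

private theorem part17_24 {r p n i e f : ℝ} (hr : 0 ≤ r) (hp : 0 ≤ p) (hn : 0 ≤ n) (hi : 0 ≤ i) (he : 0 ≤ e) (hf : 0 ≤ f) :
    0 ≤ 3540 * r * n * e * f
      + 3111 * r * n * f * f
      + 27106566 * r * i * i * f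
      + 157663890 * r * i * e * f
      + 3537 * r * i * f * f
      + 112528230 * r * e * e * f
      + 85422690 * r * e * f * f
      + 22788840 * r * f * f * f
      + 2973 * p * p * n * f
      + 2916 * p * n * n * f
      + 2766 * p * n * i * f
      + 2658 * p * n * e * f
      + 2742 * p * n * f * f
      + 3099 * n * n * i * f
      + 3183 * n * n * e * f
      + 3129 * n * n * f * f
      + 3063 * n * i * i * f
      + 3378 * n * i * e * f
      + 3288 * n * i * f * f
      + 3333 * n * e * e * f := by positivity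

private theorem part17_25 {r n i e f : ℝ} (hr : 0 ≤ r) (hn : 0 ≤ n) (hi : 0 ≤ i) (he : 0 ≤ e) (hf : 0 ≤ f) :
    0 ≤ 3351 * n * e * f * f
      + 3168 * n * f * f * f
      + 1321041 * i * i * i * f
      + 58421319 * i * i * e * f
      + 18700629 * i * i * f * f
      + 128072331 * i * e * e * f
      + 77314251 * i * e * f * f
      + 16663041 * i * f * f * f
      + 72318933 * e * e * e * f
      + 68664834 * e * e * f * f
      + 32676501 * e * f * f * f
      + 7533618 * f * f * f * f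
      + 211758273 * r * r * r * e
      + 58424973 * r * i * e
      + 51392850 * i * i * i
      + 77661027 * i * i * e
      + 3225 * n * e * e
      + 107742237 * i * e * e
      + 2970 * r * r * r * r
      + 2592 * r * r * r * n := by positivity

private theorem part17_26 {r p n i e : ℝ} (hr : 0 ≤ r) (hp : 0 ≤ p) (hn : 0 ≤ n) (hi : 0 ≤ i) (he : 0 ≤ e) :
    0 ≤ 3084 * r * r * p * e
      + 2970 * r * r * n * e
      + 2814 * r * p * p * e
      + 2700 * r * p * n * e
      + 7575192 * r * p * i * e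
      + 3180 * r * r * n * n
      + 3120 * r * n * n * e
      + 3162 * r * n * i * e
      + 3093 * r * r * e * e
      + 3252 * r * n * e * e
      + 126354312 * r * i * e * e
      + 2895 * p * p * p * p
      + 2886 * p * p * p * n
      + 3003 * p * p * p * i
      + 77854218 * p * p * p * e
      + 2979 * p * p * n * e
      + 21477825 * p * p * i * e
      + 2943 * p * n * n * e
      + 2844 * p * n * i * e
      + 31727664 * p * i * i * i := by positivity

private theorem part17_27 {r p m n i e : ℝ} (hr : 0 ≤ r) (hp : 0 ≤ p) (hm : 0 ≤ m) (hn : 0 ≤ n) (hi : 0 ≤ i) (he : 0 ≤ e) :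
    0 ≤ 109591758 * p * i * i * e
      + 2832 * p * n * e * e
      + 132461952 * p * i * e * e
      + 2988 * m * m * m * i
      + 2868 * m * m * n * i
      + 2814 * m * m * n * n
      + 3108 * m * i * i * i
      + 3084 * n * n * i * e
      + 3030 * n * i * i * i
      + 3102 * n * i * i * e
      + 3108 * n * n * e * e
      + 3252 * n * i * e * e
      + 1784268 * i * i * i * i
      + 17960280 * i * i * i * e
      + 63763548 * i * i * e * e
      + 2979 * p * n * i * i
      + 54639300 * r * i * i * e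
      + 3000 * p * n * n * n
      + 74280279 * e * e * e
      + 68502960 * r * e * e * e := by positivity

private theorem part17_28 {p n i e : ℝ} (hp : 0 ≤ p) (hn : 0 ≤ n) (hi : 0 ≤ i) (he : 0 ≤ e) :
    0 ≤ 96505728 * p * e * e * e
      + 3024 * n * n * n * e
      + 3150 * n * e * e * e
      + 74211540 * i * e * e * e
      + 28542900 * e * e * e * e
      + 3000 * n * n * n * n := by positivity

theorem leaf17 {r p m n i e f : ℝ} (h0 : 0 ≤ r) (h1 : 0 ≤ p) (h2 : 0 ≤ m) (h3 : 0 ≤ n) (h4 : 0 ≤ i) (h5 : 0 ≤ e) (h6 : 0 ≤ f) (h7 : 0 ≤ r - m) (h8 : 0 ≤ 1 - r - p) (h9 : 0 ≤ 1 - m - n - i) (h10 : 0 ≤ m - e - f) (h11 : 0 ≤ p - n - i - e - f) (h12 : 0 ≤ -1 + m + 2 * n) :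
    0 ≤ 107500000 + 47500000 * r - 348000000 * p - 103750000 * m + 72500000 * n + 212500000 * i + 105000000 * e + 72500000 * f + 95000000 * r * r - 211250000 * r * m - 327000000 * r * i - 27000000 * r * e + 568000000 * p * p - 300000000 * p * m + 330000000 * p * n + 330000000 * p * i + 330000000 * p * e + 330000000 * p * f + 558750000 * m * m + 120000000 * m * i + 120000000 * m * e - 276250000 * n * n - 552500000 * n * i - 552500000 * n * e - 552500000 * n * f - 276250000 * i * i - 552500000 * i * e - 552500000 * i * f - 276250000 * e * e - 552500000 * e * f - 276250000 * f * f + 485000000 * r * r * m - 10000000 * r * r * i - 200000000 * r * r * e - 190000000 * r * p * p + 190000000 * r * p * m - 598750000 * r * m * m - 985000000 * r * m * i - 400000000 * r * m * e - 200000000 * p * p * p + 585000000 * p * p * m - 400000000 * p * p * n - 400000000 * p * p * i - 400000000 * p * p * e - 400000000 * p * p * f - 105000000 * p * m * m + 148750000 * p * n * n + 297500000 * p * n *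 i + 297500000 * p * n * e + 297500000 * p * n * f + 148750000 * p * i * i + 297500000 * p * i * e + 297500000 * p * i * f + 148750000 * p * e * e + 297500000 * p * e * f + 148750000 * p * f * f - 731250000 * m * m * m + 220000000 * m * m * i + 220000000 * m * m * e - 195000000 * r * r * m * m + 675000000 * r * r * m * i - 675000000 * r * p * p * m + 1635000000 * r * p * m * m + 843750000 * r * m * m * m - 480000000 * p * m * m * n - 480000000 * p * m * m * e - 480000000 * p * m * m * f := by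
  have t0 := part17_0 h0 h1 h2 h3 h4 h5 h6 h7 h8 h9 h10 h11 h12
  have t1 := part17_1 h0 h1 h2 h3 h4 h5 h6 h7 h8 h9 h10 h11 h12
  have t2 := part17_2 h0 h1 h2 h3 h4 h5 h6 h7 h8 h9 h10 h12
  have t3 := part17_3 h0 h1 h2 h3 h4 h5 h6 h7 h8 h9 h10 h11 h12
  have t4 := part17_4 h0 h1 h2 h3 h4 h5 h6 h7 h8 h10 h11 h12
  have t5 := part17_5 h0 h1 h2 h3 h4 h5 h6 h7 h8 h9 h10 h11 h12
  have t6 := part17_6 h0 h1 h2 h3 h4 h5 h6 h7 h8 h9 h11 h12
  have t7 := part17_7 h0 h1 h2 h3 h4 h5 h6 h7 h8 h9 h10 h12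
  have t8 := part17_8 h0 h1 h2 h3 h4 h5 h6 h7 h8 h9 h10 h11 h12
  have t9 := part17_9 h0 h1 h2 h3 h4 h5 h6 h7 h8 h9 h10 h11 h12
  have t10 := part17_10 h0 h1 h2 h3 h4 h5 h6 h7 h8 h9 h10 h11 h12
  have t11 := part17_11 h0 h1 h2 h3 h4 h5 h6 h7 h8 h10 h11 h12
  have t12 := part17_12 h0 h1 h2 h3 h4
  have t13 := part17_13 h1 h3 h4 h5 h6
  have t14 := part17_14 h0 h1 h2 h3 h4 h5 h6
  have t15 := part17_15 h0 h1 h2 h3 h4 h5 h6
  have t16 := part17_16 h0 h1 h2 h3 h4 h5 h6
  have t17 := part17_17 h0 h1 h2 h3 h4 h5 h6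
  have t18 := part17_18 h0 h1 h2 h3 h4 h5 h6
  have t19 := part17_19 h0 h1 h2 h3 h4 h5 h6
  have t20 := part17_20 h0 h1 h2 h3 h4 h5 h6
  have t21 := part17_21 h0 h1 h2 h3 h4 h5 h6
  have t22 := part17_22 h0 h1 h2 h3 h4 h5 h6
  have t23 := part17_23 h0 h1 h3 h4 h5 h6
  have t24 := part17_24 h0 h1 h3 h4 h5 h6
  have t25 := part17_25 h0 h3 h4 h5 h6
  have t26 := part17_26 h0 h1 h3 h4 h5
  have t27 := part17_27 h0 h1 h2 h3 h4 h5
  have t28 := part17_28 h1 h3 h4 h5
  linarith only [t0, t1, t2, t3, t4, t5, t6, t7, t8, t9, t10, t11, t12, t13, t14, t15, t16, t17, t18, t19, t20, t21, t22, t23, t24, t25, t26, t27, t28]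

end Vale.Agent.P038.K4
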