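import Mathlib

/-
P038: counting lemmas for out-neighbourhoods without triangles.
-/

namespace Vale.Agent.P038.K4

open Finset

variable {V : Type*} (A : V → V → Prop)

/-- Adjacency in the underlying graph. -/
def Adj (a b : V) : Prop := A a b ∨ A b a

theorem adj_comm {a b : V} : Adj A a b ↔ Adj A b a := or_comm

variable [DecidableEq V] [DecidableRel A]

instance : DecidableRel (Adj A) := fun a b => inferInstanceAs (Decidable (A a b ∨ A b a))

theorem swap_count (s t : Finset V) :
    ∑ a ∈ s, (t.filter (A a ·)).card = ∑ b ∈ t, (s.filter (A · b)).card := by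
  simp only [card_filter]
  exact sum_comm

theorem out_add_in_le (hA : ∀ u v, A u v → ¬ A v u) (s t : Finset V) (h : t ⊆ s) (c : V) :
    (s.filter (A c ·)).card + (t.filter (A · c)).card ≤ (s.filter (Adj A c ·)).card := by
  rw [← card_union_of_disjoint]
  · refine card_le_card ?_
    intro z hz
    simp only [mem_union, mem_filter] at hz ⊢
    rcases hz with ⟨h1, h2⟩ | ⟨h1, h2⟩
    · exact ⟨h1, Or.inl h2⟩
    · exact ⟨h h1, Or.inr h2⟩
  · rw [disjoint_left]
    intro z hz hz'
    simp only [mem_filter] at hz hz'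
    exact hA _ _ hz.2 hz'.2

/-- Arcs inside a triangle-free set `s` with an independent subset `I`. -/
theorem arcs_le (hA : ∀ u v, A u v → ¬ A v u) (s I : Finset V) (hI : I ⊆ s)
    (hind : ∀ a ∈ I, ∀ b ∈ I, ¬ A a b)
    (htri : ∀ a ∈ s, ∀ b ∈ s, ∀ c ∈ s, Adj A a b → Adj A a c → Adj A b c → False) :
    4 * (∑ c ∈ s, (s.filter (A c ·)).card) ≤ s.card * s.card ∧
      (s.card ≤ 2 * I.card →
        ∑ c ∈ s, (s.filter (A c ·)).card ≤ (s \ I).card * I.card) := by
  classical
  obtain ⟨J, hJ, hmax⟩ := exists_max_image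
    (s.powerset.filter fun J => ∀ a ∈ J, ∀ b ∈ J, ¬ A a b) Finset.card
    ⟨I, by simp only [mem_filter, mem_powerset]; exact ⟨hI, hind⟩⟩
  simp only [mem_filter, mem_powerset] at hJ hmax
  obtain ⟨hJs, hJi⟩ := hJ
  have hIJ : I.card ≤ J.card := hmax I ⟨hI, hind⟩
  have hdeg : ∀ c ∈ s, (s.filter (Adj A c ·)).card ≤ J.card := by
    intro c hc
    refine hmax _ ⟨filter_subset _ _, ?_⟩
    intro a ha b hb hab
    simp only [mem_filter] at ha hb
    exact htri c hc a ha.1 b hb.1 ha.2 hb.2 (Or.inl hab)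
  have hJc : ∀ c ∈ J, (s.filter (A c ·)).card = ((s \ J).filter (A c ·)).card := by
    intro c hc
    congr 1
    ext z
    simp only [mem_filter, mem_sdiff]
    constructor
    · rintro ⟨h1, h2⟩
      exact ⟨⟨h1, fun hz => hJi c hc z hz h2⟩, h2⟩
    · rintro ⟨⟨h1, _⟩, h2⟩
      exact ⟨h1, h2⟩
  have hle : ∑ c ∈ s, (s.filter (A c ·)).card ≤ (s \ J).card * J.card := by
    rw [← sum_sdiff hJs, sum_congr rfl hJc, swap_count A J (s \ J), ← sum_add_distrib]
    refine le_trans (sum_le_card_nsmul _ _ J.card ?_) (by simp)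
    intro c hc
    exact le_trans (out_add_in_le A hA s J hJs c) (hdeg c (mem_sdiff.1 hc).1)
  have hs := card_sdiff_add_card_eq_card hJs
  refine ⟨?_, fun h2 => ?_⟩
  · rw [← hs]
    nlinarith [sq_nonneg ((((s \ J).card : ℕ) : ℤ) - (J.card : ℤ))]
  · have hs' := card_sdiff_add_card_eq_card hI
    refine le_trans hle ?_
    nlinarith

/-- Arcs from `s` to `t` when no arc joins `s'` to `t'`. -/
theorem cross_le (s t s' t' : Finset V) (hs : s' ⊆ s) (ht : t' ⊆ t)
    (h : ∀ c ∈ s', ∀ z ∈ t', ¬ A c z) :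
    ∑ c ∈ s, (t.filter (A c ·)).card + s'.card * t'.card ≤ s.card * t.card := by
  have h1 : ∀ c ∈ s', (t.filter (A c ·)).card + t'.card ≤ t.card := by
    intro c hc
    rw [← card_union_of_disjoint]
    · exact card_le_card (union_subset (filter_subset _ _) ht)
    · rw [disjoint_left]
      intro z hz hz'
      exact h c hc z hz' (mem_filter.1 hz).2
  have h2 : ∑ c ∈ s', (t.filter (A c ·)).card + s'.card * t'.card ≤ s'.card * t.card := by
    have := sum_le_sum h1
    rwa [sum_add_distrib, sum_const, sum_const, smul_eq_mul, smul_eq_mul] at this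
  have h3 : ∑ c ∈ s \ s', (t.filter (A c ·)).card ≤ (s \ s').card * t.card := by
    have := sum_le_card_nsmul (s \ s') (fun c => (t.filter (A c ·)).card) t.card
      (fun c _ => card_filter_le _ _)
    simpa using this
  have h4 := card_sdiff_add_card_eq_card hs
  rw [← sum_sdiff hs, ← h4, add_mul]
  omega

/-- Total internal out-degree of two disjoint independent sets in a finite set `T`. -/
theorem two_indep_le (hA : ∀ u v, A u v → ¬ A v u) (T P Q : Finset V) (hP : P ⊆ T) (hQ : Q ⊆ T)
    (hd : Disjoint P Q) (hPi : ∀ a ∈ P, ∀ b ∈ P, ¬ A a b) (hQi : ∀ a ∈ Q, ∀ b ∈ Q, ¬ A a b) :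
    ∑ z ∈ P, (T.filter (A z ·)).card + ∑ z ∈ Q, (T.filter (A z ·)).card ≤
      P.card * Q.card + (P.card + Q.card) * (T \ (P ∪ Q)).card := by
  set O := T \ (P ∪ Q) with hO
  have split : ∀ z ∈ P, (T.filter (A z ·)).card ≤ (Q.filter (A z ·)).card + O.card := by
    intro z hz
    refine le_trans (card_le_card ?_) (card_union_le _ _)
    intro w hw
    simp only [mem_filter] at hw
    simp only [hO, mem_union, mem_filter, mem_sdiff]
    by_cases hwQ : w ∈ Q
    · exact Or.inl ⟨hwQ, hw.2⟩
    · exact Or.inr ⟨hw.1, fun h => h.elim (fun hwP => hPi z hz w hwP hw.2) hwQ⟩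
  have split' : ∀ z ∈ Q, (T.filter (A z ·)).card ≤ (P.filter (A z ·)).card + O.card := by
    intro z hz
    refine le_trans (card_le_card ?_) (card_union_le _ _)
    intro w hw
    simp only [mem_filter] at hw
    simp only [hO, mem_union, mem_filter, mem_sdiff]
    by_cases hwP : w ∈ P
    · exact Or.inl ⟨hwP, hw.2⟩
    · exact Or.inr ⟨hw.1, fun h => h.elim hwP (fun hwQ => hQi z hz w hwQ hw.2)⟩
  have h1 := sum_le_sum split
  have h2 := sum_le_sum split'
  rw [sum_add_distrib, sum_const, smul_eq_mul] at h1 h2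
  have h3 : ∑ z ∈ P, (Q.filter (A z ·)).card + ∑ z ∈ Q, (P.filter (A z ·)).card ≤
      P.card * Q.card := by
    rw [swap_count A Q P, ← sum_add_distrib]
    refine le_trans (sum_le_card_nsmul _ _ Q.card ?_) (by simp)
    intro z _
    exact le_trans (out_add_in_le A hA Q Q (subset_refl _) z) (card_filter_le _ _)
  rw [add_mul]
  omega

/-- A nonzero nonnegative solution of the balance equations of an out-degree weighted walk. -/
theorem exists_balance (T : Finset V) (hT : T.Nonempty) :
    ∃ φ : V → ℝ, (∀ x, 0 ≤ φ x) ∧ (∃ x ∈ T, 0 < φ x) ∧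
      ∀ y ∈ T, ∑ x ∈ T with A x y, φ x = ((T.filter (A y ·)).card : ℝ) * φ y := by
  classical
  let Q : Matrix T T ℝ := fun y x =>
    (if A x.1 y.1 then 1 else 0) - (if x = y then ((T.filter (A y.1 ·)).card : ℝ) else 0)
  have : Nonempty T := hT.to_subtype
  have hdet : Q.det = 0 := by
    refine Matrix.exists_vecMul_eq_zero_iff.1 ⟨fun _ => 1, fun h => ?_, ?_⟩
    · exact one_ne_zero (congr_fun h (Classical.arbitrary T))
    · funext x
      simp only [Matrix.vecMul, dotProduct, one_mul, Q, sum_sub_distrib, Pi.zero_apply]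
      rw [sum_ite_eq univ x (fun y => ((T.filter (A y.1 ·)).card : ℝ)),
        if_pos (mem_univ x), sub_eq_zero, card_filter, Nat.cast_sum]
      rw [← sum_coe_sort T (fun y => ((if A x.1 y then 1 else 0 : ℕ) : ℝ))]
      exact sum_congr rfl fun y _ => by split <;> simp
  obtain ⟨w, hw0, hw⟩ := Matrix.exists_mulVec_eq_zero_iff.2 hdet
  let φ : V → ℝ := fun z => if h : z ∈ T then |w ⟨z, h⟩| else 0
  have hnn : ∀ x, 0 ≤ φ x := fun x => by
    simp only [φ]; split <;> simp
  refine ⟨φ, hnn, ?_, ?_⟩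
  · obtain ⟨z, hz⟩ := Function.ne_iff.1 hw0
    exact ⟨z.1, z.2, by simp only [φ, dif_pos z.2]; exact abs_pos.2 (by simpa using hz)⟩
  · let g : V → ℝ := fun z => if h : z ∈ T then w ⟨z, h⟩ else 0
    have hg : ∀ y ∈ T, ∑ x ∈ T with A x y, g x = ((T.filter (A y ·)).card : ℝ) * g y := by
      intro y hy
      have h := congr_fun hw ⟨y, hy⟩
      simp only [Matrix.mulVec, dotProduct, Q, sub_mul, sum_sub_distrib, ite_mul, one_mul,
        zero_mul, Pi.zero_apply] at h
      rw [sum_ite_eq' univ (⟨y, hy⟩ : T)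
        (fun x => ((T.filter (A y ·)).card : ℝ) * w x), if_pos (mem_univ _), sub_eq_zero] at h
      simp only [g, dif_pos hy]
      rw [← h, sum_filter, ← sum_coe_sort T]
      exact sum_congr rfl fun x _ => by simp
    have habs : ∀ z, φ z = |g z| := fun z => by
      simp only [φ, g]; split <;> simp
    have hle : ∀ y ∈ T,
        ((T.filter (A y ·)).card : ℝ) * φ y ≤ ∑ x ∈ T with A x y, φ x := by
      intro y hy
      rw [habs, ← Nat.abs_cast, ← abs_mul, ← hg y hy]
      exact le_trans (abs_sum_le_sum_abs _ _) (le_of_eq (sum_congr rfl fun x _ => (habs x).symm))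
    have htot : ∑ y ∈ T, ((T.filter (A y ·)).card : ℝ) * φ y =
        ∑ y ∈ T, ∑ x ∈ T with A x y, φ x := by
      simp only [sum_filter]
      rw [sum_comm]
      refine sum_congr rfl fun x _ => ?_
      rw [← sum_filter, sum_const, nsmul_eq_mul]
    intro y hy
    exact ((sum_eq_sum_iff_of_le hle).1 htot y hy).symm

end Vale.Agent.P038.K4
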