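import Mathlib

/-
P038: the functions in the averaged inequality for K4-free graphs.
-/

namespace Vale.Agent.P038.K4

noncomputable section

/-- Weight of a vertex with relative internal out-degree `r` and deficiency `m`. -/
def th (r m : ℝ) : ℝ := 1 - 19 / 30 * r + 39 / 20 * m - 9 / 4 * r * m

/-- Potential of a vertex. -/
def pot (r m : ℝ) : ℝ :=
  r - 19 / 60 * r ^ 2 + m * (-43 / 120 - 1 + 19 / 30 * r) + 3 / 16 * m ^ 2 + 19 / 80 * r * m ^ 2

/-- Coefficient of the in-degree part of the potential of an arc. -/
def cin (r m : ℝ) : ℝ :=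
  -1 / 4 - 9 / 100 * r + 2 / 5 * m - 2 / 3 * r ^ 2 - 4 / 3 * r * m + 11 / 15 * m ^ 2

/-- Upper bound, in scaled units, for the excess of one second-neighbourhood count. -/
def base (r p m n i e f a b j P0 : ℝ) : ℝ :=
  P0 - (1 - m - r) * i + p * j - (1 - m - n - a) * (m - e - f - b) - (1 - m) * (e + f)
    - (1 - m) * ((p - (n + i + e + f)) - (r - m))

/-- The excess plus the difference of potentials minus the multiple of the edge count. -/
def comb (r p m n i e f a b j P0 : ℝ) : ℝ :=
  th r m * base r p m n i e f a b j P0 + pot p (n + i + e + f) + cin p (n + i + e + f) * j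
    + (-43 / 120) * (a + b) - pot r m - cin r m * (i + e) - (-43 / 120) * (n + f)
    - 8 / 5 * m ^ 2 * (p * (a + b + j) - (r + p) * (1 - (r + p)))

end

end Vale.Agent.P038.K4
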