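import Mathlib
import Vale.Agent.P038.K4.Defs
import Vale.Agent.P038.K4.Corner00
import Vale.Agent.P038.K4.Corner01
import Vale.Agent.P038.K4.Corner02
import Vale.Agent.P038.K4.Corner03
import Vale.Agent.P038.K4.Corner04
import Vale.Agent.P038.K4.Corner05
import Vale.Agent.P038.K4.Corner06
import Vale.Agent.P038.K4.Corner07
import Vale.Agent.P038.K4.Corner10
import Vale.Agent.P038.K4.Corner11
import Vale.Agent.P038.K4.Corner12
import Vale.Agent.P038.K4.Corner13
import Vale.Agent.P038.K4.Corner14
import Vale.Agent.P038.K4.Corner15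
import Vale.Agent.P038.K4.Corner16
import Vale.Agent.P038.K4.Corner17

/-
P038: the averaged polynomial inequality for K4-free graphs, from its sixteen corners.
-/

namespace Vale.Agent.P038.K4

theorem le_zero_of_ends (f : ℝ → ℝ) (hf : ∀ t, f t = f 0 + t * (f 1 - f 0)) {t s : ℝ}
    (ht : 0 ≤ t) (hts : t ≤ s) (h0 : f 0 ≤ 0) (hs : f s ≤ 0) : f t ≤ 0 := by
  rcases le_total (f 1 - f 0) 0 with h | h
  · rw [hf t]
    nlinarith [mul_nonpos_of_nonneg_of_nonpos ht h]
  · rw [hf t]
    rw [hf s] at hs
    nlinarith [mul_le_mul_of_nonneg_right hts h]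

theorem le_zero_of_box (g : ℝ → ℝ → ℝ → ℝ)
    (ha : ∀ a b j, g a b j = g 0 b j + a * (g 1 b j - g 0 b j))
    (hb : ∀ a b j, g a b j = g a 0 j + b * (g a 1 j - g a 0 j))
    (hj : ∀ a b j, g a b j = g a b 0 + j * (g a b 1 - g a b 0))
    {a b j S D C : ℝ} (a0 : 0 ≤ a) (a1 : a ≤ S) (b0 : 0 ≤ b) (b1 : b ≤ D) (j0 : 0 ≤ j)
    (j1 : j ≤ C) (h0 : g 0 0 0 ≤ 0) (h1 : g S 0 0 ≤ 0) (h2 : g 0 D 0 ≤ 0) (h3 : g S D 0 ≤ 0)
    (h4 : g 0 0 C ≤ 0) (h5 : g S 0 C ≤ 0) (h6 : g 0 D C ≤ 0) (h7 : g S D C ≤ 0) :
    g a b j ≤ 0 := by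
  have A0 : ∀ b j, g 0 b j ≤ 0 → g S b j ≤ 0 → g a b j ≤ 0 := fun b j x y =>
    le_zero_of_ends (fun t => g t b j) (fun t => ha t b j) a0 a1 x y
  have B0 : ∀ j, g a 0 j ≤ 0 → g a D j ≤ 0 → g a b j ≤ 0 := fun j x y =>
    le_zero_of_ends (fun t => g a t j) (fun t => hb a t j) b0 b1 x y
  exact le_zero_of_ends (fun t => g a b t) (fun t => hj a b t) j0 j1
    (B0 0 (A0 0 0 h0 h1) (A0 D 0 h2 h3)) (B0 C (A0 0 C h4 h5) (A0 D C h6 h7))

theorem comb_nonpos_low {r p m n i e f a b j : ℝ} (hr : 0 ≤ r) (hp : 0 ≤ p) (hm : 0 ≤ m)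
    (hn : 0 ≤ n) (hi : 0 ≤ i) (he : 0 ≤ e) (hf : 0 ≤ f) (hmr : m ≤ r) (hR : r + p ≤ 1)
    (hS : n + i ≤ 1 - m) (hD : e + f ≤ m) (hM : n + i + e + f ≤ p) (hpsi : 2 * n ≤ 1 - m)
    (a0 : 0 ≤ a) (a1 : a ≤ 1 - m - n) (b0 : 0 ≤ b) (b1 : b ≤ m - e - f) (j0 : 0 ≤ j)
    (j1 : j ≤ 1 - p) :
    comb r p m n i e f a b j (-(n ^ 2)) ≤ 0 := by
  refine le_zero_of_box (fun a b j => comb r p m n i e f a b j (-(n ^ 2)))
    ?_ ?_ ?_ a0 a1 b0 b1 j0 j1 ?_ ?_ ?_ ?_ ?_ ?_ ?_ ?_
  · intro a b j; simp only [comb, base]; ring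
  · intro a b j; simp only [comb, base]; ring
  · intro a b j; simp only [comb, base]; ring
  · have := leaf00 (r := r) (p := p) (m := m) (n := n) (i := i) (e := e) (f := f) hr hp hm
      hn hi he hf (by linarith) (by linarith) (by linarith) (by linarith) (by linarith) (by linarith)
    simp only [comb, base, th, pot, cin]
    linarith
  · have := leaf01 (r := r) (p := p) (m := m) (n := n) (i := i) (e := e) (f := f) hr hp hm
      hn hi he hf (by linarith) (by linarith) (by linarith) (by linarith) (by linarith) (by linarith)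
    simp only [comb, base, th, pot, cin]
    linarith
  · have := leaf02 (r := r) (p := p) (m := m) (n := n) (i := i) (e := e) (f := f) hr hp hm
      hn hi he hf (by linarith) (by linarith) (by linarith) (by linarith) (by linarith) (by linarith)
    simp only [comb, base, th, pot, cin]
    linarith
  · have := leaf03 (r := r) (p := p) (m := m) (n := n) (i := i) (e := e) (f := f) hr hp hm
      hn hi he hf (by linarith) (by linarith) (by linarith) (by linarith) (by linarith) (by linarith)
    simp only [comb, base, th, pot, cin]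
    linarith
  · have := leaf04 (r := r) (p := p) (m := m) (n := n) (i := i) (e := e) (f := f) hr hp hm
      hn hi he hf (by linarith) (by linarith) (by linarith) (by linarith) (by linarith) (by linarith)
    simp only [comb, base, th, pot, cin]
    linarith
  · have := leaf05 (r := r) (p := p) (m := m) (n := n) (i := i) (e := e) (f := f) hr hp hm
      hn hi he hf (by linarith) (by linarith) (by linarith) (by linarith) (by linarith) (by linarith)
    simp only [comb, base, th, pot, cin]
    linarith
  · have := leaf06 (r := r) (p := p) (m := m) (n := n) (i := i) (e := e) (f := f) hr hp hm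
      hn hi he hf (by linarith) (by linarith) (by linarith) (by linarith) (by linarith) (by linarith)
    simp only [comb, base, th, pot, cin]
    linarith
  · have := leaf07 (r := r) (p := p) (m := m) (n := n) (i := i) (e := e) (f := f) hr hp hm
      hn hi he hf (by linarith) (by linarith) (by linarith) (by linarith) (by linarith) (by linarith)
    simp only [comb, base, th, pot, cin]
    linarith

theorem comb_nonpos_high {r p m n i e f a b j : ℝ} (hr : 0 ≤ r) (hp : 0 ≤ p) (hm : 0 ≤ m)
    (hn : 0 ≤ n) (hi : 0 ≤ i) (he : 0 ≤ e) (hf : 0 ≤ f) (hmr : m ≤ r) (hR : r + p ≤ 1)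
    (hS : n + i ≤ 1 - m) (hD : e + f ≤ m) (hM : n + i + e + f ≤ p) (hpsi : 1 - m ≤ 2 * n)
    (a0 : 0 ≤ a) (a1 : a ≤ 1 - m - n) (b0 : 0 ≤ b) (b1 : b ≤ m - e - f) (j0 : 0 ≤ j)
    (j1 : j ≤ 1 - p) :
    comb r p m n i e f a b j (1 / 4 * (1 - m) ^ 2 - n * (1 - m)) ≤ 0 := by
  refine le_zero_of_box (fun a b j => comb r p m n i e f a b j (1 / 4 * (1 - m) ^ 2 - n * (1 - m)))
    ?_ ?_ ?_ a0 a1 b0 b1 j0 j1 ?_ ?_ ?_ ?_ ?_ ?_ ?_ ?_
  · intro a b j; simp only [comb, base]; ring
  · intro a b j; simp only [comb, base]; ring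
  · intro a b j; simp only [comb, base]; ring
  · have := leaf10 (r := r) (p := p) (m := m) (n := n) (i := i) (e := e) (f := f) hr hp hm
      hn hi he hf (by linarith) (by linarith) (by linarith) (by linarith) (by linarith) (by linarith)
    simp only [comb, base, th, pot, cin]
    linarith
  · have := leaf11 (r := r) (p := p) (m := m) (n := n) (i := i) (e := e) (f := f) hr hp hm
      hn hi he hf (by linarith) (by linarith) (by linarith) (by linarith) (by linarith) (by linarith)
    simp only [comb, base, th, pot, cin]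
    linarith
  · have := leaf12 (r := r) (p := p) (m := m) (n := n) (i := i) (e := e) (f := f) hr hp hm
      hn hi he hf (by linarith) (by linarith) (by linarith) (by linarith) (by linarith) (by linarith)
    simp only [comb, base, th, pot, cin]
    linarith
  · have := leaf13 (r := r) (p := p) (m := m) (n := n) (i := i) (e := e) (f := f) hr hp hm
      hn hi he hf (by linarith) (by linarith) (by linarith) (by linarith) (by linarith) (by linarith)
    simp only [comb, base, th, pot, cin]
    linarith
  · have := leaf14 (r := r) (p := p) (m := m) (n := n) (i := i) (e := e) (f := f) hr hp hm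
      hn hi he hf (by linarith) (by linarith) (by linarith) (by linarith) (by linarith) (by linarith)
    simp only [comb, base, th, pot, cin]
    linarith
  · have := leaf15 (r := r) (p := p) (m := m) (n := n) (i := i) (e := e) (f := f) hr hp hm
      hn hi he hf (by linarith) (by linarith) (by linarith) (by linarith) (by linarith) (by linarith)
    simp only [comb, base, th, pot, cin]
    linarith
  · have := leaf16 (r := r) (p := p) (m := m) (n := n) (i := i) (e := e) (f := f) hr hp hm
      hn hi he hf (by linarith) (by linarith) (by linarith) (by linarith) (by linarith) (by linarith)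
    simp only [comb, base, th, pot, cin]
    linarith
  · have := leaf17 (r := r) (p := p) (m := m) (n := n) (i := i) (e := e) (f := f) hr hp hm
      hn hi he hf (by linarith) (by linarith) (by linarith) (by linarith) (by linarith) (by linarith)
    simp only [comb, base, th, pot, cin]
    linarith

end Vale.Agent.P038.K4
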