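import Mathlib
import Vale.Agent.P038.K4.Counting
import Vale.Agent.P038.K4.Defs

/-
P038: the local setting at a vertex of least out-degree in a hypothetical bad graph without a K4.
-/

namespace Vale.Agent.P038.K4

open Finset

variable {V : Type*} [Fintype V] [DecidableEq V] {A : V → V → Prop} [DecidableRel A]

/-- The facts used about the out-neighbourhood `T` of a minimum vertex and its second one `W`. -/
structure Ctx (A : V → V → Prop) [DecidableRel A] where
  T : Finset V
  W : Finset V
  hA : ∀ u v, A u v → ¬ A v u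
  hK : ∀ a b c d, Adj A a b → Adj A a c → Adj A a d → Adj A b c → Adj A b d → Adj A c d → False
  triT : ∀ a ∈ T, ∀ b ∈ T, ∀ c ∈ T, Adj A a b → Adj A a c → Adj A b c → False
  hWd : W.card < T.card
  hWT : ∀ z ∈ W, z ∉ T
  outT : ∀ x ∈ T, ∀ z, A x z → z ∈ T ∨ z ∈ W
  hmin : ∀ x, T.card ≤ (univ.filter fun u => A x u).card
  hcon : ∀ x, (univ.filter fun w => w ≠ x ∧ ¬ A x w ∧ ∃ u, A x u ∧ A u w).card <
    (univ.filter fun u => A x u).card

namespace Ctx

variable (D : Ctx A)

include D

/-- The least out-degree. -/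
def d : ℕ := D.T.card
/-- Out-neighbours inside `T`. -/
def X (x : V) : Finset V := D.T.filter (A x ·)
/-- Out-neighbours inside `W`. -/
def E (x : V) : Finset V := D.W.filter (A x ·)
/-- Size in units of the least out-degree. -/
noncomputable def cr (s : Finset V) : ℝ := (s.card : ℝ) / D.d
/-- Scaled internal out-degree. -/
noncomputable def r (x : V) : ℝ := D.cr (D.X x)
/-- Scaled deficiency. -/
noncomputable def m (x : V) : ℝ := 1 - D.cr (D.E x)
/-- Scaled number of in-neighbours in `W`. -/
noncomputable def I (y : V) : ℝ := D.cr (D.W.filter (A · y))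
/-- The rest of the deficiency. -/
noncomputable def N (y : V) : ℝ := D.m y - D.I y
/-- Potential of an arc. -/
noncomputable def H (x y : V) : ℝ :=
  pot (D.r x) (D.m x) + cin (D.r x) (D.m x) * D.I y + (-43 / 120) * D.N y
/-- Non-neighbours of `y` in `E x`. -/
def nS (x y : V) : Finset V := (D.E x).filter fun c => ¬ Adj A c y
/-- In-neighbours of `y` in `E x`. -/
def iS (x y : V) : Finset V := (D.E x).filter (A · y)
/-- Neighbours of `y` in `E x`. -/
def sS (x y : V) : Finset V := (D.E x).filter fun c => Adj A c y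
/-- New out-neighbours of `y` in `W`. -/
def DS (x y : V) : Finset V := D.E y \ D.E x
/-- Vertices of `sS` not adjacent to `u`. -/
def aS (x y u : V) : Finset V := (D.sS x y).filter fun c => ¬ Adj A c u
/-- Vertices of `DS` not adjacent to `u`. -/
def bS (x y u : V) : Finset V := (D.DS x y).filter fun c => ¬ Adj A c u
/-- In-neighbours of `u` in `E x`. -/
def jS (x u : V) : Finset V := (D.E x).filter (A · u)
/-- Bound for the arcs inside `E x`, less a linear term. -/
noncomputable def P0 (x y : V) : ℝ :=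
  if 2 * D.cr (D.nS x y) ≤ 1 - D.m x then -(D.cr (D.nS x y) ^ 2)
  else 1 / 4 * (1 - D.m x) ^ 2 - D.cr (D.nS x y) * (1 - D.m x)
/-- The scaled excess at a directed path `x, y, u`. -/
noncomputable def bs (x y u : V) : ℝ :=
  base (D.r x) (D.r y) (D.m x) (D.cr (D.nS x y)) (D.cr (D.iS x y)) (D.I y - D.cr (D.iS x y))
    (D.N y - D.cr (D.nS x y)) (D.cr (D.aS x y u)) (D.cr (D.bS x y u)) (D.cr (D.jS x u))
    (D.P0 x y)
/-- Lower bound for the out-degree of `u` inside `T`. -/
noncomputable def q (x y u : V) : ℝ :=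
  D.cr (D.aS x y u) + D.cr (D.bS x y u) + D.cr (D.jS x u)
/-- The expression bounded by counting arcs in `T`. -/
noncomputable def Jv (x y u : V) : ℝ :=
  D.r y * D.q x y u - (D.r x + D.r y) * (1 - (D.r x + D.r y))

theorem memX {x z : V} : z ∈ D.X x ↔ z ∈ D.T ∧ A x z := by simp [X]

theorem memE {x z : V} : z ∈ D.E x ↔ z ∈ D.W ∧ A x z := by simp [E]

theorem htri (x a b c : V) (ha : A x a) (hb : A x b) (hc : A x c) (h1 : Adj A a b)
    (h2 : Adj A a c) (h3 : Adj A b c) : False :=
  D.hK x a b c (Or.inl ha) (Or.inl hb) (Or.inl hc) h1 h2 h3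

theorem hsplit : ∀ x ∈ D.T, (univ.filter fun u => A x u).card = (D.X x).card + (D.E x).card := by
  intro x hx
  rw [← card_union_of_disjoint]
  · congr 1
    ext z
    simp only [mem_filter, mem_univ, true_and, mem_union, D.memX, D.memE]
    exact ⟨fun h => (D.outT x hx z h).imp (fun h' => ⟨h', h⟩) (fun h' => ⟨h', h⟩),
      fun h => h.elim And.right And.right⟩
  · rw [disjoint_left]
    intro z hz hz'
    exact D.hWT z (D.memE.1 hz').1 (D.memX.1 hz).1

theorem hXE : ∀ x ∈ D.T, D.d ≤ (D.X x).card + (D.E x).card := fun x hx =>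
  D.hsplit x hx ▸ D.hmin x

theorem hEW : ∀ x, (D.E x).card < D.d := fun x => lt_of_le_of_lt (card_filter_le _ _) D.hWd

theorem d_eq : D.d = D.T.card := rfl

theorem hXpos : ∀ x ∈ D.T, 0 < (D.X x).card := fun x hx => by
  have := D.hXE x hx
  have := D.hEW x
  omega

theorem hXindep : ∀ x ∈ D.T, ∀ a ∈ D.X x, ∀ b ∈ D.X x, ¬ A a b := fun x hx a ha b hb hab =>
  D.triT x hx a (D.memX.1 ha).1 b (D.memX.1 hb).1 (Or.inl (D.memX.1 ha).2)
    (Or.inl (D.memX.1 hb).2) (Or.inl hab)

theorem hXdisj : ∀ x ∈ D.T, ∀ y ∈ D.X x, Disjoint (D.X x) (D.X y) := by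
  intro x hx y hy
  rw [disjoint_left]
  intro z hz hz'
  exact D.hXindep x hx y hy z hz (D.memX.1 hz').2

theorem hEpos : ∀ x ∈ D.T, 0 < (D.E x).card := by
  intro x hx
  by_contra h
  have hle := D.hXE x hx
  have hsub : D.X x ⊆ D.T.erase x := by
    intro z hz
    exact mem_erase.2 ⟨fun e => D.hA x x (e ▸ (D.memX.1 hz).2) (e ▸ (D.memX.1 hz).2), (D.memX.1 hz).1⟩
  have := card_le_card hsub
  rw [card_erase_of_mem hx] at this
  have := D.d_eq
  have := D.hWd
  omega

theorem hRd : ∀ x ∈ D.T, ∀ y ∈ D.X x, (D.X x).card + (D.X y).card ≤ D.d := by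
  intro x hx y hy
  rw [← card_union_of_disjoint (D.hXdisj x hx y hy)]
  exact card_le_card (union_subset (filter_subset _ _) (filter_subset _ _))

theorem hd0 : (0 : ℝ) < D.d := by
  exact_mod_cast lt_of_le_of_lt (Nat.zero_le _) D.hWd

theorem cr_nn (s : Finset V) : 0 ≤ D.cr s := by unfold cr; positivity

theorem cr_le {s t : Finset V} (h : s.card ≤ t.card) : D.cr s ≤ D.cr t := by
  unfold cr; gcongr

theorem hm0 (x : V) : 0 ≤ D.m x := by
  simp only [m, cr, sub_nonneg, div_le_one D.hd0]
  exact_mod_cast (D.hEW x).le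

theorem hmr : ∀ x ∈ D.T, D.m x ≤ D.r x := by
  intro x hx
  simp only [m, r, cr]
  rw [sub_le_iff_le_add, ← add_div, le_div_iff₀ D.hd0, one_mul]
  exact_mod_cast D.hXE x hx

theorem hr1 (x : V) : D.r x ≤ 1 := by
  simp only [r, cr, div_le_one D.hd0]
  exact_mod_cast card_filter_le _ _

theorem hXd (x : V) : ((D.X x).card : ℝ) = D.r x * D.d := by
  have := D.hd0
  simp only [r, cr]
  field_simp

theorem Xne : ∀ y ∈ D.T, ((D.X y).card : ℝ) ≠ 0 := fun y hy =>
  Nat.cast_ne_zero.2 (D.hXpos y hy).ne'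

theorem hmiss : ∀ y, ∀ s : Finset V, s ⊆ D.W → (∀ c ∈ s, ¬ A y c) → D.cr s ≤ D.m y := by
  intro y s hs hno
  simp only [m, cr, le_sub_iff_add_le, ← add_div, div_le_one D.hd0]
  have : (s ∪ D.E y).card ≤ D.W.card := card_le_card (union_subset hs (filter_subset _ _))
  rw [card_union_of_disjoint] at this
  · exact_mod_cast (by have := D.hWd; have := D.d_eq; omega : s.card + (D.E y).card ≤ D.d)
  · rw [disjoint_left]
    intro c hc hc'
    exact hno c hc (D.memE.1 hc').2

theorem hsplitS (x y : V) : (D.sS x y).card + (D.nS x y).card = (D.E x).card :=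
  card_filter_add_card_filter_not _

theorem hju (x u : V) : D.cr (D.jS x u) ≤ D.I u := by
  refine D.cr_le (card_le_card ?_)
  intro c hc
  simp only [jS, mem_filter, D.memE] at hc
  exact mem_filter.2 ⟨hc.1.1, hc.2⟩

theorem arcfacts : ∀ x ∈ D.T, ∀ y ∈ D.X x,
    D.cr (D.iS x y) ≤ D.I y ∧ D.cr (D.nS x y) + D.I y ≤ D.m y ∧
    D.cr (D.DS x y) = D.m x - (D.I y - D.cr (D.iS x y)) - (D.N y - D.cr (D.nS x y)) ∧
    D.cr (D.sS x y) = 1 - D.m x - D.cr (D.nS x y) ∧
    D.cr (D.nS x y) + D.cr (D.iS x y) ≤ 1 - D.m x := by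
  intro x hx y hy
  have hyT := (D.memX.1 hy).1
  refine ⟨?_, ?_, ?_, ?_, ?_⟩
  · apply D.cr_le
    apply card_le_card
    intro c hc
    simp only [iS, mem_filter, D.memE] at hc
    exact mem_filter.2 ⟨hc.1.1, hc.2⟩
  · refine le_trans (le_of_eq ?_) (D.hmiss y (D.nS x y ∪ D.W.filter (A · y)) ?_ ?_)
    · simp only [I, cr, ← add_div]
      rw [card_union_of_disjoint, Nat.cast_add]
      rw [disjoint_left]
      intro c hc hc'
      simp only [nS, mem_filter] at hc hc'
      exact hc.2 (Or.inl hc'.2)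
    · refine union_subset ?_ (filter_subset _ _)
      intro c hc
      exact (D.memE.1 (mem_filter.1 hc).1).1
    · intro c hc h
      rcases mem_union.1 hc with hc | hc
      · exact (mem_filter.1 hc).2 (Or.inr h)
      · exact D.hA _ _ h (mem_filter.1 hc).2
  · have h1 : (D.E x).card = (D.E x ∩ D.E y).card + (D.nS x y).card + (D.iS x y).card := by
      rw [← card_union_of_disjoint, ← card_union_of_disjoint]
      · congr 1
        ext c
        simp only [mem_union, mem_inter, nS, iS, mem_filter, D.memE]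
        constructor
        · intro hc
          by_cases h1 : A y c
          · exact Or.inl (Or.inl ⟨hc, hc.1, h1⟩)
          · by_cases h2 : A c y
            · exact Or.inr ⟨hc, h2⟩
            · exact Or.inl (Or.inr ⟨hc, fun h => h.elim h2 h1⟩)
        · rintro ((⟨h, _⟩ | ⟨h, _⟩) | ⟨h, _⟩) <;> exact h
      · rw [disjoint_left]
        intro c hc hc'
        simp only [mem_union, mem_inter, nS, iS, mem_filter, D.memE] at hc hc'
        rcases hc with ⟨_, _, h⟩ | ⟨_, h⟩
        · exact D.hA _ _ h hc'.2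
        · exact h (Or.inl hc'.2)
      · rw [disjoint_left]
        intro c hc hc'
        simp only [mem_inter, nS, mem_filter, D.memE] at hc hc'
        exact hc'.2 (Or.inr hc.2.2)
    have h2 : (D.DS x y).card + (D.E x ∩ D.E y).card = (D.E y).card := by
      rw [inter_comm]; exact card_sdiff_add_card_inter _ _
    simp only [N, m, I, cr]
    have h1' : ((D.E x).card : ℝ) = (D.E x ∩ D.E y).card + (D.nS x y).card + (D.iS x y).card := by
      exact_mod_cast h1
    have h2' : ((D.DS x y).card : ℝ) + (D.E x ∩ D.E y).card = (D.E y).card := by exact_mod_cast h2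
    have hne := D.hd0.ne'
    field_simp
    linarith
  · simp only [m, cr]
    have : ((D.sS x y).card : ℝ) + (D.nS x y).card = (D.E x).card := by exact_mod_cast D.hsplitS x y
    have hne := D.hd0.ne'
    field_simp
    linarith
  · simp only [m, cr, sub_sub_cancel, ← add_div]
    gcongr
    have : (D.nS x y ∪ D.iS x y).card ≤ (D.E x).card :=
      card_le_card (union_subset (filter_subset _ _) (filter_subset _ _))
    rw [card_union_of_disjoint] at this
    · exact_mod_cast this
    · rw [disjoint_left]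
      intro c hc hc'
      exact (mem_filter.1 hc).2 (Or.inl (mem_filter.1 hc').2)

theorem habu : ∀ x, ∀ y, ∀ u,
    D.cr (D.aS x y u) + D.cr (D.bS x y u) + D.I u ≤ D.m u := by
  intro x y u
  refine le_trans (le_of_eq ?_)
    (D.hmiss u ((D.aS x y u ∪ D.bS x y u) ∪ D.W.filter (A · u)) ?_ ?_)
  · simp only [I, cr, ← add_div]
    rw [card_union_of_disjoint, card_union_of_disjoint, Nat.cast_add, Nat.cast_add]
    · rw [disjoint_left]
      intro c hc hc'
      simp only [aS, sS, bS, DS, mem_filter, mem_sdiff] at hc hc'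
      exact hc'.1.2 hc.1.1
    · rw [disjoint_left]
      intro c hc hc'
      simp only [aS, bS, mem_union, mem_filter] at hc hc'
      exact hc.elim (fun h => h.2 (Or.inl hc'.2)) (fun h => h.2 (Or.inl hc'.2))
  · intro c hc
    simp only [aS, sS, bS, DS, mem_union, mem_filter, mem_sdiff, D.memE] at hc
    rcases hc with (h | h) | h
    · exact h.1.1.1
    · exact h.1.1.1
    · exact h.1
  · intro c hc h
    simp only [aS, bS, mem_union, mem_filter] at hc
    rcases hc with (h' | h') | h'
    · exact h'.2 (Or.inr h)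
    · exact h'.2 (Or.inr h)
    · exact D.hA _ _ h h'.2

end Ctx

end Vale.Agent.P038.K4
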