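import Mathlib
import Vale.Agent.P038.K4.Setup
import Vale.Agent.P038.K4.Ineq

/-
P038: the second neighbourhood inequality for oriented graphs without a K4.
-/

namespace Vale.Agent.P038.K4

open Finset

theorem th_pos {r m : ℝ} (hm : 0 ≤ m) (hmr : m ≤ r) (hr : r ≤ 1) : 0 < th r m := by
  unfold th
  nlinarith [mul_nonneg hm (sub_nonneg.2 hr), mul_nonneg hm (sub_nonneg.2 hmr)]

theorem cin_nonpos {r m : ℝ} (hm : 0 ≤ m) (hmr : m ≤ r) (hr : r ≤ 1) : cin r m ≤ 0 := by
  unfold cin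
  nlinarith [mul_nonneg hm (sub_nonneg.2 hmr), sq_nonneg r, sq_nonneg (r - 1 / 4), sq_nonneg m,
    mul_nonneg (le_trans hm hmr) (sub_nonneg.2 hr), mul_nonneg hm (le_trans hm hmr)]

variable {V : Type*} [Fintype V] [DecidableEq V] {A : V → V → Prop} [DecidableRel A] (D : Ctx A)

namespace Ctx

include D

theorem point : ∀ x ∈ D.T, ∀ y ∈ D.X x, ∀ u ∈ D.X y,
    th (D.r x) (D.m x) * D.bs x y u + (D.H y u - D.H x y)
      - 8 / 5 * D.m x ^ 2 * D.Jv x y u ≤ 0 := by
  intro x hx y hy u hu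
  have hyT := (D.memX.1 hy).1
  have huT := (D.memX.1 hu).1
  obtain ⟨hiI, hnI, hD, hS, hni⟩ := D.arcfacts x hx y hy
  have hy_mr := D.hmr y hyT
  have hR : D.r x + D.r y ≤ 1 := by
    simp only [r, cr, ← add_div, div_le_one D.hd0]
    exact_mod_cast D.hRd x hx y hy
  have hju := D.hju x u
  have habu := D.habu x y u
  have hmu := D.hmr u huT
  have hRu : D.r y + D.r u ≤ 1 := by
    simp only [r, cr, ← add_div, div_le_one D.hd0]
    exact_mod_cast D.hRd y hyT u hu
  have ha1 : D.cr (D.aS x y u) ≤ 1 - D.m x - D.cr (D.nS x y) := hS ▸ D.cr_le (card_filter_le _ _)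
  have hb1 : D.cr (D.bS x y u) ≤ D.m x - (D.I y - D.cr (D.iS x y)) - (D.N y - D.cr (D.nS x y)) :=
    hD ▸ D.cr_le (card_filter_le _ _)
  have hN : D.N y = D.m y - D.I y := rfl
  have hNu : D.N u = D.m u - D.I u := rfl
  have key : comb (D.r x) (D.r y) (D.m x) (D.cr (D.nS x y)) (D.cr (D.iS x y)) (D.I y - D.cr (D.iS x y))
      (D.N y - D.cr (D.nS x y)) (D.cr (D.aS x y u)) (D.cr (D.bS x y u)) (D.cr (D.jS x u)) (D.P0 x y) ≤ 0 := by
    have hDn : (0 : ℝ) ≤ D.cr (D.DS x y) := D.cr_nn _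
    by_cases hc : 2 * D.cr (D.nS x y) ≤ 1 - D.m x
    · simp only [P0, if_pos hc]
      exact comb_nonpos_low (D.cr_nn _) (D.cr_nn _) (D.hm0 x) (D.cr_nn _) (D.cr_nn _) (by linarith)
        (by linarith) (D.hmr x hx) hR hni (by linarith) (by linarith) hc (D.cr_nn _) ha1
        (D.cr_nn _) hb1 (D.cr_nn _) (by linarith [D.cr_nn (D.aS x y u), D.cr_nn (D.bS x y u)])
    · simp only [P0, if_neg hc]
      exact comb_nonpos_high (D.cr_nn _) (D.cr_nn _) (D.hm0 x) (D.cr_nn _) (D.cr_nn _) (by linarith)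
        (by linarith) (D.hmr x hx) hR hni (by linarith) (by linarith) (le_of_not_ge hc) (D.cr_nn _)
        ha1 (D.cr_nn _) hb1 (D.cr_nn _) (by linarith [D.cr_nn (D.aS x y u), D.cr_nn (D.bS x y u)])
  have hMy : D.cr (D.nS x y) + D.cr (D.iS x y) + (D.I y - D.cr (D.iS x y)) + (D.N y - D.cr (D.nS x y)) = D.m y := by
    rw [hN]; ring
  simp only [comb, hMy, add_sub_cancel] at key
  simp only [bs, H, Jv, q]
  nlinarith [mul_nonneg (sub_nonneg.2 hju) (neg_nonneg.2 (cin_nonpos (D.hm0 y) hy_mr (D.hr1 y)))]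

theorem count : ∀ x ∈ D.T, ∀ y ∈ D.X x, ∀ u ∈ D.X y,
    (D.E x).card * ((D.X y).card + (D.DS x y).card + D.d) + (D.E x).card ≤
      (D.E x).card * ((D.X x).card + (D.E x).card) + ∑ z ∈ D.X x, (D.iS x z).card +
        ∑ c ∈ D.E x, ((D.E x).filter (A c ·)).card + ∑ w ∈ D.X y, (D.jS x w).card +
          ∑ c ∈ D.E x, ((D.DS x y).filter (A c ·)).card := by
  intro x hx y hy u _
  have hyT := (D.memX.1 hy).1
  have hxy := (D.memX.1 hy).2
  have per : ∀ c ∈ D.E x, (D.X y).card + (D.DS x y).card + D.d + 1 ≤ (D.X x).card + (D.E x).card +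
      ((D.X x).filter (A c ·)).card + ((D.E x).filter (A c ·)).card + ((D.X y).filter (A c ·)).card +
        ((D.DS x y).filter (A c ·)).card := by
    intro c hc
    have hxc := (D.memE.1 hc).2
    set Z := (univ.filter fun w => A c w).filter fun w =>
      w ∉ D.X x ∧ w ∉ D.E x ∧ w ∉ D.X y ∧ w ∉ D.DS x y with hZ
    have hd1 : Disjoint (D.X y ∪ D.DS x y) Z := by
      rw [disjoint_left]
      intro w hw hw'
      simp only [hZ, mem_filter] at hw'
      rcases mem_union.1 hw with h | h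
      · exact hw'.2.2.2.1 h
      · exact hw'.2.2.2.2 h
    have hsub : D.X y ∪ D.DS x y ∪ Z ⊆
        univ.filter fun w => w ≠ x ∧ ¬ A x w ∧ ∃ u, A x u ∧ A u w := by
      intro w hw
      simp only [mem_filter, mem_univ, true_and]
      rcases mem_union.1 hw with hw | hw
      · rcases mem_union.1 hw with hw | hw
        · refine ⟨fun e => D.hA _ _ hxy (e ▸ (D.memX.1 hw).2), fun h => ?_, y, hxy, (D.memX.1 hw).2⟩
          exact disjoint_left.1 (D.hXdisj x hx y hy) (D.memX.2 ⟨(D.memX.1 hw).1, h⟩) hw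
        · simp only [DS, mem_sdiff, D.memE] at hw
          exact ⟨fun e => D.hA _ _ hxy (e ▸ hw.1.2), fun h => hw.2 ⟨hw.1.1, h⟩, y, hxy, hw.1.2⟩
      · simp only [hZ, mem_filter, mem_univ, true_and] at hw
        refine ⟨fun e => D.hA _ _ hxc (e ▸ hw.1), fun h => ?_, c, hxc, hw.1⟩
        rcases D.outT x hx w h with h' | h'
        · exact hw.2.1 (D.memX.2 ⟨h', h⟩)
        · exact hw.2.2.1 (D.memE.2 ⟨h', h⟩)
    have h1 := card_le_card hsub
    rw [card_union_of_disjoint hd1, card_union_of_disjoint] at h1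
    swap
    · rw [disjoint_left]
      intro w hw hw'
      simp only [DS, mem_sdiff] at hw'
      exact D.hWT w (D.memE.1 hw'.1).1 (D.memX.1 hw).1
    have h2 : (univ.filter fun w => A c w).card ≤ Z.card + ((D.X x).filter (A c ·)).card +
        ((D.E x).filter (A c ·)).card + ((D.X y).filter (A c ·)).card +
        ((D.DS x y).filter (A c ·)).card := by
      have hcov : (univ.filter fun w => A c w) ⊆ Z ∪ (D.X x).filter (A c ·) ∪
          (D.E x).filter (A c ·) ∪ (D.X y).filter (A c ·) ∪ (D.DS x y).filter (A c ·) := by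
        intro w hw
        simp only [mem_filter, mem_univ, true_and] at hw
        simp only [hZ, mem_union, mem_filter, mem_univ, true_and, hw, and_true]
        tauto
      refine le_trans (card_le_card hcov) (le_trans (card_union_le _ _) ?_)
      refine Nat.add_le_add_right (le_trans (card_union_le _ _) ?_) _
      refine Nat.add_le_add_right (le_trans (card_union_le _ _) ?_) _
      exact Nat.add_le_add_right (card_union_le _ _) _
    have h3 := D.hmin c
    have h4 := D.hcon x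
    have := D.d_eq
    rw [D.hsplit x hx] at h4
    omega
  have h := sum_le_sum per
  simp only [sum_add_distrib, sum_const, smul_eq_mul, swap_count A (D.E x) (D.X x), swap_count A (D.E x) (D.X y)] at h
  simp only [iS, jS]
  nlinarith [h]

theorem excess : ∀ x ∈ D.T, ∀ y ∈ D.X x, ∀ u ∈ D.X y,
    D.r x * D.cr (D.iS x y) - (∑ z ∈ D.X x, D.cr (D.iS x z)) / D.d
      + D.r y * D.cr (D.jS x u) - (∑ w ∈ D.X y, D.cr (D.jS x w)) / D.d + D.cr (D.E x) / D.d
      ≤ D.bs x y u := by
  have hd0 := D.hd0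
  have hdne := D.hd0.ne'
  intro x hx y hy u hu
  have hyT := (D.memX.1 hy).1
  obtain ⟨-, -, hD, hS, -⟩ := D.arcfacts x hx y hy
  have hc := D.count x hx y hy u hu
  have htriE : ∀ a ∈ D.E x, ∀ b ∈ D.E x, ∀ c ∈ D.E x, Adj A a b → Adj A a c → Adj A b c → False :=
    fun a ha b hb c hc => D.htri x a b c (D.memE.1 ha).2 (D.memE.1 hb).2 (D.memE.1 hc).2
  have hind : ∀ a ∈ D.sS x y, ∀ b ∈ D.sS x y, ¬ A a b := by
    intro a ha b hb hab
    simp only [sS, mem_filter, D.memE] at ha hb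
    exact D.htri x y a b (D.memX.1 hy).2 ha.1.2 hb.1.2 ((adj_comm A).1 ha.2) ((adj_comm A).1 hb.2)
      (Or.inl hab)
  obtain ⟨hB4, hBn⟩ := arcs_le A D.hA (D.E x) (D.sS x y) (filter_subset _ _) hind htriE
  set eE := ∑ c ∈ D.E x, ((D.E x).filter (A c ·)).card with heE
  have hP : (eE : ℝ) / (D.d * D.d) ≤ D.cr (D.E x) * D.cr (D.nS x y) + D.P0 x y := by
    have hB4' : (4 : ℝ) * eE ≤ (D.E x).card * (D.E x).card := by exact_mod_cast hB4
    simp only [P0, m, sub_sub_cancel]
    split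
    · next hlow =>
      have hs' := D.hsplitS x y
      have hlow' : 2 * (D.nS x y).card ≤ (D.E x).card := by
        simp only [cr] at hlow
        field_simp at hlow
        exact_mod_cast (by linarith : (2 : ℝ) * (D.nS x y).card ≤ (D.E x).card)
      have hsd : (D.E x \ D.sS x y).card = (D.nS x y).card := by
        have := card_sdiff_add_card_eq_card (filter_subset (fun c => Adj A c y) (D.E x))
        simp only [sS] at hs' ⊢
        omega
      have h := hBn (by omega)
      rw [hsd] at h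
      have h' : (eE : ℝ) ≤ (D.nS x y).card * (D.sS x y).card := by exact_mod_cast h
      have hs'' : ((D.sS x y).card : ℝ) + (D.nS x y).card = (D.E x).card := by exact_mod_cast hs'
      simp only [cr]
      field_simp
      nlinarith
    · simp only [cr]
      field_simp
      nlinarith
  -- arcs between Ex and Dy
  have hcross : (∑ c ∈ D.E x, ((D.DS x y).filter (A c ·)).card : ℕ) +
      ((D.sS x y) \ D.aS x y u).card * ((D.DS x y) \ D.bS x y u).card ≤
      (D.E x).card * (D.DS x y).card := by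
    refine cross_le A _ _ _ _ (sdiff_subset.trans (filter_subset _ _)) sdiff_subset ?_
    intro c hc z hz hcz
    simp only [sS, aS, bS, DS, mem_sdiff, mem_filter, D.memE, not_and, not_not] at hc hz
    exact D.hK y u c z (Or.inl (D.memX.1 hu).2) ((adj_comm A).1 hc.1.2) (Or.inl hz.1.1.2)
      ((adj_comm A).1 (hc.2 hc.1)) ((adj_comm A).1 (hz.2 hz.1)) (Or.inl hcz)
  have ha : (((D.sS x y) \ D.aS x y u).card : ℝ) = (D.sS x y).card - (D.aS x y u).card := by
    simp only [aS, bS]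
    rw [card_sdiff_of_subset (filter_subset _ _), Nat.cast_sub (card_filter_le _ _)]
  have hb : (((D.DS x y) \ D.bS x y u).card : ℝ) = (D.DS x y).card - (D.bS x y u).card := by
    simp only [aS, bS]
    rw [card_sdiff_of_subset (filter_subset _ _), Nat.cast_sub (card_filter_le _ _)]
  have hcr : (∑ c ∈ D.E x, ((D.DS x y).filter (A c ·)).card : ℕ) / ((D.d : ℝ) * D.d) ≤
      D.cr (D.E x) * D.cr (D.DS x y) -
        (D.cr (D.sS x y) - D.cr (D.aS x y u)) * (D.cr (D.DS x y) - D.cr (D.bS x y u)) := by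
    have h : ((∑ c ∈ D.E x, ((D.DS x y).filter (A c ·)).card : ℕ) : ℝ) +
        ((D.sS x y).card - (D.aS x y u).card) * ((D.DS x y).card - (D.bS x y u).card) ≤
        (D.E x).card * (D.DS x y).card := by
      rw [← ha, ← hb]
      exact_mod_cast hcross
    simp only [cr]
    field_simp
    linarith
  have hcc : D.cr (D.E x) * (D.r y + D.cr (D.DS x y) + 1 - D.r x - D.cr (D.E x)) + D.cr (D.E x) / D.d -
      (∑ z ∈ D.X x, D.cr (D.iS x z)) / D.d - (∑ w ∈ D.X y, D.cr (D.jS x w)) / D.d ≤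
      (eE : ℝ) / (D.d * D.d) + (∑ c ∈ D.E x, ((D.DS x y).filter (A c ·)).card : ℕ) / ((D.d : ℝ) * D.d) := by
    have h : ((D.E x).card : ℝ) * ((D.X y).card + (D.DS x y).card + D.d) + (D.E x).card ≤
        (D.E x).card * ((D.X x).card + (D.E x).card) + (∑ z ∈ D.X x, ((D.iS x z).card : ℝ)) + eE +
          (∑ w ∈ D.X y, ((D.jS x w).card : ℝ)) +
            (∑ c ∈ D.E x, ((D.DS x y).filter (A c ·)).card : ℕ) := by
      exact_mod_cast hc
    simp only [r, cr, ← sum_div]
    field_simp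
    linarith
  rw [hS, hD] at hcr
  rw [hD] at hcc
  have hEx : D.cr (D.E x) = 1 - D.m x := by simp [m]
  rw [hEx] at hP hcr hcc
  rw [hEx]
  simp only [bs, base]
  linarith

theorem sumJ : ∀ x ∈ D.T, ∑ y ∈ D.X x, (∑ u ∈ D.X y, D.Jv x y u) / (D.X y).card ≤ 0 := by
  have hd0 := D.hd0
  have hdne := D.hd0.ne'
  intro x hx
  have hy1 : ∀ y ∈ D.X x, (∑ u ∈ D.X y, D.Jv x y u) / (D.X y).card ≤
      (D.r x * D.r y - (∑ z ∈ D.X x, D.r z) / D.d) := by
    intro y hy
    have hyT := (D.memX.1 hy).1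
    have hne := D.Xne y hyT
    have h1 : ∑ u ∈ D.X y, D.q x y u ≤ ∑ u ∈ D.X y, D.r u := by
      refine sum_le_sum fun u hu => ?_
      simp only [q]
      linarith [D.hju x u, D.habu x y u, D.hmr u (D.memX.1 hu).1]
    have h2 := two_indep_le A D.hA D.T (D.X x) (D.X y) (filter_subset _ _) (filter_subset _ _)
      (D.hXdisj x hx y hy) (D.hXindep x hx) (D.hXindep y hyT)
    have h3 : (D.T \ (D.X x ∪ D.X y)).card + ((D.X x).card + (D.X y).card) = D.d := by
      rw [← card_union_of_disjoint (D.hXdisj x hx y hy)]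
      exact card_sdiff_add_card_eq_card (union_subset (filter_subset _ _) (filter_subset _ _))
    have h4 : (∑ z ∈ D.X x, D.r z) / D.d + (∑ u ∈ D.X y, D.r u) / D.d ≤
        D.r x * D.r y + (D.r x + D.r y) * (1 - (D.r x + D.r y)) := by
      have h2' : (∑ z ∈ D.X x, ((D.X z).card : ℝ)) + ∑ u ∈ D.X y, ((D.X u).card : ℝ) ≤
          (D.X x).card * (D.X y).card +
            ((D.X x).card + (D.X y).card) * (D.T \ (D.X x ∪ D.X y)).card := by
        exact_mod_cast h2
      have h3' : ((D.T \ (D.X x ∪ D.X y)).card : ℝ) = D.d - (D.X x).card - (D.X y).card := by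
        have : ((D.T \ (D.X x ∪ D.X y)).card : ℝ) + ((D.X x).card + (D.X y).card) = D.d := by
          exact_mod_cast h3
        linarith
      rw [h3'] at h2'
      simp only [r, cr, ← sum_div]
      field_simp
      linarith
    have h5 : (∑ u ∈ D.X y, D.Jv x y u) / (D.X y).card =
        (∑ u ∈ D.X y, D.q x y u) / D.d - (D.r x + D.r y) * (1 - (D.r x + D.r y)) := by
      simp only [Jv, sum_sub_distrib, ← mul_sum, sum_const, nsmul_eq_mul]
      rw [D.hXd y] at hne ⊢
      have hne2 := left_ne_zero_of_mul hne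
      field_simp
    rw [h5]
    have : (∑ u ∈ D.X y, D.q x y u) / D.d ≤ (∑ u ∈ D.X y, D.r u) / D.d := by gcongr
    linarith
  refine le_trans (sum_le_sum hy1) (le_of_eq ?_)
  rw [sum_sub_distrib, ← mul_sum, sum_const, nsmul_eq_mul, D.hXd x]
  field_simp
  ring

theorem sumB : ∀ x ∈ D.T, (D.X x).card * (D.cr (D.E x) / D.d) ≤
    ∑ y ∈ D.X x, (∑ u ∈ D.X y, D.bs x y u) / (D.X y).card := by
  have hd0 := D.hd0
  have hdne := D.hd0.ne'
  intro x hx
  have hy1 : ∀ y ∈ D.X x, D.r x * D.cr (D.iS x y) - (∑ z ∈ D.X x, D.cr (D.iS x z)) / D.d + D.cr (D.E x) / D.d ≤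
      (∑ u ∈ D.X y, D.bs x y u) / (D.X y).card := by
    intro y hy
    have hyT := (D.memX.1 hy).1
    have hne := D.Xne y hyT
    have hp : (0 : ℝ) < (D.X y).card := by exact_mod_cast D.hXpos y hyT
    rw [le_div_iff₀ hp]
    refine le_trans (le_of_eq ?_) (sum_le_sum (D.excess x hx y hy))
    simp only [sum_add_distrib, sum_sub_distrib, sum_const, nsmul_eq_mul, ← mul_sum]
    rw [D.hXd y]
    field_simp
    ring
  refine le_trans (le_of_eq ?_) (sum_le_sum hy1)
  simp only [sum_add_distrib, sum_sub_distrib, sum_const, nsmul_eq_mul, ← mul_sum]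
  rw [D.hXd x]
  field_simp
  ring

theorem false : False := by
  have hdne := D.hd0.ne'
  obtain ⟨φ, hφ0, ⟨x₀, hx₀, hφpos⟩, hbal⟩ :=
    exists_balance A D.T (card_pos.1 (lt_of_le_of_lt (Nat.zero_le _) D.hWd))
  have swapH : ∑ x ∈ D.T, ∑ y ∈ D.X x, φ x / (D.X y).card * ∑ u ∈ D.X y, (D.H y u - D.H x y) = 0 := by
    have e1 : ∑ x ∈ D.T, ∑ y ∈ D.X x, φ x / (D.X y).card * ∑ u ∈ D.X y, D.H y u =
        ∑ y ∈ D.T, φ y * ∑ u ∈ D.X y, D.H y u := by
      simp only [X, sum_filter]
      rw [sum_comm]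
      refine sum_congr rfl fun y hy => ?_
      rw [← sum_filter (fun x => A x y), ← sum_mul, ← sum_div, hbal y hy]
      have := D.Xne y hy
      simp only [← sum_filter]
      simp only [X] at this
      field_simp
    have e2 : ∑ x ∈ D.T, ∑ y ∈ D.X x, φ x / (D.X y).card * ∑ _u ∈ D.X y, D.H x y =
        ∑ x ∈ D.T, φ x * ∑ y ∈ D.X x, D.H x y := by
      refine sum_congr rfl fun x _ => ?_
      rw [mul_sum]
      refine sum_congr rfl fun y hy => ?_
      have := D.Xne y (D.memX.1 hy).1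
      rw [sum_const, nsmul_eq_mul]
      field_simp
    simp only [sum_sub_distrib, mul_sub]
    rw [e1, e2, sub_self]
  have total : 0 < ∑ x ∈ D.T, ∑ y ∈ D.X x, φ x / (D.X y).card *
      ∑ u ∈ D.X y, (th (D.r x) (D.m x) * D.bs x y u + (D.H y u - D.H x y) - 8 / 5 * D.m x ^ 2 * D.Jv x y u) := by
    have split3 : ∀ x, ∑ y ∈ D.X x, φ x / (D.X y).card *
        ∑ u ∈ D.X y, (th (D.r x) (D.m x) * D.bs x y u + (D.H y u - D.H x y) - 8 / 5 * D.m x ^ 2 * D.Jv x y u) =
        φ x * th (D.r x) (D.m x) * (∑ y ∈ D.X x, (∑ u ∈ D.X y, D.bs x y u) / (D.X y).card)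
          + ∑ y ∈ D.X x, φ x / (D.X y).card * ∑ u ∈ D.X y, (D.H y u - D.H x y)
          - φ x * (8 / 5 * D.m x ^ 2) * (∑ y ∈ D.X x, (∑ u ∈ D.X y, D.Jv x y u) / (D.X y).card) := by
      intro x
      simp only [mul_sum, sum_div, ← sum_add_distrib, ← sum_sub_distrib]
      refine sum_congr rfl fun y _ => sum_congr rfl fun u _ => ?_
      ring
    rw [sum_congr rfl fun x _ => split3 x, sum_sub_distrib, sum_add_distrib, swapH, add_zero]
    have hJ : ∑ x ∈ D.T, φ x * (8 / 5 * D.m x ^ 2) *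
        (∑ y ∈ D.X x, (∑ u ∈ D.X y, D.Jv x y u) / (D.X y).card) ≤ 0 :=
      sum_nonpos fun x hx =>
        mul_nonpos_of_nonneg_of_nonpos (mul_nonneg (hφ0 x) (by positivity)) (D.sumJ x hx)
    have hBp : ∀ x ∈ D.T, 0 < ∑ y ∈ D.X x, (∑ u ∈ D.X y, D.bs x y u) / (D.X y).card := by
      intro x hx
      refine lt_of_lt_of_le ?_ (D.sumB x hx)
      have h1 : (0 : ℝ) < (D.X x).card := by exact_mod_cast D.hXpos x hx
      have h2 : (0 : ℝ) < (D.E x).card := by exact_mod_cast D.hEpos x hx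
      simp only [cr]
      positivity
    have hS : 0 < ∑ x ∈ D.T, φ x * th (D.r x) (D.m x) *
        (∑ y ∈ D.X x, (∑ u ∈ D.X y, D.bs x y u) / (D.X y).card) :=
      sum_pos' (fun x hx => mul_nonneg
          (mul_nonneg (hφ0 x) (th_pos (D.hm0 x) (D.hmr x hx) (D.hr1 x)).le) (hBp x hx).le)
        ⟨x₀, hx₀, mul_pos
          (mul_pos hφpos (th_pos (D.hm0 x₀) (D.hmr x₀ hx₀) (D.hr1 x₀))) (hBp x₀ hx₀)⟩
    linarith
  refine absurd total (not_lt.2 (sum_nonpos fun x hx => sum_nonpos fun y hy => ?_))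
  exact mul_nonpos_of_nonneg_of_nonpos (div_nonneg (hφ0 x) (Nat.cast_nonneg _))
    (sum_nonpos fun u hu => D.point x hx y hy u hu)

end Ctx

theorem main [Nonempty V] (hA : ∀ u v, A u v → ¬ A v u)
    (hK : ∀ a b c d, Adj A a b → Adj A a c → Adj A a d → Adj A b c → Adj A b d → Adj A c d →
      False) :
    ∃ v, (univ.filter fun u => A v u).card ≤
      (univ.filter fun w => w ≠ v ∧ ¬ A v w ∧ ∃ u, A v u ∧ A u w).card := by
  by_contra hcon
  push Not at hcon
  obtain ⟨v, -, hv⟩ := exists_min_image (univ : Finset V)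
    (fun x => (univ.filter fun u => A x u).card) univ_nonempty
  exact Ctx.false
    { T := univ.filter fun u => A v u
      W := univ.filter fun w => w ≠ v ∧ ¬ A v w ∧ ∃ u, A v u ∧ A u w
      hA := hA
      hK := hK
      triT := fun a ha b hb c hc => hK v a b c (Or.inl (mem_filter.1 ha).2)
        (Or.inl (mem_filter.1 hb).2) (Or.inl (mem_filter.1 hc).2)
      hWd := hcon v
      hWT := fun z hz hzT => (mem_filter.1 hz).2.2.1 (mem_filter.1 hzT).2
      outT := fun x hx z hxz => by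
        simp only [mem_filter, mem_univ, true_and] at hx ⊢
        by_cases hz : A v z
        · exact Or.inl hz
        · exact Or.inr ⟨fun e => hA _ _ hx (e ▸ hxz), hz, x, hx, hxz⟩
      hmin := fun x => hv x (mem_univ x)
      hcon := hcon }

end Vale.Agent.P038.K4
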